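import Mathlib

/-!
# P219: the damping factor of the regularised weight, and two small facts
-/

noncomputable section

open Set Filter Topology

namespace Vale.Agent.P219.CH.Relax.Five

/-- The factor of the regularisation. -/
def phiR (δ r : ℝ) : ℝ := (r ^ 2 / (r ^ 2 + δ ^ 2)) ^ 3

variable {δ r : ℝ}

lemma one_sub_sq_nonneg {c : ℝ} (hc : c ∈ Icc (-1 : ℝ) 1) : 0 ≤ 1 - c ^ 2 := by
  nlinarith [mul_nonneg (sub_nonneg.2 hc.2) (neg_le_iff_add_nonneg.1 hc.1)]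

lemma sqrt_two_half (hr : 0 ≤ r) : Real.sqrt (2 * (r ^ 2 / 2)) = r := by
  rw [show 2 * (r ^ 2 / 2) = r ^ 2 by ring, Real.sqrt_sq hr]

lemma phiR_mem (hδ : δ ≠ 0) (r : ℝ) : phiR δ r ∈ Icc (0 : ℝ) 1 := by
  have : 0 < r ^ 2 + δ ^ 2 := by positivity
  exact ⟨by unfold phiR; positivity, pow_le_one₀ (by positivity)
    ((div_le_one this).2 (by linarith [sq_nonneg δ]))⟩

lemma phiR_mono (hδ : δ ≠ 0) {p : ℝ} (hr : 0 ≤ r) (hrp : r ≤ p) : phiR δ r ≤ phiR δ p := by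
  refine pow_le_pow_left₀ (by positivity) ?_ 3
  rw [div_le_div_iff₀ (by positivity) (by positivity)]
  nlinarith [mul_le_mul_of_nonneg_right (pow_le_pow_left₀ hr hrp 2) (sq_nonneg δ)]

lemma phiR_loss (hδ : 0 < δ) (hr : 0 ≤ r) : (1 - phiR δ r) * r ≤ 3 * δ := by
  have hs : 0 < r ^ 2 + δ ^ 2 := by positivity
  obtain ⟨m, hm⟩ : ∃ m, m = r ^ 2 / (r ^ 2 + δ ^ 2) := ⟨_, rfl⟩
  have hm0 : 0 ≤ m := hm ▸ div_nonneg (sq_nonneg r) hs.le
  have hm1 : m ≤ 1 := hm ▸ (div_le_one hs).2 (by linarith [sq_nonneg δ])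
  have h1 : (1 - m) * r ≤ δ := by
    rw [hm, one_sub_div hs.ne', add_sub_cancel_left, div_mul_eq_mul_div, div_le_iff₀ hs]
    nlinarith [mul_nonneg hδ.le (sq_nonneg (r - δ)), mul_nonneg hδ.le hr]
  rw [phiR, ← hm]
  calc (1 - m ^ 3) * r = (1 + m + m ^ 2) * ((1 - m) * r) := by ring
    _ ≤ 3 * δ := mul_le_mul (by nlinarith) h1 (mul_nonneg (sub_nonneg.2 hm1) hr) (by norm_num)

/-- The derivative of the factor. -/
def phiR' (δ r : ℝ) : ℝ := 6 * r ^ 5 * δ ^ 2 / (r ^ 2 + δ ^ 2) ^ 4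

lemma hasDerivAt_phiR (hδ : δ ≠ 0) (r : ℝ) : HasDerivAt (phiR δ) (phiR' δ r) r := by
  have hs : r ^ 2 + δ ^ 2 ≠ 0 := by positivity
  refine ((((hasDerivAt_pow 2 r).div ((hasDerivAt_pow 2 r).add_const _) hs)).pow 3).congr_deriv ?_
  simp only [phiR', Pi.div_apply]
  push_cast
  field_simp
  ring

end Vale.Agent.P219.CH.Relax.Five
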