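import Vale.Agent.P219.Relax.Defs

/-!
# P219, dimension five, every curvature bound: the pins of the elementary certificate

In the contact cosine `t = tanh (r / 2) / tanh R` and `e = tanh R ^ 2` the weight is affine in the
cosine, `tanh R * (U + c * G)`, with `U` and `G` rational in `(e, t)`. Beyond the diameter it is
rational in `(e, p)`, `p = tanh R * coth r`. So every pointwise fact is a polynomial sign condition.
-/

noncomputable section

open Set Filter Topology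

namespace Vale.Agent.P219.CH.Relax.Five

/-! ## The data of a point and the kernel -/

/-- At one distance: `U + c * G` is the weight over `tanh R`, `U'` and `G'` the derivatives of
`U, G` in units `1 / tanh R`, `p = tanh R * coth r` and `g = tanh R / sinh r`. -/
structure Pt where
  /-- The weight at cosine zero. -/
  U : ℝ
  /-- Its derivative. -/
  U' : ℝ
  /-- The slope in the cosine. -/
  G : ℝ
  /-- Its derivative. -/
  G' : ℝ
  /-- The mean curvature of the sphere. -/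
  p : ℝ
  /-- The inverse radius of the sphere. -/
  g : ℝ

/-- The kernel without the term of the slope in the cosine. -/
def ker (o : Pt) (c d : ℝ) : ℝ :=
  (1 - d ^ 2) * (o.U' + c * o.G') + (o.U + c * o.G) * (o.p * (3 + d ^ 2) - 4 * d)

/-- A lower bound of the symmetrised kernel (`G ≤ 0`, and the geometric mean of the two squared
sines is at most their arithmetic mean). -/
def symB (o : Pt) (c d : ℝ) : ℝ :=
  2 + ker o c d + ker o d c + o.g * o.G * (|c| + |d|) * (1 - (c ^ 2 + d ^ 2) / 2)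

/-- A lower bound at `(c, 1)` from the tangent at the diagonal of the mean of the two squared sines;
along `c + d` constant this bound is affine in `c * d`. -/
def symE (o : Pt) (c : ℝ) : ℝ :=
  2 + ker o c 1 + ker o 1 c + o.g * o.G * (1 + c) * ((1 - c ^ 2) / (3 + c))

/-- The constant coefficient of the diagonal. -/
def k0 (o : Pt) : ℝ := 1 + o.U' + 3 * o.p * o.U

/-- The linear coefficient. -/
def k1 (o : Pt) : ℝ := o.G' + 3 * o.p * o.G - 4 * o.U + o.g * o.G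

/-- The quadratic coefficient. -/
def k2 (o : Pt) : ℝ := -o.U' + o.p * o.U - 4 * o.G

/-- The cubic coefficient. -/
def k3 (o : Pt) : ℝ := -o.G' + o.p * o.G - o.g * o.G

/-- Half the symmetrised kernel at equal nonnegative cosines. -/
def diag (o : Pt) (c : ℝ) : ℝ := k0 o + k1 o * c + k2 o * c ^ 2 + k3 o * c ^ 3

/-- The derivative in `c` of `diag o c / c ^ 2`. -/
def slope (o : Pt) (c : ℝ) : ℝ := -2 * k0 o / c ^ 3 - k1 o / c ^ 2 + k3 o

/-- The facts at one distance; all are needed for both ranges. -/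
structure GoodPt (o : Pt) : Prop where
  weight_pos : 0 < o.U + o.G
  slope_nonpos : o.G ≤ 0
  mono : 0 ≤ o.U' + 3 * o.p * o.U
  conv₀ : 0 ≤ k0 o
  conv₁ : 0 ≤ 3 * k0 o + k1 o
  zero : ∀ c ∈ Icc (0 : ℝ) 1, 0 ≤ symB o c 0
  gain_diag : ∀ c ∈ Icc (0 : ℝ) 1, 0 ≤ diag o c + c ^ 2 * (o.g * (o.U + o.G))
  gain_end : ∀ c ∈ Icc (0 : ℝ) 1, 0 ≤ symE o c + 2 * c * (o.g * (o.U + o.G))
  mixed : ∀ c ∈ Icc (0 : ℝ) 1, ∀ d ∈ Icc (0 : ℝ) 1, 2 * (c * d) * (o.g * o.U) ≤ symB o c (-d)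
  outward : ∀ c ∈ Icc (0 : ℝ) 1, ∀ d ∈ Icc (0 : ℝ) 1, 0 ≤ symB o (-c) (-d)

/-- The pair bound when one cosine is one, against the tangent at the contact `t`. -/
def EndCond (o : Pt) (t : ℝ) : Prop :=
  ∀ c ∈ Icc (0 : ℝ) 1,
    c * (2 * diag o t / t ^ 2 + slope o t * (c + 1 - 2 * t)) ≤ symE o c

/-! ## The certificate inside the diameter -/

/-- The common denominator. -/
def den (e : ℝ) : ℝ := 18 * (1 - e) ^ 2 * (29 - 21 * e)

/-- The volume coefficient over `8 tanh R ^ 3`. -/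
def betaHat (e : ℝ) : ℝ := 9 * (120 - 85 * e + 5 * e ^ 2) / den e

/-- The numerator of the radial part. -/
def numA (e t : ℝ) : ℝ :=
  2 * (120 - 85 * e + 5 * e ^ 2) + (-21 + 541 * e - 629 * e ^ 2 + 189 * e ^ 3) * t +
    2 * (-43 * e - 129 * e ^ 2 + 111 * e ^ 3 - 3 * e ^ 4) * t ^ 2 +
    2 * (15 * e - 287 * e ^ 2 + 253 * e ^ 3 - 45 * e ^ 4) * t ^ 3 +
    2 * (10 * e ^ 2 + 64 * e ^ 3 - 53 * e ^ 4 + 3 * e ^ 5) * t ^ 4 +
    3 * (-3 * e ^ 2 + 69 * e ^ 3 - 59 * e ^ 4 + 9 * e ^ 5) * t ^ 5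

/-- Its derivative in `t`. -/
def numA' (e t : ℝ) : ℝ :=
  (-21 + 541 * e - 629 * e ^ 2 + 189 * e ^ 3) +
    4 * (-43 * e - 129 * e ^ 2 + 111 * e ^ 3 - 3 * e ^ 4) * t +
    6 * (15 * e - 287 * e ^ 2 + 253 * e ^ 3 - 45 * e ^ 4) * t ^ 2 +
    8 * (10 * e ^ 2 + 64 * e ^ 3 - 53 * e ^ 4 + 3 * e ^ 5) * t ^ 3 +
    15 * (-3 * e ^ 2 + 69 * e ^ 3 - 59 * e ^ 4 + 9 * e ^ 5) * t ^ 4

/-- The numerator of the slope in the cosine. -/
def numB (e t : ℝ) : ℝ :=
  (-87 + 169 * e - 397 * e ^ 2 + 297 * e ^ 3 - 30 * e ^ 4) * t +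
    2 * (19 * e - 421 * e ^ 2 + 447 * e ^ 3 - 93 * e ^ 4) * t ^ 2 +
    2 * (24 * e - 240 * e ^ 2 + 323 * e ^ 3 - 110 * e ^ 4 + 3 * e ^ 5) * t ^ 3 +
    6 * (-3 * e ^ 2 + 69 * e ^ 3 - 59 * e ^ 4 + 9 * e ^ 5) * t ^ 4 +
    3 * (-3 * e ^ 2 + 69 * e ^ 3 - 59 * e ^ 4 + 9 * e ^ 5) * t ^ 5

/-- Its derivative in `t`. -/
def numB' (e t : ℝ) : ℝ :=
  (-87 + 169 * e - 397 * e ^ 2 + 297 * e ^ 3 - 30 * e ^ 4) +
    4 * (19 * e - 421 * e ^ 2 + 447 * e ^ 3 - 93 * e ^ 4) * t +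
    6 * (24 * e - 240 * e ^ 2 + 323 * e ^ 3 - 110 * e ^ 4 + 3 * e ^ 5) * t ^ 2 +
    24 * (-3 * e ^ 2 + 69 * e ^ 3 - 59 * e ^ 4 + 9 * e ^ 5) * t ^ 3 +
    15 * (-3 * e ^ 2 + 69 * e ^ 3 - 59 * e ^ 4 + 9 * e ^ 5) * t ^ 4

/-- The weight over `tanh R` at cosine equal to the contact. -/
def PF (e t : ℝ) : ℝ := numA e t / (den e * (1 + t))

/-- Its derivative in `t`. -/
def PF' (e t : ℝ) : ℝ := (numA' e t * (1 + t) - numA e t) / (den e * (1 + t) ^ 2)

/-- The slope in the cosine. -/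
def QF (e t : ℝ) : ℝ := numB e t / (den e * (1 + t) ^ 2)

/-- Its derivative in `t`. -/
def QF' (e t : ℝ) : ℝ := (numB' e t * (1 + t) - 2 * numB e t) / (den e * (1 + t) ^ 3)

/-- The common factor. -/
def yf (e t : ℝ) : ℝ := 1 - e * t ^ 2

/-- The point at the contact `t`. -/
def ptIn (e t : ℝ) : Pt where
  U := PF e t - t * QF e t
  U' := yf e t / 2 * (PF' e t - QF e t - t * QF' e t)
  G := QF e t
  G' := yf e t / 2 * QF' e t
  p := (1 + e * t ^ 2) / (2 * t)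
  g := yf e t / (2 * t)

/-- The slope of the marginal coefficient over the cosine, up to `16 tanh R ^ 4`. -/
def aSlope (e t : ℝ) : ℝ := t ^ 4 / yf e t ^ 4 * slope (ptIn e t) t

/-! ## Beyond the diameter -/

/-- The ratio `(sinh (2 R) / sinh r) ^ 2`. -/
def sigF (e p : ℝ) : ℝ := (p ^ 2 - e) / ((1 - e) / 2) ^ 2

/-- The continuation of `(4 coth r - 4 / tanh R) u (r, 1) + 1`, at least the affine one. -/
def XF (e p : ℝ) : ℝ :=
  (1 - 2 * (1 - e) * PF e 1) * sigF e p ^ 2 +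
    betaHat e * (1 - e) ^ 4 / (2 * (1 + e)) * (sigF e p - sigF e p ^ 2)

/-- Its derivative in `sigF`. -/
def XF' (e p : ℝ) : ℝ :=
  2 * (1 - 2 * (1 - e) * PF e 1) * sigF e p +
    betaHat e * (1 - e) ^ 4 / (2 * (1 + e)) * (1 - 2 * sigF e p)

/-- The coefficient of the continuation of `G`, from its derivative at the diameter. -/
def gCoef (e : ℝ) : ℝ := (ptIn e 1).G' / ((1 - e) / 2) ^ 2

/-- The continuation of `G`, with the same value and derivative at the diameter. -/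
def GOut (e p : ℝ) : ℝ := QF e 1 + gCoef e * ((1 + e) / 2 - p)

/-- The point beyond the diameter, `g` with `g ^ 2 = p ^ 2 - e`. -/
def ptOut (e p g : ℝ) : Pt where
  U := (1 - XF e p) / (4 * (1 - p)) - GOut e p
  U' := (2 * p * sigF e p * XF' e p / (1 - p) - (1 - XF e p) * (p ^ 2 - e) / (1 - p) ^ 2) / 4 -
    gCoef e * (p ^ 2 - e)
  G := GOut e p
  G' := gCoef e * (p ^ 2 - e)
  p := p
  g := g

/-- The range of `p` beyond the diameter. -/
def OutRange (e p g : ℝ) : Prop := 0 < g ∧ g ^ 2 = p ^ 2 - e ∧ 0 < p ∧ p ≤ (1 + e) / 2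

/-! ## Pins -/

/-- The facts inside the diameter. -/
structure InFacts (e : ℝ) : Prop where
  good : ∀ t ∈ Ioc (0 : ℝ) 1, GoodPt (ptIn e t)
  endc : ∀ t ∈ Ioc (0 : ℝ) 1, EndCond (ptIn e t) t
  slope : ∀ t ∈ Ioc (0 : ℝ) 1, slope (ptIn e t) t ≤ 0
  conc : AntitoneOn (aSlope e) (Ioc 0 1)

/-- The facts beyond the diameter. -/
structure OutFacts (e : ℝ) : Prop where
  good : ∀ p g, OutRange e p g → GoodPt (ptOut e p g)
  endc : ∀ p g, OutRange e p g → EndCond (ptOut e p g) 1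
  slope : ∀ p g, OutRange e p g →
    slope (ptOut e p g) 1 ≤ sigF e p ^ 2 * slope (ptIn e 1) 1

/-- The facts inside hold for every radius. -/
def InPin : Prop := ∀ e ∈ Ioo (0 : ℝ) 1, InFacts e

/-- The facts beyond hold for every radius. -/
def OutPin : Prop := ∀ e ∈ Ioo (0 : ℝ) 1, OutFacts e

/-- The marginal coefficient, read off at the contact of the chord with cosine `c`. -/
def aFive (R c : ℝ) : ℝ :=
  c * (16 * Real.tanh R ^ 4 * c ^ 2 / yf (Real.tanh R ^ 2) c ^ 4 *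
      diag (ptIn (Real.tanh R ^ 2) c) c -
    8 * Real.tanh R ^ 3 * betaHat (Real.tanh R ^ 2) *
      Real.log ((1 + Real.tanh R * c) / (1 - Real.tanh R * c)))

/-- The value clause, an identity. -/
def ValuePin : Prop :=
  ∀ R : ℝ, 0 < R → InFacts (Real.tanh R ^ 2) →
    Real.sinh R ^ (2 * (5 - 1)) + Gen.cmean 5 (fun c => -aFive R c) * Real.sinh R ^ (5 - 1) ≤
      8 * Real.tanh R ^ 3 * betaHat (Real.tanh R ^ 2) * ∫ t in (0 : ℝ)..R, Real.sinh t ^ (5 - 1)

/-- The facts and the value give a certificate. -/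
def CertPin : Prop :=
  ValuePin → ∀ R : ℝ, 0 < R → InFacts (Real.tanh R ^ 2) → OutFacts (Real.tanh R ^ 2) →
    CertAt 5 R (aFive R) (8 * Real.tanh R ^ 3 * betaHat (Real.tanh R ^ 2))

/-- The four pins give certificates against every ball. -/
theorem cert_of_pins (hi : InPin) (ho : OutPin) (hv : ValuePin) (hc : CertPin) : Cert 5 := by
  intro R hR
  have h0 : 0 < Real.tanh R := by
    rw [Real.tanh_eq_sinh_div_cosh]
    exact div_pos (Real.sinh_pos_iff.2 hR) (Real.cosh_pos R)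
  have he : Real.tanh R ^ 2 ∈ Ioo (0 : ℝ) 1 :=
    ⟨pow_pos h0 2, pow_lt_one₀ h0.le (Real.tanh_lt_one R) two_ne_zero⟩
  exact ⟨_, _, hc hv R hR (hi _ he) (ho _ he)⟩

end Vale.Agent.P219.CH.Relax.Five
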