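import Vale.Agent.P219.Relax.Five.Damp
import Vale.Agent.P219.Relax.Five.Defs

/-!
# P219, dimension five: the reduction of the pair conditions to the facts at one distance

Along `c + d` constant the lower bound of the symmetrised kernel is affine in `c * d`, so the pair
conditions follow from the diagonal and the two ends `c * d = 0` and `d = 1`.
-/

noncomputable section

open Set

namespace Vale.Agent.P219.CH.Relax.Five

/-- The symmetrised kernel. -/
def symX (o : Pt) (c d : ℝ) : ℝ :=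
  2 + ker o c d + ker o d c +
    o.g * o.G * (|c| + |d|) * (Real.sqrt (1 - c ^ 2) * Real.sqrt (1 - d ^ 2))

lemma sqrt_mul_le_mean {a b : ℝ} (ha : 0 ≤ a) (hb : 0 ≤ b) :
    Real.sqrt a * Real.sqrt b ≤ (a + b) / 2 := by
  linarith [sq_nonneg (Real.sqrt a - Real.sqrt b), Real.sq_sqrt ha, Real.sq_sqrt hb]

variable {o : Pt}

lemma le_symX_of_bound (hG : o.G ≤ 0) (hg : 0 ≤ o.g) {c d B : ℝ}
    (hB : Real.sqrt (1 - c ^ 2) * Real.sqrt (1 - d ^ 2) ≤ B) :
    2 + ker o c d + ker o d c + o.g * o.G * (|c| + |d|) * B ≤ symX o c d := by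
  have : o.g * o.G * (|c| + |d|) ≤ 0 :=
    mul_nonpos_of_nonpos_of_nonneg (mul_nonpos_of_nonneg_of_nonpos hg hG) (by positivity)
  have := mul_le_mul_of_nonpos_left hB this
  rw [symX]
  linarith

lemma symB_le_symX (hG : o.G ≤ 0) (hg : 0 ≤ o.g) {c d : ℝ} (hc : c ∈ Icc (-1 : ℝ) 1)
    (hd : d ∈ Icc (-1 : ℝ) 1) : symB o c d ≤ symX o c d := by
  refine le_symX_of_bound hG hg ((sqrt_mul_le_mean (one_sub_sq_nonneg hc)
    (one_sub_sq_nonneg hd)).trans_eq ?_)
  ring

lemma symB_diag (o : Pt) {m : ℝ} (hm : 0 ≤ m) : symB o m m = 2 * diag o m := by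
  simp only [symB, ker, diag, k0, k1, k2, k3, abs_of_nonneg hm]
  ring

lemma symX_comm (o : Pt) (c d : ℝ) : symX o c d = symX o d c := by
  simp only [symX]
  ring

/-- The tangent bound on the diagonal from convexity. -/
lemma diag_tangent (h0 : 0 ≤ k0 o) (h1 : 0 ≤ 3 * k0 o + k1 o) {m t : ℝ}
    (hm : m ∈ Ioc (0 : ℝ) 1) (ht : t ∈ Ioc (0 : ℝ) 1) :
    m ^ 2 * (diag o t / t ^ 2 + slope o t * (m - t)) ≤ diag o m := by
  obtain ⟨hm0, hm1⟩ := hm
  obtain ⟨ht0, ht1⟩ := ht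
  have e : diag o m - m ^ 2 * (diag o t / t ^ 2 + slope o t * (m - t)) =
      (m - t) ^ 2 * (k0 o * (2 * m + t) + k1 o * (m * t)) / t ^ 3 := by
    rw [slope, diag, diag]
    field_simp
    ring
  have h : 0 ≤ k0 o * (2 * m + t) + k1 o * (m * t) := by
    nlinarith [mul_nonneg h1 (mul_nonneg hm0.le ht0.le),
      mul_nonneg (mul_nonneg h0 hm0.le) (sub_nonneg.2 ht1),
      mul_nonneg (mul_nonneg h0 ht0.le) (sub_nonneg.2 hm1)]
  linarith [div_nonneg (mul_nonneg (sq_nonneg (m - t)) h) (pow_nonneg ht0.le 3)]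

/-- An affine function nonnegative at two points is nonnegative between them. -/
lemma affine_nonneg {α β a b x : ℝ} (hax : a ≤ x) (hxb : x ≤ b) (ha : 0 ≤ α + β * a)
    (hb : 0 ≤ α + β * b) : 0 ≤ α + β * x := by
  rcases le_total 0 β with h | h
  · linarith [mul_le_mul_of_nonneg_left hax h]
  · linarith [mul_le_mul_of_nonpos_left hxb h]

/-- The symmetrised kernel without the root, in the sum and the product of the cosines. -/
def kSum (o : Pt) (s π : ℝ) : ℝ :=
  2 + (2 - s ^ 2 + 2 * π) * o.U' + (s - s * π) * o.G' +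
    o.p * (o.U * (6 + s ^ 2 - 2 * π) + o.G * (3 * s + s * π)) - 4 * (o.U * s + 2 * o.G * π)

lemma kSum_eq (o : Pt) (c d : ℝ) : 2 + ker o c d + ker o d c = kSum o (c + d) (c * d) := by
  simp only [ker, kSum]
  ring

/-- The master reduction: `M` may be any coefficient of `c * d`. -/
lemma pair_nonneg (hG : o.G ≤ 0) (hg : 0 ≤ o.g) {M : ℝ → ℝ}
    (hdiag : ∀ m ∈ Ioc (0 : ℝ) 1, 0 ≤ 2 * diag o m + m ^ 2 * M (2 * m))
    (hzero : ∀ c ∈ Icc (0 : ℝ) 1, 0 ≤ symB o c 0)
    (hend : ∀ c ∈ Icc (0 : ℝ) 1, 0 ≤ symE o c + c * M (c + 1))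
    {c d : ℝ} (hc : c ∈ Icc (0 : ℝ) 1) (hd : d ∈ Icc (0 : ℝ) 1) :
    0 ≤ symX o c d + c * d * M (c + d) := by
  obtain ⟨hc0, hc1⟩ := hc
  obtain ⟨hd0, hd1⟩ := hd
  have hπ0 : 0 ≤ c * d := mul_nonneg hc0 hd0
  have hπ : c * d ≤ (c + d) ^ 2 / 4 := by linarith [sq_nonneg (c - d)]
  have hcI : c ∈ Icc (-1 : ℝ) 1 := ⟨by linarith, hc1⟩
  have hdI : d ∈ Icc (-1 : ℝ) 1 := ⟨by linarith, hd1⟩
  obtain ⟨s, hs⟩ : ∃ s, s = c + d := ⟨_, rfl⟩
  rw [← hs] at hπ ⊢
  rcases le_total s 1 with h1 | h1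
  · rcases (show 0 ≤ s by linarith).eq_or_lt with h0 | h0
    · obtain rfl : c = 0 := by linarith
      obtain rfl : d = 0 := by linarith
      have := hzero 0 ⟨le_rfl, zero_le_one⟩
      have := symB_le_symX hG hg hcI hdI
      linarith
    have e : ∀ a b : ℝ, 0 ≤ a → 0 ≤ b → a + b = s → symB o a b + a * b * M s =
        (kSum o s 0 + o.g * o.G * s * (1 - s ^ 2 / 2)) + (2 * o.U' - s * o.G' +
          o.p * (-2 * o.U + s * o.G) - 8 * o.G + o.g * o.G * s + M s) * (a * b) := by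
      intro a b ha hb hab
      subst hab
      rw [symB, abs_of_nonneg ha, abs_of_nonneg hb, kSum_eq]
      simp only [kSum]
      ring
    have ea := e s 0 h0.le le_rfl (add_zero s)
    have eb := e (s / 2) (s / 2) (by linarith) (by linarith) (by ring)
    have ha := hzero s ⟨h0.le, h1⟩
    have hb := hdiag (s / 2) ⟨by linarith, by linarith⟩
    rw [← symB_diag o (by linarith : (0 : ℝ) ≤ s / 2)] at hb
    rw [show 2 * (s / 2) = s by ring, sq] at hb
    rw [eb] at hb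
    simp only [mul_zero, zero_mul, add_zero] at ea
    rw [ea] at ha
    have hx := affine_nonneg hπ0 hπ (by simpa using ha)
      (by rw [show s ^ 2 / 4 = s / 2 * (s / 2) by ring]; exact hb)
    rw [← e c d hc0 hd0 hs.symm] at hx
    linarith [symB_le_symX hG hg hcI hdI]
  · rcases (show s ≤ 2 by linarith).eq_or_lt with h2 | h2
    · obtain rfl : c = 1 := by linarith
      obtain rfl : d = 1 := by linarith
      have h := hdiag 1 ⟨zero_lt_one, le_rfl⟩
      rw [← symB_diag o zero_le_one] at h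
      have := symB_le_symX hG hg hcI hdI
      rw [h2]
      simp only [one_pow, one_mul, mul_one] at h ⊢
      linarith
    obtain ⟨H, hH⟩ : ∃ H, H = s ^ 2 / 4 := ⟨_, rfl⟩
    have hH1 : H < 1 := by rw [hH]; nlinarith
    have hH0 : 0 ≤ H := by rw [hH]; positivity
    obtain ⟨κ, hκ⟩ : ∃ κ, κ = (1 + H) / (1 - H) := ⟨_, rfl⟩
    obtain ⟨L, hL⟩ : ∃ L : ℝ → ℝ,
        ∀ π, L π = kSum o s π + o.g * o.G * s * (1 - H + κ * (π - H)) + π * M s :=
      ⟨_, fun _ => rfl⟩
    have hlin : ∀ π, L π = L 0 + (L 1 - L 0) * π := fun π => by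
      simp only [hL, kSum]
      ring
    have ha : 0 ≤ L (s - 1) := by
      have h := hend (s - 1) ⟨by linarith, by linarith⟩
      rw [show s - 1 + 1 = s by ring] at h
      have eB : (1 - (s - 1) ^ 2) / (3 + (s - 1)) = 1 - H + κ * (s - 1 - H) := by
        rw [hκ, hH]
        have : (1 : ℝ) - s ^ 2 / 4 ≠ 0 := by linarith
        have : (4 : ℝ) - s ^ 2 ≠ 0 := by linarith
        have : (3 : ℝ) + (s - 1) ≠ 0 := by linarith
        field_simp
        ring
      refine h.trans_eq ?_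
      rw [hL, symE, kSum_eq, eB, show s - 1 + 1 = s by ring, mul_one, show 1 + (s - 1) = s by ring]
    have hb : 0 ≤ L H := by
      have h := hdiag (s / 2) ⟨by linarith, by linarith⟩
      rw [show 2 * (s / 2) = s by ring, ← symB_diag o (by linarith : (0 : ℝ) ≤ s / 2)] at h
      refine h.trans_eq ?_
      rw [hL, symB, kSum_eq, show s / 2 + s / 2 = s by ring, abs_of_nonneg (by linarith : 0 ≤ s / 2),
        show s / 2 + s / 2 = s by ring, hH]
      ring_nf
    rw [hlin] at ha hb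
    have hlo : s - 1 ≤ c * d := by nlinarith [mul_nonneg (sub_nonneg.2 hc1) (sub_nonneg.2 hd1)]
    have hx := affine_nonneg hlo (hπ.trans_eq hH.symm) ha hb
    rw [← hlin, hL] at hx
    have hB : Real.sqrt (1 - c ^ 2) * Real.sqrt (1 - d ^ 2) ≤ 1 - H + κ * (c * d - H) := by
      have he : (1 - c ^ 2) * (1 - d ^ 2) = (1 + c * d) ^ 2 - 4 * H := by
        rw [hH, hs]; ring
      have e2 : 1 - H + κ * (c * d - H) = ((1 + H) * (1 + c * d) - 4 * H) / (1 - H) := by
        rw [hκ]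
        have : (1 : ℝ) - H ≠ 0 := by linarith
        field_simp
        ring
      have h4 : 4 * H ≤ (1 + H) * (1 + c * d) := by
        have : s ^ 2 ≤ (1 + c * d) ^ 2 := by
          rw [hs]
          nlinarith [mul_nonneg (one_sub_sq_nonneg hcI) (one_sub_sq_nonneg hdI)]
        have h5 : s ≤ 1 + c * d := by nlinarith
        have h6 : s ^ 2 ≤ (1 + H) * s := by rw [hH]; nlinarith [sq_nonneg (s - 2)]
        nlinarith [mul_le_mul_of_nonneg_left h5 (by linarith : (0 : ℝ) ≤ 1 + H)]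
      rw [← Real.sqrt_mul (one_sub_sq_nonneg hcI), he, Real.sqrt_le_iff, e2]
      refine ⟨div_nonneg (by linarith) (by linarith), ?_⟩
      rw [div_pow, le_div_iff₀ (pow_pos (by linarith) 2)]
      nlinarith [mul_nonneg hH0 (sq_nonneg (c * d - H))]
    have h3 := le_symX_of_bound hG hg hB
    rw [kSum_eq, abs_of_nonneg hc0, abs_of_nonneg hd0, ← hs] at h3
    linarith

/-- The kernel is negative by at most the gain, for every sign. -/
theorem GoodPt.gain (h : GoodPt o) (hg : 0 ≤ o.g) {c d : ℝ} (hc : c ∈ Icc (-1 : ℝ) 1)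
    (hd : d ∈ Icc (-1 : ℝ) 1) :
    0 ≤ symX o c d +
      2 * |c * d| * (o.g * Real.sqrt ((o.U + c * o.G) * (o.U + d * o.G))) := by
  have hG := h.slope_nonpos
  have hU := h.weight_pos
  have hx : ∀ c : ℝ, c ≤ 1 → o.U + o.G ≤ o.U + c * o.G := fun c hc => by
    linarith [mul_le_mul_of_nonpos_right hc hG]
  have hs : o.U + o.G ≤ Real.sqrt ((o.U + c * o.G) * (o.U + d * o.G)) :=
    Real.le_sqrt_of_sq_le (by
      rw [sq]
      exact mul_le_mul (hx c hc.2) (hx d hd.2) hU.le (hU.le.trans (hx c hc.2)))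
  have hgain : 0 ≤ 2 * |c * d| * (o.g * Real.sqrt ((o.U + c * o.G) * (o.U + d * o.G))) :=
    mul_nonneg (by positivity) (mul_nonneg hg (Real.sqrt_nonneg _))
  have hgU : 0 ≤ o.g * o.U := mul_nonneg hg (by linarith)
  rcases le_total 0 c with hc0 | hc0 <;> rcases le_total 0 d with hd0 | hd0
  · have h1 := pair_nonneg hG hg (M := fun _ => 2 * (o.g * (o.U + o.G)))
      (fun m hm => by have := h.gain_diag m (Ioc_subset_Icc_self hm); linarith) h.zero
      (fun x hx => by have := h.gain_end x hx; linarith) ⟨hc0, hc.2⟩ ⟨hd0, hd.2⟩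
    have h2 := mul_le_mul_of_nonneg_left hs (mul_nonneg (mul_nonneg (mul_nonneg zero_le_two hc0) hd0) hg)
    rw [abs_of_nonneg (mul_nonneg hc0 hd0)]
    linarith
  · have h1 := h.mixed c ⟨hc0, hc.2⟩ (-d) ⟨by linarith, by linarith [hd.1]⟩
    rw [neg_neg] at h1
    have := symB_le_symX hG hg hc hd
    have := mul_nonneg (mul_nonneg hc0 (neg_nonneg.2 hd0)) hgU
    linarith
  · have h1 := h.mixed d ⟨hd0, hd.2⟩ (-c) ⟨by linarith, by linarith [hc.1]⟩
    rw [neg_neg] at h1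
    have := symB_le_symX hG hg hd hc
    have := mul_nonneg (mul_nonneg hd0 (neg_nonneg.2 hc0)) hgU
    rw [symX_comm o c d]
    linarith
  · have h1 := h.outward (-c) ⟨by linarith, by linarith [hc.1]⟩ (-d)
      ⟨by linarith, by linarith [hd.1]⟩
    rw [neg_neg, neg_neg] at h1
    have := symB_le_symX hG hg hc hd
    linarith

/-- The pair bound from the tangent at `t`. -/
theorem GoodPt.pair (h : GoodPt o) (hg : 0 ≤ o.g) {t : ℝ} (ht : t ∈ Ioc (0 : ℝ) 1)
    (he : EndCond o t) {c d : ℝ} (hc : c ∈ Icc (0 : ℝ) 1) (hd : d ∈ Icc (0 : ℝ) 1) :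
    c * d * (2 * diag o t / t ^ 2 + slope o t * (c + d - 2 * t)) ≤ symX o c d := by
  have := pair_nonneg h.slope_nonpos hg
    (M := fun s => -(2 * diag o t / t ^ 2 + slope o t * (s - 2 * t))) ?_ h.zero ?_ hc hd
  · linarith
  · intro m hm
    have := diag_tangent h.conv₀ h.conv₁ hm ht
    rw [mul_div_assoc]
    linarith
  · intro x hx
    have := he x hx
    linarith

/-- The bounds with an outward cosine. -/
theorem GoodPt.mixed_le (h : GoodPt o) (hg : 0 ≤ o.g) {c d : ℝ} (hc : c ∈ Icc (0 : ℝ) 1)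
    (hd : d ∈ Icc (0 : ℝ) 1) :
    2 * (c * d) * (o.g * o.U) ≤ symX o c (-d) ∧ 0 ≤ symX o (-c) (-d) := by
  have hn : ∀ x : ℝ, x ∈ Icc (0 : ℝ) 1 → x ∈ Icc (-1 : ℝ) 1 ∧ -x ∈ Icc (-1 : ℝ) 1 := fun x hx =>
    ⟨⟨by linarith [hx.1], hx.2⟩, by linarith [hx.2], by linarith [hx.1]⟩
  exact ⟨(h.mixed c hc d hd).trans (symB_le_symX h.slope_nonpos hg (hn c hc).1 (hn d hd).2),
    (h.outward c hc d hd).trans (symB_le_symX h.slope_nonpos hg (hn c hc).2 (hn d hd).2)⟩

end Vale.Agent.P219.CH.Relax.Five
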