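import Vale.Agent.P219.Relax.Five.Profile

/-!
# P219, dimension five: the marginal coefficient and the tangency identity
-/

noncomputable section

open Set Filter Topology

namespace Vale.Agent.P219.CH.Relax.Five

open GenK.Four (tanh_pos tanh_lt_one')

/-- The second derivative of `numA`. -/
def numA'' (e t : ℝ) : ℝ :=
  4 * (-43 * e - 129 * e ^ 2 + 111 * e ^ 3 - 3 * e ^ 4) +
    12 * (15 * e - 287 * e ^ 2 + 253 * e ^ 3 - 45 * e ^ 4) * t +
    24 * (10 * e ^ 2 + 64 * e ^ 3 - 53 * e ^ 4 + 3 * e ^ 5) * t ^ 2 +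
    60 * (-3 * e ^ 2 + 69 * e ^ 3 - 59 * e ^ 4 + 9 * e ^ 5) * t ^ 3

/-- The second derivative of `numB`. -/
def numB'' (e t : ℝ) : ℝ :=
  4 * (19 * e - 421 * e ^ 2 + 447 * e ^ 3 - 93 * e ^ 4) +
    12 * (24 * e - 240 * e ^ 2 + 323 * e ^ 3 - 110 * e ^ 4 + 3 * e ^ 5) * t +
    72 * (-3 * e ^ 2 + 69 * e ^ 3 - 59 * e ^ 4 + 9 * e ^ 5) * t ^ 2 +
    60 * (-3 * e ^ 2 + 69 * e ^ 3 - 59 * e ^ 4 + 9 * e ^ 5) * t ^ 3

/-- The second derivative of `PF`. -/
def PF'' (e t : ℝ) : ℝ :=
  (numA'' e t * (1 + t) ^ 2 - 2 * (numA' e t * (1 + t) - numA e t)) / (den e * (1 + t) ^ 3)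

/-- The second derivative of `QF`. -/
def QF'' (e t : ℝ) : ℝ :=
  (numB'' e t * (1 + t) ^ 2 - 4 * numB' e t * (1 + t) + 6 * numB e t) / (den e * (1 + t) ^ 4)

variable {e t : ℝ}

lemma hasDerivAt_PF' (he : e ∈ Ioo (0 : ℝ) 1) (ht : 1 + t ≠ 0) :
    HasDerivAt (PF' e) (PF'' e t) t := by
  have hA' : HasDerivAt (numA' e) (numA'' e t) t := by
    unfold numA'
    refine ((((((hasDerivAt_id t).const_mul _).const_add _).add
      ((hasDerivAt_pow 2 t).const_mul _)).add ((hasDerivAt_pow 3 t).const_mul _)).add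
      ((hasDerivAt_pow 4 t).const_mul _)).congr_deriv ?_
    simp only [numA'']
    push_cast
    ring
  have hA : HasDerivAt (numA e) (numA' e t) t := by
    unfold numA
    refine (((((((hasDerivAt_id t).const_mul _).const_add _).add
      ((hasDerivAt_pow 2 t).const_mul _)).add ((hasDerivAt_pow 3 t).const_mul _)).add
      ((hasDerivAt_pow 4 t).const_mul _)).add ((hasDerivAt_pow 5 t).const_mul _)).congr_deriv ?_
    simp only [numA']
    push_cast
    ring
  have hd := (den_pos he).ne'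
  refine (((hA'.mul ((hasDerivAt_id t).const_add 1)).sub hA).div
    ((((hasDerivAt_id t).const_add 1).pow 2).const_mul (den e))
    (mul_ne_zero hd (pow_ne_zero 2 ht))).congr_deriv ?_
  simp only [PF'', id_eq, Pi.pow_apply, Pi.mul_apply, Pi.sub_apply]
  push_cast
  field_simp
  ring

lemma hasDerivAt_QF' (he : e ∈ Ioo (0 : ℝ) 1) (ht : 1 + t ≠ 0) :
    HasDerivAt (QF' e) (QF'' e t) t := by
  have hB' : HasDerivAt (numB' e) (numB'' e t) t := by
    unfold numB'
    refine ((((((hasDerivAt_id t).const_mul _).const_add _).add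
      ((hasDerivAt_pow 2 t).const_mul _)).add ((hasDerivAt_pow 3 t).const_mul _)).add
      ((hasDerivAt_pow 4 t).const_mul _)).congr_deriv ?_
    simp only [numB'']
    push_cast
    ring
  have hB : HasDerivAt (numB e) (numB' e t) t := by
    unfold numB
    refine ((((((hasDerivAt_id t).const_mul _).add
      ((hasDerivAt_pow 2 t).const_mul _)).add ((hasDerivAt_pow 3 t).const_mul _)).add
      ((hasDerivAt_pow 4 t).const_mul _)).add ((hasDerivAt_pow 5 t).const_mul _)).congr_deriv ?_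
    simp only [numB']
    push_cast
    ring
  have hd := (den_pos he).ne'
  refine (((hB'.mul ((hasDerivAt_id t).const_add 1)).sub (hB.const_mul 2)).div
    ((((hasDerivAt_id t).const_add 1).pow 3).const_mul (den e))
    (mul_ne_zero hd (pow_ne_zero 3 ht))).congr_deriv ?_
  simp only [QF'', id_eq, Pi.pow_apply, Pi.mul_apply, Pi.sub_apply]
  push_cast
  field_simp
  ring

/-- The polynomial identity of tangency. -/
lemma tangency (he : e ∈ Ioo (0 : ℝ) 1) (ht : t ∈ Ioc (0 : ℝ) 1) :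
    4 * (1 + e * t ^ 2) * diag (ptIn e t) t +
      t * yf e t * ((-(e * t) * (PF' e t - QF e t - t * QF' e t) +
          yf e t / 2 * (PF'' e t - 2 * QF' e t - t * QF'' e t)) * (1 - t ^ 2) +
        3 * ((ptIn e t).p * (PF' e t - QF e t - t * QF' e t) -
          (ptIn e t).g / t * (ptIn e t).U) +
        t * ((-(e * t) * QF' e t + yf e t / 2 * QF'' e t) * (1 - t ^ 2) +
          3 * ((ptIn e t).p * QF' e t - (ptIn e t).g / t * QF e t) -
          4 * (PF' e t - QF e t - t * QF' e t) + (ptIn e t).g * QF' e t * (1 - t ^ 2) -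
          (1 + e * t ^ 2) / (2 * t ^ 2) * QF e t * (1 - t ^ 2)) +
        t ^ 2 * ((ptIn e t).p * (PF' e t - QF e t - t * QF' e t) -
          (ptIn e t).g / t * (ptIn e t).U - 4 * QF' e t) +
        t ^ 3 * ((ptIn e t).p * QF' e t - (ptIn e t).g / t * QF e t)) =
      betaHat e * yf e t ^ 4 / t := by
  obtain ⟨ht0, ht1⟩ := ht
  have hd := den_pos he
  have h1 : 1 + t ≠ 0 := by linarith
  simp only [diag, k0, k1, k2, k3, ptIn, PF, PF', PF'', QF, QF', QF'', betaHat, yf]
  field_simp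
  simp only [numA, numA', numA'', numB, numB', numB'', den]
  ring

/-- The derivative of the rational part of the marginal coefficient. -/
theorem hasDerivAt_margRat (he : e ∈ Ioo (0 : ℝ) 1) (ht : t ∈ Ioc (0 : ℝ) 1) :
    HasDerivAt (fun x => x ^ 2 / yf e x ^ 4 * diag (ptIn e x) x)
      (aSlope e t + betaHat e / yf e t) t := by
  obtain ⟨ht0, ht1⟩ := ht
  have h1 : 1 + t ≠ 0 := by linarith
  have hy := yf_pos he (Ioc_subset_Icc_self ⟨ht0, ht1⟩)
  have hP := hasDerivAt_PF he h1
  have hP' := hasDerivAt_PF' he h1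
  have hQ := hasDerivAt_QF he h1
  have hQ' := hasDerivAt_QF' he h1
  have hyd : HasDerivAt (fun x => yf e x) (-(2 * e * t)) t := by
    unfold yf
    exact (((hasDerivAt_pow 2 t).const_mul e).const_sub 1).congr_deriv (by push_cast; ring)
  have hU : HasDerivAt (fun x => (ptIn e x).U) (PF' e t - QF e t - t * QF' e t) t := by
    simp only [ptIn]
    exact (hP.sub ((hasDerivAt_id t).mul hQ)).congr_deriv (by simp only [id_eq]; ring)
  have hU' : HasDerivAt (fun x => (ptIn e x).U')
      (-(e * t) * (PF' e t - QF e t - t * QF' e t) +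
        yf e t / 2 * (PF'' e t - 2 * QF' e t - t * QF'' e t)) t := by
    simp only [ptIn]
    exact ((hyd.div_const 2).mul ((hP'.sub hQ).sub ((hasDerivAt_id t).mul hQ'))).congr_deriv
      (by simp only [id_eq, Pi.sub_apply, Pi.mul_apply]; ring)
  have hG : HasDerivAt (fun x => (ptIn e x).G) (QF' e t) t := hQ
  have hG' : HasDerivAt (fun x => (ptIn e x).G')
      (-(e * t) * QF' e t + yf e t / 2 * QF'' e t) t := by
    simp only [ptIn]
    exact ((hyd.div_const 2).mul hQ').congr_deriv (by ring)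
  have hp : HasDerivAt (fun x => (ptIn e x).p) (-((ptIn e t).g / t)) t := by
    simp only [ptIn]
    refine ((((hasDerivAt_pow 2 t).const_mul e).const_add 1).div ((hasDerivAt_id t).const_mul 2)
      (by simp only [id_eq]; linarith)).congr_deriv ?_
    simp only [yf, id_eq]
    push_cast
    field_simp
    ring
  have hg : HasDerivAt (fun x => (ptIn e x).g) (-((1 + e * t ^ 2) / (2 * t ^ 2))) t := by
    simp only [ptIn]
    refine (hyd.div ((hasDerivAt_id t).const_mul 2)
      (by simp only [id_eq]; linarith)).congr_deriv ?_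
    simp only [yf, id_eq]
    field_simp
    ring
  have hk0 := (hU'.const_add 1).add ((hp.const_mul 3).mul hU)
  have hk1 := ((hG'.add ((hp.const_mul 3).mul hG)).sub (hU.const_mul 4)).add (hg.mul hG)
  have hk2 := (hU'.neg.add (hp.mul hU)).sub (hG.const_mul 4)
  have hk3 := (hG'.neg.add (hp.mul hG)).sub (hg.mul hG)
  have hdiag : HasDerivAt (fun x => diag (ptIn e x) x) _ t :=
    (((hk0.add (hk1.mul (hasDerivAt_id t))).add (hk2.mul (hasDerivAt_pow 2 t))).add
      (hk3.mul (hasDerivAt_pow 3 t)))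
  refine (((hasDerivAt_pow 2 t).div (hyd.pow 4) (pow_pos hy 4).ne').mul hdiag).congr_deriv ?_
  have key := tangency he ⟨ht0, ht1⟩
  simp only [aSlope, slope, diag, k0, k1, k2, k3, Pi.add_apply, Pi.mul_apply, Pi.sub_apply,
    Pi.neg_apply, Pi.pow_apply, Pi.div_apply, id_eq] at key ⊢
  obtain ⟨o, ho⟩ : ∃ o, o = ptIn e t := ⟨_, rfl⟩
  rw [← ho] at key ⊢
  have hoG : o.G = QF e t := by rw [ho]; rfl
  have hG1 : o.G' = yf e t / 2 * QF' e t := by rw [ho]; rfl
  have hU1 : o.U' = yf e t / 2 * (PF' e t - QF e t - t * QF' e t) := by rw [ho]; rfl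
  have hop : o.p = (1 + e * t ^ 2) / (2 * t) := by rw [ho]; rfl
  have hog : o.g = yf e t / (2 * t) := by rw [ho]; rfl
  rw [hoG, hG1, hU1, hop, hog] at key ⊢
  obtain ⟨y, hy'⟩ : ∃ y, y = yf e t := ⟨_, rfl⟩
  rw [← hy'] at key hy ⊢
  push_cast
  linear_combination (norm := skip) (t / y ^ 5) * key
  field_simp
  rw [hy', yf]
  ring

end Vale.Agent.P219.CH.Relax.Five
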