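import Vale.Agent.P219.Relax.Five.Weight
import Vale.Agent.P219.Relax.Five.Marginal
import Vale.Agent.P219.Relax.LineOf

/-!
# P219, dimension five: the certificate from the facts

The pair bound is the tangent of the convex diagonal at the contact against the tangent of the
concave marginal coefficient; beyond the diameter both tangents are taken at cosine one.
-/

noncomputable section

open Set Filter Topology MeasureTheory

namespace Vale.Agent.P219.CH.Relax.Five

open GenK.Four (tanh_pos tanh_lt_one')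

/-- The volume coefficient. -/
def betaFive (R : ℝ) : ℝ := 8 * Real.tanh R ^ 3 * betaHat (Real.tanh R ^ 2)

/-- The marginal coefficient over the cosine. -/
def margB (R c : ℝ) : ℝ :=
  16 * Real.tanh R ^ 4 * c ^ 2 / yf (Real.tanh R ^ 2) c ^ 4 *
      diag (ptIn (Real.tanh R ^ 2) c) c -
    betaFive R * Real.log ((1 + Real.tanh R * c) / (1 - Real.tanh R * c))

variable {R : ℝ}

lemma aFive_eq (R c : ℝ) : aFive R c = c * margB R c := rfl

lemma betaHat_pos {e : ℝ} (he : e ∈ Ioo (0 : ℝ) 1) : 0 < betaHat e := by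
  refine div_pos (mul_pos (by norm_num) ?_) (den_pos he)
  nlinarith [he.1, he.2, sq_nonneg e]

lemma betaFive_pos (hR : 0 < R) : 0 < betaFive R :=
  mul_pos (mul_pos (by norm_num) (pow_pos (tanh_pos hR) 3)) (betaHat_pos (tanh_sq_mem hR))

lemma Tc_lt_one (hR : 0 < R) {c : ℝ} (hc : c ∈ Icc (0 : ℝ) 1) : Real.tanh R * c < 1 :=
  (mul_le_of_le_one_right (tanh_pos hR).le hc.2).trans_lt (tanh_lt_one' R)

lemma hasDerivAt_margB (hR : 0 < R) {t : ℝ} (ht : t ∈ Ioc (0 : ℝ) 1) :
    HasDerivAt (margB R) (16 * Real.tanh R ^ 4 * aSlope (Real.tanh R ^ 2) t) t := by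
  have he := tanh_sq_mem hR
  have hT := tanh_pos hR
  have hy := yf_pos he (Ioc_subset_Icc_self ht)
  have h1 : 0 < 1 - Real.tanh R * t := sub_pos.2 (Tc_lt_one hR (Ioc_subset_Icc_self ht))
  have h2 : 0 < 1 + Real.tanh R * t := by nlinarith [mul_pos hT ht.1]
  have hr := ((((hasDerivAt_id t).const_mul (Real.tanh R)).const_add 1).div
    (((hasDerivAt_id t).const_mul (Real.tanh R)).const_sub 1) h1.ne').log (div_pos h2 h1).ne'
  have hA : HasDerivAt (margB R) _ t :=
    (((hasDerivAt_margRat he ht).const_mul (16 * Real.tanh R ^ 4)).sub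
      (hr.const_mul (betaFive R))).congr_of_eventuallyEq
      (Eventually.of_forall fun x => by simp only [margB, Pi.sub_apply, Pi.div_apply, id_eq]; ring)
  refine hA.congr_deriv ?_
  simp only [betaFive, id_eq, mul_one, Pi.div_apply]
  have : yf (Real.tanh R ^ 2) t = (1 - Real.tanh R * t) * (1 + Real.tanh R * t) := by rw [yf]; ring
  rw [this]
  field_simp
  ring

lemma diag_split (e t : ℝ) :
    t ^ 2 * diag (ptIn e t) t =
      t ^ 2 * (1 + (ptIn e t).U' + t * ((ptIn e t).G' - 4 * (ptIn e t).U) +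
        t ^ 2 * (-(ptIn e t).U' - 4 * (ptIn e t).G) + t ^ 3 * -(ptIn e t).G') +
      t / 2 * (1 + e * t ^ 2) * ((3 + t ^ 2) * ((ptIn e t).U + t * (ptIn e t).G)) +
      t / 2 * yf e t * ((ptIn e t).G * (t - t ^ 3)) := by
  rcases eq_or_ne t 0 with rfl | h
  · simp
  simp only [diag, k0, k1, k2, k3]
  rw [show (ptIn e t).p = (1 + e * t ^ 2) / (2 * t) from rfl,
    show (ptIn e t).g = yf e t / (2 * t) from rfl]
  field_simp
  ring

lemma continuousOn_margB (hR : 0 < R) : ContinuousOn (margB R) (Icc 0 1) := by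
  have he := tanh_sq_mem hR
  have hd := (den_pos he).ne'
  have hT := tanh_pos hR
  have hn : ∀ c ∈ Icc (0 : ℝ) 1, (1 : ℝ) + c ≠ 0 := fun c hc => by linarith [hc.1]
  have hP : ContinuousOn (PF (Real.tanh R ^ 2)) (Icc 0 1) := by
    unfold PF
    refine ContinuousOn.div ?_ (by fun_prop) fun c hc => mul_ne_zero hd (hn c hc)
    unfold numA
    fun_prop
  have hP' : ContinuousOn (PF' (Real.tanh R ^ 2)) (Icc 0 1) := by
    unfold PF'
    refine ContinuousOn.div ?_ (by fun_prop) fun c hc => mul_ne_zero hd (pow_ne_zero 2 (hn c hc))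
    unfold numA numA'
    fun_prop
  have hQ : ContinuousOn (QF (Real.tanh R ^ 2)) (Icc 0 1) := by
    unfold QF
    refine ContinuousOn.div ?_ (by fun_prop) fun c hc => mul_ne_zero hd (pow_ne_zero 2 (hn c hc))
    unfold numB
    fun_prop
  have hQ' : ContinuousOn (QF' (Real.tanh R ^ 2)) (Icc 0 1) := by
    unfold QF'
    refine ContinuousOn.div ?_ (by fun_prop) fun c hc => mul_ne_zero hd (pow_ne_zero 3 (hn c hc))
    unfold numB numB'
    fun_prop
  have hq : ContinuousOn (fun c => (1 + Real.tanh R * c) / (1 - Real.tanh R * c)) (Icc 0 1) :=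
    ContinuousOn.div (by fun_prop) (by fun_prop) fun c hc => (sub_pos.2 (Tc_lt_one hR hc)).ne'
  have hl : ContinuousOn (fun c => Real.log ((1 + Real.tanh R * c) / (1 - Real.tanh R * c)))
      (Icc 0 1) :=
    hq.log fun c hc => (div_pos (by nlinarith [mul_nonneg hT.le hc.1])
      (sub_pos.2 (Tc_lt_one hR hc))).ne'
  have hy : ∀ c ∈ Icc (0 : ℝ) 1, yf (Real.tanh R ^ 2) c ^ 4 ≠ 0 := fun c hc =>
    (pow_pos (yf_pos he hc) 4).ne'
  unfold margB
  refine ContinuousOn.sub ?_ (continuousOn_const.mul hl)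
  refine ContinuousOn.congr (f := fun c => 16 * Real.tanh R ^ 4 / yf (Real.tanh R ^ 2) c ^ 4 *
    (c ^ 2 * diag (ptIn (Real.tanh R ^ 2) c) c)) ?_ fun c _ => by ring
  refine ContinuousOn.mul (ContinuousOn.div continuousOn_const (by unfold yf; fun_prop) hy) ?_
  simp only [diag_split]
  simp only [ptIn, yf]
  fun_prop

lemma margB_zero (R : ℝ) : margB R 0 = 0 := by simp [margB]

lemma margB_nonpos (hR : 0 < R) (hi : InFacts (Real.tanh R ^ 2)) {c : ℝ}
    (hc : c ∈ Icc (0 : ℝ) 1) : margB R c ≤ 0 := by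
  have h : AntitoneOn (margB R) (Icc 0 1) := by
    refine antitoneOn_of_deriv_nonpos (convex_Icc 0 1) (continuousOn_margB hR)
      (fun x hx => ?_) fun x hx => ?_
    · rw [interior_Icc] at hx
      exact (hasDerivAt_margB hR (Ioo_subset_Ioc_self hx)).differentiableAt.differentiableWithinAt
    · rw [interior_Icc] at hx
      rw [(hasDerivAt_margB hR (Ioo_subset_Ioc_self hx)).deriv, aSlope]
      have hy := yf_pos (tanh_sq_mem hR) (Ioo_subset_Icc_self hx)
      exact mul_nonpos_of_nonneg_of_nonpos (by positivity) (mul_nonpos_of_nonneg_of_nonpos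
        (div_nonneg (by positivity) (pow_nonneg hy.le 4)) (hi.slope x (Ioo_subset_Ioc_self hx)))
  simpa [margB_zero] using h ⟨le_rfl, zero_le_one⟩ hc hc.1

/-- The coefficient lies below each tangent. -/
lemma margB_le_tangent (hR : 0 < R) (hi : InFacts (Real.tanh R ^ 2)) {c t : ℝ}
    (hc : c ∈ Ioc (0 : ℝ) 1) (ht : t ∈ Ioc (0 : ℝ) 1) :
    margB R c ≤ margB R t + 16 * Real.tanh R ^ 4 * aSlope (Real.tanh R ^ 2) t * (c - t) := by
  have hK : 0 ≤ 16 * Real.tanh R ^ 4 := by positivity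
  rcases lt_trichotomy c t with h | h | h
  · obtain ⟨x, hx, he⟩ := exists_hasDerivAt_eq_slope (margB R) _ h
      ((continuousOn_margB hR).mono (Icc_subset_Icc hc.1.le ht.2))
      fun x hx => hasDerivAt_margB hR ⟨hc.1.trans hx.1, hx.2.le.trans ht.2⟩
    rw [eq_div_iff (sub_pos.2 h).ne'] at he
    have := mul_le_mul_of_nonneg_left (hi.conc ⟨hc.1.trans hx.1, hx.2.le.trans ht.2⟩ ht hx.2.le) hK
    linarith [mul_le_mul_of_nonneg_right this (sub_nonneg.2 h.le)]
  · subst h; simp
  · obtain ⟨x, hx, he⟩ := exists_hasDerivAt_eq_slope (margB R) _ h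
      ((continuousOn_margB hR).mono (Icc_subset_Icc ht.1.le hc.2))
      fun x hx => hasDerivAt_margB hR ⟨ht.1.trans hx.1, hx.2.le.trans hc.2⟩
    rw [eq_div_iff (sub_pos.2 h).ne'] at he
    have := mul_le_mul_of_nonneg_left (hi.conc ht ⟨ht.1.trans hx.1, hx.2.le.trans hc.2⟩ hx.1.le) hK
    linarith [mul_le_mul_of_nonneg_right this (sub_nonneg.2 h.le)]

lemma log_tc (hR : 0 < R) (r : ℝ) :
    Real.log ((1 + Real.tanh R * tc R r) / (1 - Real.tanh R * tc R r)) = r := by
  have h := Real.artanh_eq_half_log (x := Real.tanh (r / 2))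
    ⟨(abs_lt.1 (Real.abs_tanh_lt_one _)).1.le, (abs_lt.1 (Real.abs_tanh_lt_one _)).2.le⟩
  rw [Real.artanh_tanh] at h
  rw [tc_mul hR]
  linarith

lemma sinh_tc (hR : 0 < R) (r : ℝ) :
    Real.sinh r = 2 * Real.tanh R * tc R r / yf (Real.tanh R ^ 2) (tc R r) := by
  rw [GenK.Four.sinh_eq, yf_tc hR, mul_assoc, tc_mul hR]

lemma diag_out_one {e p : ℝ} (g : ℝ) (hp : p < 1) : diag (ptOut e p g) 1 = XF e p := by
  have : 1 - p ≠ 0 := (sub_pos.2 hp).ne'
  simp only [diag, k0, k1, k2, k3, ptOut]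
  field_simp
  ring

/-- The damped kernel is above the two values and the volume term. -/
lemma pair_facts (hR : 0 < R) (hi : InFacts (Real.tanh R ^ 2))
    (ho : OutFacts (Real.tanh R ^ 2)) {r c d : ℝ} (hr : 0 < r) (hc : c ∈ Ioc (0 : ℝ) 1)
    (hd : d ∈ Ioc (0 : ℝ) 1) :
    c * d * (margB R c + margB R d + 2 * betaFive R * r) ≤
      Real.sinh r ^ 4 * symX (ptR R r) c d := by
  have he := tanh_sq_mem hR
  have hT := tanh_pos hR
  have hg : 0 ≤ (ptR R r).g := by
    rw [(ptR_pg hR hr).2, gc]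
    exact div_nonneg hT.le (Real.sinh_pos_iff.2 hr).le
  have hS : 0 ≤ Real.sinh r ^ 4 := pow_nonneg (Real.sinh_pos_iff.2 hr).le 4
  have hcd : 0 ≤ c * d := (mul_pos hc.1 hd.1).le
  rcases le_or_gt r (2 * R) with h | h
  · have ht := tc_mem hR ⟨hr, h⟩
    rw [ptR, if_pos h] at hg ⊢
    obtain ⟨t, htd⟩ : ∃ t, t = tc R r := ⟨_, rfl⟩
    rw [← htd] at ht hg ⊢
    have hy := yf_pos he (Ioc_subset_Icc_self ht)
    have hp := (hi.good t ht).pair hg ht (hi.endc t ht) (Ioc_subset_Icc_self hc)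
      (Ioc_subset_Icc_self hd)
    have h1 := margB_le_tangent hR hi hc ht
    have h2 := margB_le_tangent hR hi hd ht
    have hs : Real.sinh r = 2 * Real.tanh R * t / yf (Real.tanh R ^ 2) t := htd ▸ sinh_tc hR r
    have e1 : Real.sinh r ^ 4 * (diag (ptIn (Real.tanh R ^ 2) t) t / t ^ 2) =
        margB R t + betaFive R * r := by
      have hl : Real.log ((1 + Real.tanh R * t) / (1 - Real.tanh R * t)) = r := htd ▸ log_tc hR r
      rw [margB, hl, hs]
      have := ht.1.ne'
      field_simp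
      ring
    have e2 : Real.sinh r ^ 4 * slope (ptIn (Real.tanh R ^ 2) t) t =
        16 * Real.tanh R ^ 4 * aSlope (Real.tanh R ^ 2) t := by
      rw [aSlope, hs]
      field_simp
      ring
    refine le_trans ?_ (mul_le_mul_of_nonneg_left hp hS)
    have h3 : margB R c + margB R d + 2 * betaFive R * r ≤ Real.sinh r ^ 4 *
        (2 * diag (ptIn (Real.tanh R ^ 2) t) t / t ^ 2 +
          slope (ptIn (Real.tanh R ^ 2) t) t * (c + d - 2 * t)) := by
      rw [mul_add, mul_div_assoc, mul_left_comm, e1, ← mul_assoc (Real.sinh r ^ 4), e2]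
      linarith
    exact (mul_le_mul_of_nonneg_left h3 hcd).trans_eq (by ring)
  · have hor := outRange hR h.le
    rw [ptR, if_neg (not_le.2 h)] at hg ⊢
    obtain ⟨o, hoo⟩ : ∃ o, o = ptOut (Real.tanh R ^ 2) (pc R r) (gc R r) := ⟨_, rfl⟩
    rw [← hoo] at hg ⊢
    have hp := (hoo ▸ ho.good _ _ hor : GoodPt o).pair hg ⟨zero_lt_one, le_rfl⟩
      (hoo ▸ ho.endc _ _ hor : EndCond o 1) (Ioc_subset_Icc_self hc) (Ioc_subset_Icc_self hd)
    have hsl : slope o 1 ≤ sigF (Real.tanh R ^ 2) (pc R r) ^ 2 *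
        slope (ptIn (Real.tanh R ^ 2) 1) 1 := hoo ▸ ho.slope _ _ hor
    obtain ⟨e, hed⟩ : ∃ e, e = Real.tanh R ^ 2 := ⟨_, rfl⟩
    obtain ⟨L, hL⟩ : ∃ L, L = Real.sinh (2 * R) := ⟨_, rfl⟩
    obtain ⟨s, hs⟩ : ∃ s, s = Real.sinh r := ⟨_, rfl⟩
    have hs0 : 0 < s := hs ▸ Real.sinh_pos_iff.2 hr
    have hL0 : 0 < L := hL ▸ Real.sinh_pos_iff.2 (by linarith)
    have h1e : 0 < 1 - e := by rw [hed]; linarith [he.2]
    have he0 : 0 < 1 + e := by rw [hed]; linarith [he.1]
    have hLe : L = 2 * Real.tanh R / (1 - e) := by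
      rw [hL, hed, GenK.Four.sinh_eq, show 2 * R / 2 = R by ring]
    have hσ : sigF e (pc R r) = (L / s) ^ 2 := by
      rw [sigF, hed, ← gc_sq hr, gc, ← hed, ← hs, hLe]
      field_simp
    have hA1 : margB R 1 + betaFive R * (2 * R) = L ^ 4 * (1 - 2 * (1 - e) * PF e 1) := by
      have hl := log_tc hR (2 * R)
      rw [tc_diam hR] at hl
      rw [margB, hl, ← hed, hLe]
      have hd1 : diag (ptIn e 1) 1 = 1 - 2 * (1 - e) * PF e 1 := by
        simp only [diag, k0, k1, k2, k3, ptIn, yf]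
        ring
      rw [hd1, yf]
      field_simp
      ring
    have hX : margB R 1 + betaFive R * r ≤ s ^ 4 * diag o 1 := by
      rw [hoo, diag_out_one _ (pc_lt_one hR h.le), ← hed, XF, hσ]
      have hconv : 2 * (L * Real.cosh (2 * R)) * (r - 2 * R) ≤ s ^ 2 - L ^ 2 := by
        obtain ⟨K, hK⟩ : ∃ K, K = 2 * (L * Real.cosh (2 * R)) := ⟨_, rfl⟩
        have hd : ∀ x, HasDerivAt (fun x => Real.sinh x ^ 2 - K * x)
            (2 * Real.sinh x * Real.cosh x - K) x := fun x =>
          (((Real.hasDerivAt_sinh x).pow 2).sub ((hasDerivAt_id x).const_mul K)).congr_deriv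
            (by simp)
        have hm : MonotoneOn (fun x => Real.sinh x ^ 2 - K * x) (Ici (2 * R)) := by
          refine monotoneOn_of_deriv_nonneg (convex_Ici _)
            (fun x _ => (hd x).continuousAt.continuousWithinAt)
            (fun x _ => (hd x).differentiableAt.differentiableWithinAt) fun x hx => ?_
          rw [interior_Ici] at hx
          rw [(hd x).deriv, hK, hL]
          have hx' : 2 * R < x := hx
          have h1 : Real.sinh (2 * (2 * R)) ≤ Real.sinh (2 * x) :=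
            Real.sinh_le_sinh.2 (by linarith)
          rw [Real.sinh_two_mul, Real.sinh_two_mul x] at h1
          linarith
        have := hm (self_mem_Ici (a := 2 * R)) h.le h.le
        simp only [← hL, ← hs] at this
        rw [← hK]
        linarith
      obtain ⟨B, hB⟩ : ∃ B, B = betaHat e * (1 - e) ^ 4 / (2 * (1 + e)) := ⟨_, rfl⟩
      have hB0 : 0 ≤ B := by
        rw [hB]
        have : 0 ≤ betaHat e := hed ▸ (betaHat_pos he).le
        positivity
      have hbeta : betaFive R = 2 * B * L ^ 3 * Real.cosh (2 * R) := by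
        have hc2 : Real.cosh (2 * R) = (1 + e) / (1 - e) := by
          have h := pc_diam hR
          rw [pc, ← hL, ← hed, hLe] at h
          field_simp at h ⊢
          linarith
        rw [hB, hc2, hLe, betaFive, ← hed]
        field_simp
        ring
      have e3 : s ^ 4 * ((1 - 2 * (1 - e) * PF e 1) * ((L / s) ^ 2) ^ 2 +
          B * ((L / s) ^ 2 - ((L / s) ^ 2) ^ 2)) =
          (margB R 1 + betaFive R * (2 * R)) + B * L ^ 2 * (s ^ 2 - L ^ 2) := by
        rw [hA1]
        field_simp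
      rw [← hB, e3]
      have := mul_le_mul_of_nonneg_left hconv (mul_nonneg hB0 (sq_nonneg L))
      rw [hbeta]
      linarith
    have hslope : s ^ 4 * slope o 1 ≤ 16 * Real.tanh R ^ 4 * aSlope e 1 := by
      rw [← hed] at hsl
      refine (mul_le_mul_of_nonneg_left hsl (pow_nonneg hs0.le 4)).trans_eq ?_
      rw [hσ, aSlope, yf, hLe]
      field_simp
      ring
    have h1 := margB_le_tangent hR hi hc ⟨zero_lt_one, le_rfl⟩
    have h2 := margB_le_tangent hR hi hd ⟨zero_lt_one, le_rfl⟩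
    rw [← hed] at h1 h2
    have h3 : margB R c + margB R d + 2 * betaFive R * r ≤
        s ^ 4 * (2 * diag o 1 / 1 ^ 2 + slope o 1 * (c + d - 2 * 1)) := by
      have hneg : c + d - 2 ≤ 0 := by linarith [hc.2, hd.2]
      have := mul_le_mul_of_nonpos_right hslope hneg
      rw [one_pow, div_one, mul_one]
      linarith
    rw [← hs] at hS ⊢
    refine le_trans ?_ (mul_le_mul_of_nonneg_left hp hS)
    exact (mul_le_mul_of_nonneg_left h3 hcd).trans_eq (by ring)

theorem good_all (hR : 0 < R) (hi : InFacts (Real.tanh R ^ 2))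
    (ho : OutFacts (Real.tanh R ^ 2)) {r : ℝ} (hr : 0 < r) :
    GoodPt (ptR R r) ∧ 0 ≤ (ptR R r).g := by
  refine ⟨?_, ?_⟩
  · unfold ptR
    split_ifs with h
    · exact hi.good _ (tc_mem hR ⟨hr, h⟩)
    · exact ho.good _ _ (outRange hR (not_le.1 h).le)
  · rw [(ptR_pg hR hr).2, gc]
    exact div_nonneg (tanh_pos hR).le (Real.sinh_pos_iff.2 hr).le

/-- `sinh r ^ 3` times the weight at cosine zero increases. -/
lemma cube_mono (hR : 0 < R) (hg : ∀ r, 0 < r → GoodPt (ptR R r)) {r p : ℝ} (hr : 0 < r)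
    (hrp : r ≤ p) : Real.sinh r ^ 3 * uU R r ≤ Real.sinh p ^ 3 * uU R p := by
  have hd : ∀ x, 0 < x → HasDerivAt (fun x => Real.sinh x ^ 3 * uU R x)
      (3 * Real.sinh x ^ 2 * Real.cosh x * uU R x + Real.sinh x ^ 3 * (ptR R x).U') x := fun x hx =>
    (((Real.hasDerivAt_sinh x).pow 3).mul (hasDerivAt_uU hR hx.le).1).congr_deriv (by simp)
  have hm : MonotoneOn (fun x => Real.sinh x ^ 3 * uU R x) (Ioi 0) := by
    refine monotoneOn_of_deriv_nonneg (convex_Ioi 0)
      (fun x hx => (hd x hx).continuousAt.continuousWithinAt)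
      (fun x hx => (hd x (interior_subset hx)).differentiableAt.differentiableWithinAt)
      fun x hx => ?_
    have hx0 : 0 < x := interior_subset (s := Ioi (0 : ℝ)) hx
    have hs := Real.sinh_pos_iff.2 hx0
    rw [(hd x hx0).deriv]
    have := mul_nonneg (pow_nonneg hs.le 3) (hg x hx0).mono
    rw [(ptR_pg hR hx0).1, pc] at this
    refine this.trans_eq ?_
    rw [uU]
    field_simp
    ring
  exact hm hr (hr.trans_le hrp) hrp

/-- The certificate from the facts and the value. -/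
theorem certPin : CertPin := by
  intro hv R hR hi ho
  have hT := tanh_pos hR
  have hgood := fun r (hr : 0 < r) => good_all hR hi ho hr
  refine ⟨(betaFive_pos hR).le, ?_, ?_, ?_, hv R hR hi, ?_⟩
  · unfold aFive diag k0 k1 k2 k3 ptIn PF PF' QF QF' yf numA numA' numB numB'
    fun_prop
  · intro c hc
    rw [aFive_eq]
    exact mul_nonpos_of_nonneg_of_nonpos hc.1 (margB_nonpos hR hi hc)
  · obtain ⟨B, hB⟩ := isCompact_Icc.exists_bound_of_continuousOn
      (continuousOn_id.mul (continuousOn_margB hR))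
    exact ⟨B, fun c hc => (abs_le.1 (hB c hc)).1⟩
  intro ε T hε hTT
  obtain ⟨δ, hδd⟩ : ∃ δ, δ = ε / (3 * (betaFive R + 1)) := ⟨_, rfl⟩
  obtain ⟨η, hηd⟩ : ∃ η, η = ε * Real.tanh R / (8 * T) := ⟨_, rfl⟩
  have hβ := betaFive_pos hR
  have hδ : 0 < δ := hδd ▸ by positivity
  have hη : 0 < η := hηd ▸ by positivity
  have hloss : η * (8 * T / Real.tanh R) = ε := by rw [hηd]; field_simp
  have hδβ : 3 * δ * betaFive R ≤ ε := by
    rw [hδd]
    field_simp
    nlinarith
  have hgood' : ∀ r, 0 < r → GoodPt (ptR R r) := fun r hr => (hgood r hr).1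
  have low : ∀ r c d, r ∈ Ioc 0 T → c ∈ Icc (-1 : ℝ) 1 → d ∈ Icc (-1 : ℝ) 1 →
      phiR δ r * symX (ptR R r) c d ≤ sym 5 R (wFive R δ η) r c d + ε := fun r c d hr hc hd => by
    have := sym_lower hR hδ.ne' hη.le hr (hgood' r hr.1) hc hd
    rw [hloss] at this
    linarith
  refine ⟨wFive R δ η, contDiff_wFive hR hδ.ne' η,
    fun p q hp hq => wFive_pos hR hδ.ne' hη hgood' hp hq, ?_, ?_⟩
  · intro r c d hr hc hd
    rcases hr.1.eq_or_lt with h0 | h0
    · subst h0
      have hsym : sym 5 R (wFive R δ η) 0 c d = 2 + 8 * η := by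
        have hcf : Bend.cfac 1 0 = 1 := by simp [Bend.cfac, Bend.csh_zero, Bend.cshd_zero]
        have hw : wFive R δ η (0, 0) = η := by simp [wFive]
        simp only [sym, kernS, zero_pow two_ne_zero, zero_div, zero_mul, mul_zero, sub_zero,
          Real.sqrt_zero, hcf, hw, add_zero, one_mul]
        push_cast
        ring
      have : 0 ≤ gainW (wFive R δ η) 0 c d := by
        rw [gainW]
        exact div_nonneg (by positivity) (Bend.sfac_pos 1 (by norm_num)).le
      rw [hsym]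
      linarith
    · have h1 := low r c d ⟨h0, hr.2⟩ hc hd
      have h2 := gain_lower hR hδ.ne' hη.le h0 (hgood' r h0) hc.2 hd.2
      have h3 := mul_nonneg (phiR_mem hδ.ne' r).1 ((hgood' r h0).gain (hgood r h0).2 hc hd)
      rw [mul_add] at h3
      linarith
  refine lineOK_of_pointwise hβ.le hε.le (fun c hc => ?_) ?_ ?_ ?_
  · rw [aFive_eq]
    exact mul_nonpos_of_nonneg_of_nonpos hc.1.le (margB_nonpos hR hi (Ioc_subset_Icc_self hc))
  · intro r c d hr hc hd
    have hcd : 0 < c * d := mul_pos hc.1 hd.1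
    have hS : 0 ≤ Real.sinh r ^ 4 := pow_nonneg (Real.sinh_pos_iff.2 hr.1).le 4
    have h1 := mul_le_mul_of_nonneg_left (low r c d hr ⟨by linarith [hc.1], hc.2⟩
      ⟨by linarith [hd.1], hd.2⟩) hS
    have h2 := mul_le_mul_of_nonneg_left (pair_facts hR hi ho hr.1 hc hd) (phiR_mem hδ.ne' r).1
    have hA := add_nonpos (margB_nonpos hR hi (Ioc_subset_Icc_self hc))
      (margB_nonpos hR hi (Ioc_subset_Icc_self hd))
    have h3 : margB R c + margB R d + 2 * betaFive R * r - 2 * ε ≤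
        phiR δ r * (margB R c + margB R d + 2 * betaFive R * r) := by
      have := mul_le_mul_of_nonneg_left (phiR_loss hδ hr.1.le) hβ.le
      have := mul_nonpos_of_nonpos_of_nonneg hA (sub_nonneg.2 (phiR_mem hδ.ne' r).2)
      linarith
    have h4 := mul_le_mul_of_nonneg_left h3 hcd.le
    rw [phi, abs_of_pos hcd, le_div_iff₀ hcd, aFive_eq, aFive_eq,
      mul_div_cancel_left₀ _ hc.1.ne', mul_div_cancel_left₀ _ hd.1.ne']
    show (margB R c + margB R d + 2 * betaFive R * r - 2 * ε) * (c * d) ≤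
      Real.sinh r ^ 4 * (sym 5 R (wFive R δ η) r c d + ε)
    linarith
  · intro r p c d e hr hrp hpT hc hd he
    have hp0 := hr.trans_le hrp
    have hrI : r ∈ Ioc 0 T := ⟨hr, hrp.trans hpT⟩
    have hcI : c ∈ Icc (-1 : ℝ) 1 := ⟨by linarith [hc.1], hc.2⟩
    have hdI : d ∈ Icc (-1 : ℝ) 1 := ⟨by linarith [hd.1], hd.2⟩
    have heI : -e ∈ Icc (-1 : ℝ) 1 := ⟨by linarith [he.2], by linarith [he.1]⟩
    have conv : ∀ x, 0 < x → Real.sinh x ^ 4 * ((ptR R x).g * (ptR R x).U) =
        Real.sinh x ^ 3 * uU R x := fun x hx => by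
      have := (Real.sinh_pos_iff.2 hx).ne'
      rw [(ptR_pg hR hx).2, gc, uU]
      field_simp
    have h1 : -(2 * (phiR δ r * (Real.sinh r ^ 3 * uU R r))) ≤
        phi 5 R ε (wFive R δ η) r c d := by
      have hcd := mul_pos hc.1 hd.1
      obtain ⟨hg, hg0⟩ := hgood r hr
      have hu : ∀ x : ℝ, x ∈ Ioc (0 : ℝ) 1 →
          0 ≤ (ptR R r).U + x * (ptR R r).G ∧ (ptR R r).U + x * (ptR R r).G ≤ (ptR R r).U :=
        fun x hx => ⟨by linarith [mul_le_mul_of_nonpos_right hx.2 hg.slope_nonpos, hg.weight_pos],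
          by linarith [mul_nonpos_of_nonneg_of_nonpos hx.1.le hg.slope_nonpos]⟩
      have hsq : Real.sqrt (((ptR R r).U + c * (ptR R r).G) * ((ptR R r).U + d * (ptR R r).G)) ≤
          (ptR R r).U := by
        rw [Real.sqrt_le_iff]
        refine ⟨(hu c hc).1.trans (hu c hc).2, ?_⟩
        rw [sq]
        exact mul_le_mul (hu c hc).2 (hu d hd).2 (hu d hd).1 ((hu c hc).1.trans (hu c hc).2)
      have h := mul_nonneg (phiR_mem hδ.ne' r).1 (hg.gain hg0 hcI hdI)
      have h5 := mul_le_mul_of_nonneg_left hsq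
        (mul_nonneg (mul_nonneg (phiR_mem hδ.ne' r).1 hcd.le) hg0)
      have h6 := low r c d hrI hcI hdI
      rw [abs_of_pos hcd] at h
      have h7 : -(2 * (c * d) * (phiR δ r * ((ptR R r).g * (ptR R r).U))) ≤
          sym 5 R (wFive R δ η) r c d + ε := by linarith
      rw [phi, abs_of_pos hcd, le_div_iff₀ hcd, ← conv r hr]
      have := mul_le_mul_of_nonneg_left h7 (pow_nonneg (Real.sinh_pos_iff.2 hr).le 4)
      refine le_trans (le_of_eq ?_) this
      ring
    have h2 : 2 * (phiR δ p * (Real.sinh p ^ 3 * uU R p)) ≤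
        phi 5 R ε (wFive R δ η) p c (-e) := by
      have hce := mul_pos hc.1 he.1
      obtain ⟨hg, hg0⟩ := hgood p hp0
      have h := mul_le_mul_of_nonneg_left
        (hg.mixed_le hg0 (Ioc_subset_Icc_self hc) (Ioc_subset_Icc_self he)).1 (phiR_mem hδ.ne' p).1
      have h6 := low p c (-e) ⟨hp0, hpT⟩ hcI heI
      have h7 := mul_le_mul_of_nonneg_left (h.trans h6) (pow_nonneg (Real.sinh_pos_iff.2 hp0).le 4)
      rw [phi, mul_neg, abs_neg, abs_of_pos hce, le_div_iff₀ hce, ← conv p hp0]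
      refine le_trans (le_of_eq ?_) h7
      ring
    have hg := hgood' r hr
    have h0 : 0 ≤ Real.sinh r ^ 3 * uU R r :=
      mul_nonneg (pow_nonneg (Real.sinh_pos_iff.2 hr).le 3)
        (mul_nonneg hT.le (by linarith [hg.weight_pos, hg.slope_nonpos]))
    have h8 := mul_le_mul (phiR_mono hδ.ne' hr.le hrp) (cube_mono hR hgood' hr hrp) h0
      (phiR_mem hδ.ne' p).1
    linarith
  · intro r c d hr hc hd
    obtain ⟨hg, hg0⟩ := hgood r hr.1
    obtain ⟨h1, h2⟩ := hg.mixed_le hg0 (Ioc_subset_Icc_self hc) (Ioc_subset_Icc_self hd)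
    have hS := pow_nonneg (Real.sinh_pos_iff.2 hr.1).le 4
    have hU : 0 ≤ (ptR R r).U := by linarith [hg.weight_pos, hg.slope_nonpos]
    have hf := (phiR_mem hδ.ne' r).1
    have := hc.1.le
    have := hd.1.le
    have a1 := low r c (-d) hr ⟨by linarith [hc.1], hc.2⟩ ⟨by linarith [hd.2], by linarith [hd.1]⟩
    have a2 := low r (-c) (-d) hr ⟨by linarith [hc.2], by linarith [hc.1]⟩
      ⟨by linarith [hd.2], by linarith [hd.1]⟩
    have b1 : 0 ≤ symX (ptR R r) c (-d) := le_trans (by positivity) h1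
    exact ⟨div_nonneg (mul_nonneg hS ((mul_nonneg hf b1).trans a1)) (abs_nonneg _),
      div_nonneg (mul_nonneg hS ((mul_nonneg hf h2).trans a2)) (abs_nonneg _)⟩

end Vale.Agent.P219.CH.Relax.Five
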