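import Vale.Agent.P219.Relax.Poly.Scaled

/-!
# P219, dimension five: the polynomial inequalities beyond the diameter

After clearing denominators each has nonnegative coefficients in the Bernstein basis of the unit
interval or square, by the kernel check, with `s` the ratio of the two hyperbolic sines.
-/

noncomputable section

open Set

namespace Vale.Agent.P219.CH.Relax.Five.Out

/-- An auxiliary polynomial. -/
def dD (e : ℝ) : ℝ :=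
  29 - 21 * e

/-- An auxiliary polynomial. -/
def aP (e : ℝ) : ℝ :=
  219 + 534 * e - 906 * e ^ 2 + 346 * e ^ 3 - 33 * e ^ 4

/-- An auxiliary polynomial. -/
def bP (e : ℝ) : ℝ :=
  -87 + 168 * e - 1578 * e ^ 2 + 880 * e ^ 3 - 87 * e ^ 4

/-- An auxiliary polynomial. -/
def cP (e : ℝ) : ℝ :=
  268 * e - 3784 * e ^ 2 + 8512 * e ^ 3 - 4792 * e ^ 4 + 564 * e ^ 5

/-- An auxiliary polynomial. -/
def btP (e : ℝ) : ℝ :=
  120 - 85 * e + 5 * e ^ 2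

/-- An auxiliary polynomial. -/
def xN (e : ℝ) : ℝ :=
  2 * (1 + e) * (18 * dD e - aP e)

/-- An auxiliary polynomial. -/
def yN (e : ℝ) : ℝ :=
  9 * (1 - e) ^ 2 * btP e

/-- An auxiliary polynomial. -/
def kN (e : ℝ) : ℝ :=
  yN e - xN e

/-- An auxiliary polynomial. -/
def hbd (e : ℝ) : ℝ :=
  (52 + 630 * e ^ 2 + 590 * e ^ 3) / 1000

/-- An auxiliary polynomial. -/
def omN (e s : ℝ) : ℝ :=
  36 * (1 + e) * dD e - yN e * s + kN e * s ^ 2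

/-- An auxiliary polynomial. -/
def sxN (e s : ℝ) : ℝ :=
  yN e * s - 2 * kN e * s ^ 2

/-- An auxiliary polynomial. -/
def g1N (e s : ℝ) : ℝ :=
  (3 * e - 1) / 2 * 36 * (1 + e) * dD e * (1 + s) + (yN e * (1 + e - (3 * e - 1) / 2) - (1 - e) / 2 * 36 * (1 + e) * dD e) * s + kN e * (1 - e) / 2 * s ^ 2 + 72 * (1 + e) * (1 - e) * dD e * (1 + s) - 36 * (1 + e) * dD e * (1 - e) * hbd e * ((7 + 4 * (1 - e) + 4 * s) / 2) - (1 - e) * omN e s

/-- An auxiliary polynomial. -/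
def g2N (e s : ℝ) : ℝ :=
  g1N e s - 2 * (1 - e) * sxN e s

/-- An auxiliary polynomial. -/
def omS (e s : ℝ) : ℝ :=
  36 * (1 + e) * dD e - yN e * s ^ 2 + kN e * s ^ 4

/-- An auxiliary polynomial. -/
def sxS (e s : ℝ) : ℝ :=
  yN e * s ^ 2 - 2 * kN e * s ^ 4

open Vale.Agent.P219.Poly (E)

lemma h_pos {e : ℝ} (he : e ∈ Icc (0 : ℝ) 1) :
    0 ≤ -bP e :=
  E.nonneg_of_scaled (p := (.neg (.add (.add (.add (.add (.k (-87)) (.mul (.k 168) (.x 0))) (.neg (.mul (.k 1578) (.pow (.x 0) 2)))) (.mul (.k 880) (.pow (.x 0) 3))) (.neg (.mul (.k 87) (.pow (.x 0) 4)))))) (K := 1)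
    (by decide +kernel) he he (by norm_num) <| by
    simp only [bP, E.sem, Matrix.cons_val_zero]
    push_cast
    ring

lemma hk_pos {e : ℝ} (he : e ∈ Icc (0 : ℝ) 1) :
    0 ≤ -2 * bP e - cP e :=
  E.nonneg_of_scaled (p := (.add (.mul (.k (-2)) (.add (.add (.add (.add (.k (-87)) (.mul (.k 168) (.x 0))) (.neg (.mul (.k 1578) (.pow (.x 0) 2)))) (.mul (.k 880) (.pow (.x 0) 3))) (.neg (.mul (.k 87) (.pow (.x 0) 4))))) (.neg (.add (.add (.add (.add (.mul (.k 268) (.x 0)) (.neg (.mul (.k 3784) (.pow (.x 0) 2)))) (.mul (.k 8512) (.pow (.x 0) 3))) (.neg (.mul (.k 4792) (.pow (.x 0) 4)))) (.mul (.k 564) (.pow (.x 0) 5)))))) (K := 1)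
    (by decide +kernel) he he (by norm_num) <| by
    simp only [bP, cP, E.sem, Matrix.cons_val_zero]
    push_cast
    ring

lemma hb_h {e : ℝ} (he : e ∈ Icc (0 : ℝ) 1) :
    0 ≤ 72 * dD e * hbd e + bP e :=
  E.nonneg_of_scaled (p := (.add (.mul (.mul (.k 72) (.add (.k 29) (.neg (.mul (.k 21) (.x 0))))) (.mul (.add (.add (.k 52) (.mul (.k 630) (.pow (.x 0) 2))) (.mul (.k 590) (.pow (.x 0) 3))) (.k 1))) (.mul (.k 1000) (.add (.add (.add (.add (.k (-87)) (.mul (.k 168) (.x 0))) (.neg (.mul (.k 1578) (.pow (.x 0) 2)))) (.mul (.k 880) (.pow (.x 0) 3))) (.neg (.mul (.k 87) (.pow (.x 0) 4))))))) (K := 1000)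
    (by decide +kernel) he he (by norm_num) <| by
    simp only [bP, dD, hbd, E.sem, Matrix.cons_val_zero]
    push_cast
    ring

lemma hb_hk {e : ℝ} (he : e ∈ Icc (0 : ℝ) 1) :
    0 ≤ 144 * dD e * hbd e + 2 * bP e + cP e :=
  E.nonneg_of_scaled (p := (.mul (.add (.add (.mul (.mul (.k 144) (.add (.k 29) (.neg (.mul (.k 21) (.x 0))))) (.mul (.add (.add (.k 52) (.mul (.k 630) (.pow (.x 0) 2))) (.mul (.k 590) (.pow (.x 0) 3))) (.k 1))) (.mul (.k 1000) (.mul (.k 2) (.add (.add (.add (.add (.k (-87)) (.mul (.k 168) (.x 0))) (.neg (.mul (.k 1578) (.pow (.x 0) 2)))) (.mul (.k 880) (.pow (.x 0) 3))) (.neg (.mul (.k 87) (.pow (.x 0) 4))))))) (.mul (.k 1000) (.add (.add (.add (.add (.mul (.k 268) (.x 0)) (.neg (.mul (.k 3784) (.pow (.x 0) 2)))) (.mul (.k 8512) (.pow (.x 0) 3))) (.neg (.mul (.k 4792) (.pow (.x 0) 4)))) (.mul (.k 564) (.pow (.x 0) 5))))) (.pow (.add (.x 0) (.bar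 0)) 16))) (K := 1000)
    (by decide +kernel) he he (by norm_num) <| by
    simp only [bP, cP, dD, hbd, E.sem, Matrix.cons_val_zero]
    push_cast
    ring

lemma kap_hi {e : ℝ} (he : e ∈ Icc (0 : ℝ) 1) :
    0 ≤ 4 * (1 + e) * (-2 * bP e - cP e) - 5 * cP e :=
  E.nonneg_of_scaled (p := (.add (.mul (.mul (.k 4) (.add (.k 1) (.x 0))) (.add (.mul (.k (-2)) (.add (.add (.add (.add (.k (-87)) (.mul (.k 168) (.x 0))) (.neg (.mul (.k 1578) (.pow (.x 0) 2)))) (.mul (.k 880) (.pow (.x 0) 3))) (.neg (.mul (.k 87) (.pow (.x 0) 4))))) (.neg (.add (.add (.add (.add (.mul (.k 268) (.x 0)) (.neg (.mul (.k 3784) (.pow (.x 0) 2)))) (.mul (.k 8512) (.pow (.x 0) 3))) (.neg (.mul (.k 4792) (.pow (.x 0) 4)))) (.mul (.k 564) (.pow (.x 0) 5)))))) (.neg (.mul (.k 5) (.add (.add (.add (.add (.mul (.k 268) (.x 0)) (.neg (.mul (.k 3784) (.pow (.x 0) 2)))) (.mul (.k 8512) (.pow (.x 0) 3))) (.neg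 (.mul (.k 4792) (.pow (.x 0) 4)))) (.mul (.k 564) (.pow (.x 0) 5))))))) (K := 1)
    (by decide +kernel) he he (by norm_num) <| by
    simp only [bP, cP, E.sem, Matrix.cons_val_zero]
    push_cast
    ring

lemma xl_lo {e : ℝ} (he : e ∈ Icc (0 : ℝ) 1) :
    0 ≤ 18 * dD e - aP e + 54 * e * dD e / 25 :=
  E.nonneg_of_scaled (p := (.add (.mul (.k 25) (.add (.mul (.k 18) (.add (.k 29) (.neg (.mul (.k 21) (.x 0))))) (.neg (.add (.add (.add (.add (.k 219) (.mul (.k 534) (.x 0))) (.neg (.mul (.k 906) (.pow (.x 0) 2)))) (.mul (.k 346) (.pow (.x 0) 3))) (.neg (.mul (.k 33) (.pow (.x 0) 4))))))) (.mul (.mul (.mul (.k 54) (.x 0)) (.add (.k 29) (.neg (.mul (.k 21) (.x 0))))) (.k 1)))) (K := 25)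
    (by decide +kernel) he he (by norm_num) <| by
    simp only [aP, dD, E.sem, Matrix.cons_val_zero]
    push_cast
    ring

lemma rim {e : ℝ} (he : e ∈ Icc (0 : ℝ) 1) :
    0 ≤ 72 * (1 + e) * (1 - e) * dD e + (36 * (1 + e) * dD e - xN e) * (3 * e - 1) / 2 - (36 * (1 + e) * dD e - xN e) * (1 - e) / 2 + (2 * xN e - yN e) * (1 + e) + 3 * (1 + e) * (1 - e) * bP e / 2 :=
  E.nonneg_of_scaled (p := (.add (.add (.add (.add (.mul (.k 2) (.mul (.mul (.mul (.k 72) (.add (.k 1) (.x 0))) (.add (.k 1) (.neg (.x 0)))) (.add (.k 29) (.neg (.mul (.k 21) (.x 0)))))) (.mul (.mul (.add (.mul (.mul (.k 36) (.add (.k 1) (.x 0))) (.add (.k 29) (.neg (.mul (.k 21) (.x 0))))) (.neg (.mul (.mul (.k 2) (.add (.k 1) (.x 0))) (.add (.mul (.k 18) (.add (.k 29) (.neg (.mul (.k 21) (.x 0))))) (.neg (.add (.add (.add (.add (.k 219) (.mul (.k 534) (.x 0))) (.neg (.mul (.k 906) (.pow (.x 0) 2))))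 (.mul (.k 346) (.pow (.x 0) 3))) (.neg (.mul (.k 33) (.pow (.x 0) 4))))))))) (.add (.mul (.k 3) (.x 0)) (.neg (.k 1)))) (.k 1))) (.neg (.mul (.mul (.add (.mul (.mul (.k 36) (.add (.k 1) (.x 0))) (.add (.k 29) (.neg (.mul (.k 21) (.x 0))))) (.neg (.mul (.mul (.k 2) (.add (.k 1) (.x 0))) (.add (.mul (.k 18) (.add (.k 29) (.neg (.mul (.k 21) (.x 0))))) (.neg (.add (.add (.add (.add (.k 219) (.mul (.k 534) (.x 0))) (.neg (.mul (.k 906) (.pow (.x 0) 2)))) (.mul (.k 346) (.pow (.x 0) 3))) (.neg (.mul (.k 33) (.pow (.x 0) 4))))))))) (.add (.k 1) (.neg (.x 0)))) (.k 1)))) (.mul (.k 2) (.mul (.add (.mul (.k 2) (.mul (.mul (.k 2) (.add (.k 1) (.x 0))) (.add (.mul (.k 18) (.add (.k 29) (.neg (.mul (.k 21) (.x 0))))) (.neg (.add (.add (.add (.add (.k 219) (.mul (.k 534) (.x 0))) (.neg (.mul (.k 906) (.pow (.x 0) 2)))) (.mul (.k 346) (.pow (.x 0) 3))) (.neg (.mul (.k 33) (.pow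 (.x 0) 4)))))))) (.neg (.mul (.mul (.k 9) (.pow (.add (.k 1) (.neg (.x 0))) 2)) (.add (.add (.k 120) (.neg (.mul (.k 85) (.x 0)))) (.mul (.k 5) (.pow (.x 0) 2)))))) (.add (.k 1) (.x 0))))) (.mul (.mul (.mul (.mul (.k 3) (.add (.k 1) (.x 0))) (.add (.k 1) (.neg (.x 0)))) (.add (.add (.add (.add (.k (-87)) (.mul (.k 168) (.x 0))) (.neg (.mul (.k 1578) (.pow (.x 0) 2)))) (.mul (.k 880) (.pow (.x 0) 3))) (.neg (.mul (.k 87) (.pow (.x 0) 4))))) (.k 1)))) (K := 2)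
    (by decide +kernel) he he (by norm_num) <| by
    simp only [aP, bP, btP, dD, xN, yN, E.sem, Matrix.cons_val_zero]
    push_cast
    ring

lemma mid {e : ℝ} (he : e ∈ Icc (0 : ℝ) 1) :
    0 ≤ (2 - e) * (1 - e) * (1 - (2 - e) * hbd e) + e * (20 + 29 * e) / 50 - (1 - e) ^ 2 * (1 + 3 * e / 25) :=
  E.nonneg_of_scaled (p := (.add (.add (.mul (.mul (.add (.k 2) (.neg (.x 0))) (.add (.k 1) (.neg (.x 0)))) (.add (.mul (.k 1000) (.k 1)) (.neg (.mul (.add (.k 2) (.neg (.x 0))) (.mul (.add (.add (.k 52) (.mul (.k 630) (.pow (.x 0) 2))) (.mul (.k 590) (.pow (.x 0) 3))) (.k 1)))))) (.mul (.k 20) (.mul (.mul (.x 0) (.add (.k 20) (.mul (.k 29) (.x 0)))) (.k 1)))) (.neg (.mul (.k 40) (.mul (.pow (.add (.k 1) (.neg (.x 0))) 2) (.add (.mul (.k 25) (.k 1)) (.mul (.mul (.k 3) (.x 0)) (.k 1)))))))) (K := 1000)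
    (by decide +kernel) he he (by norm_num) <| by
    simp only [hbd, E.sem, Matrix.cons_val_zero]
    push_cast
    ring

lemma om_lo {e s : ℝ} (he : e ∈ Icc (0 : ℝ) 1) (hs : s ∈ Icc (0 : ℝ) 1) :
    0 ≤ omN e s - 36 * (1 + e) * dD e * ((20 + 29 * e) / 50) :=
  E.nonneg_of_scaled (p := (.add (.mul (.k 50) (.add (.add (.mul (.mul (.k 36) (.add (.k 1) (.x 0))) (.add (.k 29) (.neg (.mul (.k 21) (.x 0))))) (.neg (.mul (.mul (.mul (.k 9) (.pow (.add (.k 1) (.neg (.x 0))) 2)) (.add (.add (.k 120) (.neg (.mul (.k 85) (.x 0)))) (.mul (.k 5) (.pow (.x 0) 2)))) (.x 1)))) (.mul (.add (.mul (.mul (.k 9) (.pow (.add (.k 1) (.neg (.x 0))) 2)) (.add (.add (.k 120) (.neg (.mul (.k 85) (.x 0)))) (.mul (.k 5) (.pow (.x 0) 2)))) (.neg (.mul (.mul (.k 2) (.add (.k 1) (.x 0))) (.add (.mul (.k 18) (.add (.k 29) (.neg (.mul (.k 21) (.x 0))))) (.neg (.add (.add (.add (.add (.k 219) (.mul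 (.k 534) (.x 0))) (.neg (.mul (.k 906) (.pow (.x 0) 2)))) (.mul (.k 346) (.pow (.x 0) 3))) (.neg (.mul (.k 33) (.pow (.x 0) 4))))))))) (.pow (.x 1) 2)))) (.neg (.mul (.mul (.mul (.k 36) (.add (.k 1) (.x 0))) (.add (.k 29) (.neg (.mul (.k 21) (.x 0))))) (.mul (.add (.k 20) (.mul (.k 29) (.x 0))) (.k 1)))))) (K := 50)
    (by decide +kernel) he hs (by norm_num) <| by
    simp only [aP, btP, dD, kN, omN, xN, yN, E.sem, Matrix.cons_val_zero, Matrix.cons_val_one]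
    push_cast
    ring

lemma w_hi {e s : ℝ} (he : e ∈ Icc (0 : ℝ) 1) (hs : s ∈ Icc (0 : ℝ) 1) :
    0 ≤ omN e s - (1 + e) * sxN e s :=
  E.nonneg_of_scaled (p := (.mul (.add (.add (.add (.mul (.mul (.k 36) (.add (.k 1) (.x 0))) (.add (.k 29) (.neg (.mul (.k 21) (.x 0))))) (.neg (.mul (.mul (.mul (.k 9) (.pow (.add (.k 1) (.neg (.x 0))) 2)) (.add (.add (.k 120) (.neg (.mul (.k 85) (.x 0)))) (.mul (.k 5) (.pow (.x 0) 2)))) (.x 1)))) (.mul (.add (.mul (.mul (.k 9) (.pow (.add (.k 1) (.neg (.x 0))) 2)) (.add (.add (.k 120) (.neg (.mul (.k 85) (.x 0)))) (.mul (.k 5) (.pow (.x 0) 2)))) (.neg (.mul (.mul (.k 2) (.add (.k 1) (.x 0))) (.add (.mul (.k 18) (.add (.k 29) (.neg (.mul (.k 21) (.x 0))))) (.neg (.add (.add (.add (.add (.k 219) (.mul (.k 534) (.x 0))) (.neg (.mul (.k 906) (.pow (.x 0) 2)))) (.mul (.k 346) (.pow (.x 0) 3))) (.neg (.mul (.k 33) (.pow (.x 0) 4)))))))))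 (.pow (.x 1) 2))) (.neg (.mul (.add (.k 1) (.x 0)) (.add (.mul (.mul (.mul (.k 9) (.pow (.add (.k 1) (.neg (.x 0))) 2)) (.add (.add (.k 120) (.neg (.mul (.k 85) (.x 0)))) (.mul (.k 5) (.pow (.x 0) 2)))) (.x 1)) (.neg (.mul (.mul (.k 2) (.add (.mul (.mul (.k 9) (.pow (.add (.k 1) (.neg (.x 0))) 2)) (.add (.add (.k 120) (.neg (.mul (.k 85) (.x 0)))) (.mul (.k 5) (.pow (.x 0) 2)))) (.neg (.mul (.mul (.k 2) (.add (.k 1) (.x 0))) (.add (.mul (.k 18) (.add (.k 29) (.neg (.mul (.k 21) (.x 0))))) (.neg (.add (.add (.add (.add (.k 219) (.mul (.k 534) (.x 0))) (.neg (.mul (.k 906) (.pow (.x 0) 2)))) (.mul (.k 346) (.pow (.x 0) 3))) (.neg (.mul (.k 33) (.pow (.x 0) 4)))))))))) (.pow (.x 1) 2))))))) (.add (.x 1) (.bar 1)))) (K := 1)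
    (by decide +kernel) he hs (by norm_num) <| by
    simp only [aP, btP, dD, kN, omN, sxN, xN, yN, E.sem, Matrix.cons_val_zero, Matrix.cons_val_one]
    push_cast
    ring

lemma g1_pos {e s : ℝ} (he : e ∈ Icc (0 : ℝ) 1) (hs : s ∈ Icc (0 : ℝ) 1) :
    0 ≤ g1N e s :=
  E.nonneg_of_scaled (p := (.mul (.add (.add (.mul (.k 1000) (.add (.add (.add (.mul (.mul (.mul (.mul (.mul (.add (.mul (.k 3) (.x 0)) (.neg (.k 1))) (.k 1)) (.k 36)) (.add (.k 1) (.x 0))) (.add (.k 29) (.neg (.mul (.k 21) (.x 0))))) (.add (.k 1) (.x 1))) (.mul (.add (.mul (.mul (.mul (.k 9) (.pow (.add (.k 1) (.neg (.x 0))) 2)) (.add (.add (.k 120) (.neg (.mul (.k 85) (.x 0)))) (.mul (.k 5) (.pow (.x 0) 2)))) (.add (.mul (.k 2) (.add (.k 1) (.x 0))) (.neg (.mul (.add (.mul (.k 3) (.x 0)) (.neg (.k 1))) (.k 1))))) (.neg (.mul (.mul (.mul (.mul (.add (.k 1) (.neg (.x 0))) (.k 1)) (.k 36)) (.add (.k 1)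 (.x 0))) (.add (.k 29) (.neg (.mul (.k 21) (.x 0))))))) (.x 1))) (.mul (.mul (.mul (.add (.mul (.mul (.k 9) (.pow (.add (.k 1) (.neg (.x 0))) 2)) (.add (.add (.k 120) (.neg (.mul (.k 85) (.x 0)))) (.mul (.k 5) (.pow (.x 0) 2)))) (.neg (.mul (.mul (.k 2) (.add (.k 1) (.x 0))) (.add (.mul (.k 18) (.add (.k 29) (.neg (.mul (.k 21) (.x 0))))) (.neg (.add (.add (.add (.add (.k 219) (.mul (.k 534) (.x 0))) (.neg (.mul (.k 906) (.pow (.x 0) 2)))) (.mul (.k 346) (.pow (.x 0) 3))) (.neg (.mul (.k 33) (.pow (.x 0) 4))))))))) (.add (.k 1) (.neg (.x 0)))) (.k 1)) (.pow (.x 1) 2))) (.mul (.k 2) (.mul (.mul (.mul (.mul (.k 72) (.add (.k 1) (.x 0))) (.add (.k 1) (.neg (.x 0)))) (.add (.k 29) (.neg (.mul (.k 21) (.x 0))))) (.add (.k 1) (.x 1)))))) (.neg (.mul (.mul (.mul (.mul (.mul (.k 36) (.add (.k 1) (.x 0))) (.add (.k 29) (.neg (.mul (.k 21) (.x 0))))) (.add (.k 1) (.neg (.x 0))))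 (.mul (.add (.add (.k 52) (.mul (.k 630) (.pow (.x 0) 2))) (.mul (.k 590) (.pow (.x 0) 3))) (.k 1))) (.mul (.add (.add (.k 7) (.mul (.k 4) (.add (.k 1) (.neg (.x 0))))) (.mul (.k 4) (.x 1))) (.k 1))))) (.neg (.mul (.k 2000) (.mul (.add (.k 1) (.neg (.x 0))) (.add (.add (.mul (.mul (.k 36) (.add (.k 1) (.x 0))) (.add (.k 29) (.neg (.mul (.k 21) (.x 0))))) (.neg (.mul (.mul (.mul (.k 9) (.pow (.add (.k 1) (.neg (.x 0))) 2)) (.add (.add (.k 120) (.neg (.mul (.k 85) (.x 0)))) (.mul (.k 5) (.pow (.x 0) 2)))) (.x 1)))) (.mul (.add (.mul (.mul (.k 9) (.pow (.add (.k 1) (.neg (.x 0))) 2)) (.add (.add (.k 120) (.neg (.mul (.k 85) (.x 0)))) (.mul (.k 5) (.pow (.x 0) 2)))) (.neg (.mul (.mul (.k 2) (.add (.k 1) (.x 0))) (.add (.mul (.k 18) (.add (.k 29) (.neg (.mul (.k 21) (.x 0))))) (.neg (.add (.add (.add (.add (.k 219) (.mul (.k 534) (.x 0))) (.neg (.mul (.k 906) (.pow (.x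 0) 2)))) (.mul (.k 346) (.pow (.x 0) 3))) (.neg (.mul (.k 33) (.pow (.x 0) 4))))))))) (.pow (.x 1) 2))))))) (.pow (.add (.x 0) (.bar 0)) 4))) (K := 2000)
    (by decide +kernel) he hs (by norm_num) <| by
    simp only [aP, btP, dD, g1N, hbd, kN, omN, xN, yN, E.sem, Matrix.cons_val_zero, Matrix.cons_val_one]
    push_cast
    ring

lemma g2_pos {e s : ℝ} (he : e ∈ Icc (0 : ℝ) 1) (hs : s ∈ Icc (0 : ℝ) 1) :
    0 ≤ g2N e s :=
  E.nonneg_of_scaled (p := (.mul (.add (.add (.add (.mul (.k 1000) (.add (.add (.add (.mul (.mul (.mul (.mul (.mul (.add (.mul (.k 3) (.x 0)) (.neg (.k 1))) (.k 1)) (.k 36)) (.add (.k 1) (.x 0))) (.add (.k 29) (.neg (.mul (.k 21) (.x 0))))) (.add (.k 1) (.x 1))) (.mul (.add (.mul (.mul (.mul (.k 9) (.pow (.add (.k 1) (.neg (.x 0))) 2)) (.add (.add (.k 120) (.neg (.mul (.k 85) (.x 0)))) (.mul (.k 5) (.pow (.x 0) 2)))) (.add (.mul (.k 2) (.add (.k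 1) (.x 0))) (.neg (.mul (.add (.mul (.k 3) (.x 0)) (.neg (.k 1))) (.k 1))))) (.neg (.mul (.mul (.mul (.mul (.add (.k 1) (.neg (.x 0))) (.k 1)) (.k 36)) (.add (.k 1) (.x 0))) (.add (.k 29) (.neg (.mul (.k 21) (.x 0))))))) (.x 1))) (.mul (.mul (.mul (.add (.mul (.mul (.k 9) (.pow (.add (.k 1) (.neg (.x 0))) 2)) (.add (.add (.k 120) (.neg (.mul (.k 85) (.x 0)))) (.mul (.k 5) (.pow (.x 0) 2)))) (.neg (.mul (.mul (.k 2) (.add (.k 1) (.x 0))) (.add (.mul (.k 18) (.add (.k 29) (.neg (.mul (.k 21) (.x 0))))) (.neg (.add (.add (.add (.add (.k 219) (.mul (.k 534) (.x 0))) (.neg (.mul (.k 906) (.pow (.x 0) 2)))) (.mul (.k 346) (.pow (.x 0) 3))) (.neg (.mul (.k 33) (.pow (.x 0) 4))))))))) (.add (.k 1) (.neg (.x 0)))) (.k 1)) (.pow (.x 1) 2))) (.mul (.k 2) (.mul (.mul (.mul (.mul (.k 72) (.add (.k 1) (.x 0))) (.add (.k 1) (.neg (.x 0)))) (.add (.k 29) (.neg (.mul (.k 21) (.x 0)))))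 (.add (.k 1) (.x 1)))))) (.neg (.mul (.mul (.mul (.mul (.mul (.k 36) (.add (.k 1) (.x 0))) (.add (.k 29) (.neg (.mul (.k 21) (.x 0))))) (.add (.k 1) (.neg (.x 0)))) (.mul (.add (.add (.k 52) (.mul (.k 630) (.pow (.x 0) 2))) (.mul (.k 590) (.pow (.x 0) 3))) (.k 1))) (.mul (.add (.add (.k 7) (.mul (.k 4) (.add (.k 1) (.neg (.x 0))))) (.mul (.k 4) (.x 1))) (.k 1))))) (.neg (.mul (.k 2000) (.mul (.add (.k 1) (.neg (.x 0))) (.add (.add (.mul (.mul (.k 36) (.add (.k 1) (.x 0))) (.add (.k 29) (.neg (.mul (.k 21) (.x 0))))) (.neg (.mul (.mul (.mul (.k 9) (.pow (.add (.k 1) (.neg (.x 0))) 2)) (.add (.add (.k 120) (.neg (.mul (.k 85) (.x 0)))) (.mul (.k 5) (.pow (.x 0) 2)))) (.x 1)))) (.mul (.add (.mul (.mul (.k 9) (.pow (.add (.k 1) (.neg (.x 0))) 2)) (.add (.add (.k 120) (.neg (.mul (.k 85) (.x 0)))) (.mul (.k 5) (.pow (.x 0) 2)))) (.neg (.mul (.mul (.k 2) (.add (.k 1) (.x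 0))) (.add (.mul (.k 18) (.add (.k 29) (.neg (.mul (.k 21) (.x 0))))) (.neg (.add (.add (.add (.add (.k 219) (.mul (.k 534) (.x 0))) (.neg (.mul (.k 906) (.pow (.x 0) 2)))) (.mul (.k 346) (.pow (.x 0) 3))) (.neg (.mul (.k 33) (.pow (.x 0) 4))))))))) (.pow (.x 1) 2))))))) (.neg (.mul (.k 2000) (.mul (.mul (.k 2) (.add (.k 1) (.neg (.x 0)))) (.add (.mul (.mul (.mul (.k 9) (.pow (.add (.k 1) (.neg (.x 0))) 2)) (.add (.add (.k 120) (.neg (.mul (.k 85) (.x 0)))) (.mul (.k 5) (.pow (.x 0) 2)))) (.x 1)) (.neg (.mul (.mul (.k 2) (.add (.mul (.mul (.k 9) (.pow (.add (.k 1) (.neg (.x 0))) 2)) (.add (.add (.k 120) (.neg (.mul (.k 85) (.x 0)))) (.mul (.k 5) (.pow (.x 0) 2)))) (.neg (.mul (.mul (.k 2) (.add (.k 1) (.x 0))) (.add (.mul (.k 18) (.add (.k 29) (.neg (.mul (.k 21) (.x 0))))) (.neg (.add (.add (.add (.add (.k 219) (.mul (.k 534) (.x 0))) (.neg (.mul (.k 906) (.pow (.x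 0) 2)))) (.mul (.k 346) (.pow (.x 0) 3))) (.neg (.mul (.k 33) (.pow (.x 0) 4)))))))))) (.pow (.x 1) 2)))))))) (.pow (.add (.x 0) (.bar 0)) 4))) (K := 2000)
    (by decide +kernel) he hs (by norm_num) <| by
    simp only [aP, btP, dD, g1N, g2N, hbd, kN, omN, sxN, xN, yN, E.sem, Matrix.cons_val_zero, Matrix.cons_val_one]
    push_cast
    ring

lemma w_lo {e s : ℝ} (he : e ∈ Icc (0 : ℝ) 1) (hs : s ∈ Icc (0 : ℝ) 1) :
    0 ≤ 4 * (1 + e) * sxS e s + omS e s * (1 + e - 2 * (1 - e) * s) :=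
  E.nonneg_of_scaled (p := (.add (.mul (.mul (.k 4) (.add (.k 1) (.x 0))) (.add (.mul (.mul (.mul (.k 9) (.pow (.add (.k 1) (.neg (.x 0))) 2)) (.add (.add (.k 120) (.neg (.mul (.k 85) (.x 0)))) (.mul (.k 5) (.pow (.x 0) 2)))) (.pow (.x 1) 2)) (.neg (.mul (.mul (.k 2) (.add (.mul (.mul (.k 9) (.pow (.add (.k 1) (.neg (.x 0))) 2)) (.add (.add (.k 120) (.neg (.mul (.k 85) (.x 0)))) (.mul (.k 5) (.pow (.x 0) 2)))) (.neg (.mul (.mul (.k 2) (.add (.k 1) (.x 0))) (.add (.mul (.k 18) (.add (.k 29) (.neg (.mul (.k 21) (.x 0))))) (.neg (.add (.add (.add (.add (.k 219) (.mul (.k 534) (.x 0))) (.neg (.mul (.k 906) (.pow (.x 0) 2)))) (.mul (.k 346) (.pow (.x 0) 3))) (.neg (.mul (.k 33) (.pow (.x 0) 4)))))))))) (.pow (.x 1) 4))))) (.mul (.add (.add (.mul (.mul (.k 36) (.add (.k 1) (.x 0))) (.add (.k 29) (.neg (.mul (.k 21) (.x 0))))) (.neg (.mul (.mul (.mul (.k 9) (.pow (.add (.k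 1) (.neg (.x 0))) 2)) (.add (.add (.k 120) (.neg (.mul (.k 85) (.x 0)))) (.mul (.k 5) (.pow (.x 0) 2)))) (.pow (.x 1) 2)))) (.mul (.add (.mul (.mul (.k 9) (.pow (.add (.k 1) (.neg (.x 0))) 2)) (.add (.add (.k 120) (.neg (.mul (.k 85) (.x 0)))) (.mul (.k 5) (.pow (.x 0) 2)))) (.neg (.mul (.mul (.k 2) (.add (.k 1) (.x 0))) (.add (.mul (.k 18) (.add (.k 29) (.neg (.mul (.k 21) (.x 0))))) (.neg (.add (.add (.add (.add (.k 219) (.mul (.k 534) (.x 0))) (.neg (.mul (.k 906) (.pow (.x 0) 2)))) (.mul (.k 346) (.pow (.x 0) 3))) (.neg (.mul (.k 33) (.pow (.x 0) 4))))))))) (.pow (.x 1) 4))) (.add (.add (.k 1) (.x 0)) (.neg (.mul (.mul (.k 2) (.add (.k 1) (.neg (.x 0)))) (.x 1))))))) (K := 1)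
    (by decide +kernel) he hs (by norm_num) <| by
    simp only [aP, btP, dD, kN, omS, sxS, xN, yN, E.sem, Matrix.cons_val_zero, Matrix.cons_val_one]
    push_cast
    ring

lemma slope_gain {e s : ℝ} (he : e ∈ Icc (0 : ℝ) 1) (hs : s ∈ Icc (0 : ℝ) 1) :
    0 ≤ (3 - (1 - e) * s) * ((20 + 29 * e) / 50) - 2 * (1 + (1 - e) * (1 - s ^ 2)) * (1 - e) * hbd e * (2 * (1 + (1 - e) * (1 - s ^ 2)) + 3 * s / 2) :=
  E.nonneg_of_scaled (p := (.add (.mul (.k 40) (.mul (.add (.k 3) (.neg (.mul (.add (.k 1) (.neg (.x 0))) (.x 1)))) (.mul (.add (.k 20) (.mul (.k 29) (.x 0))) (.k 1)))) (.neg (.mul (.mul (.mul (.mul (.k 2) (.add (.k 1) (.mul (.add (.k 1) (.neg (.x 0))) (.add (.k 1) (.neg (.pow (.x 1) 2)))))) (.add (.k 1) (.neg (.x 0)))) (.mul (.add (.add (.k 52) (.mul (.k 630) (.pow (.x 0) 2))) (.mul (.k 590) (.pow (.x 0) 3))) (.k 1))) (.add (.mul (.k 2) (.mul (.k 2) (.add (.k 1) (.mul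 (.add (.k 1) (.neg (.x 0))) (.add (.k 1) (.neg (.pow (.x 1) 2))))))) (.mul (.mul (.k 3) (.x 1)) (.k 1))))))) (K := 2000)
    (by decide +kernel) he hs (by norm_num) <| by
    simp only [hbd, E.sem, Matrix.cons_val_zero, Matrix.cons_val_one]
    push_cast
    ring

end Vale.Agent.P219.CH.Relax.Five.Out
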