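import Vale.Agent.P219.Relax.Five.Profile
import Vale.Agent.P219.Relax.Five.Algebra
import Vale.Agent.P219.Relax.Five.OutPoly

/-!
# P219, dimension five: the facts beyond the diameter

In `U + G`, `-G`, `U' + G'` and `G'` every fact follows from ten linear bounds, and these from
polynomial inequalities in `e` and the ratio `s` of the two hyperbolic sines.
-/

noncomputable section

open Set

namespace Vale.Agent.P219.CH.Relax.Five

/-! ## The facts from linear bounds -/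

/-- Linear bounds on the data of a point. -/
structure Raw (o : Pt) : Prop where
  g_nonneg : 0 ≤ o.g
  g_le : o.g ≤ 1 / 2
  p_nonneg : 0 ≤ o.p
  p_le : o.p ≤ 1
  pos : 0 < o.U + o.G
  nonpos : o.G ≤ 0
  w_le : o.U' + o.G' ≤ o.U + o.G
  le_w : -(o.p * (o.U + o.G) / 2) ≤ o.U' + o.G'
  v_le : o.G' ≤ 4 / 5 * (o.p * -o.G)
  slope_le : 0 ≤ 2 + 2 * (o.U' + o.G') - (4 - 6 * o.p) * (o.U + o.G) - (4 - 4 * o.p + 2 * o.g) * -o.G
  mid : 0 ≤ 2 + (o.U' + o.G') + (7 * o.p - 4) * (o.U + o.G) - (4 - 4 * o.p + o.g) * -o.G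
  cross : (4 * (1 - o.p) + 3 * o.g) * -o.G ≤ (3 - 2 * o.g) * (o.U + o.G)
  top : 0 ≤ 1 - 4 * (1 - o.p) * (o.U + o.G) + o.g * (o.U + o.G)

variable {o : Pt}

lemma diag_at_one (o : Pt) : diag o 1 = 1 - 4 * (1 - o.p) * (o.U + o.G) := by
  simp only [diag, k0, k1, k2, k3]
  ring

lemma Raw.endc (h : Raw o) : EndCond o 1 := by
  intro c hc
  obtain ⟨hc0, hc1⟩ := hc
  have e : symE o c - c * (2 * diag o 1 / 1 ^ 2 + slope o 1 * (c + 1 - 2 * 1)) =
      (1 - c) * ((1 - c) * (2 + (o.U' + o.G') + (7 * o.p - 4) * (o.U + o.G) -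
          (4 - 4 * o.p + o.g) * -o.G) + o.g * -o.G * ((2 * c + 2) / (3 + c))) := by
    have : (3 : ℝ) + c ≠ 0 := by linarith
    simp only [symE, diag, slope, ker, k0, k1, k2, k3]
    field_simp
    ring
  have h1 : 0 ≤ o.g * -o.G * ((2 * c + 2) / (3 + c)) :=
    mul_nonneg (mul_nonneg h.g_nonneg (neg_nonneg.2 h.nonpos))
      (div_nonneg (by linarith) (by linarith))
  linarith [mul_nonneg (sub_nonneg.2 hc1)
    (add_nonneg (mul_nonneg (sub_nonneg.2 hc1) h.mid) h1)]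

lemma slope_one (o : Pt) : slope o 1 = -(2 + 2 * (o.U' + o.G') -
    (4 - 6 * o.p) * (o.U + o.G) - (4 - 4 * o.p + 2 * o.g) * -o.G) := by
  simp only [slope, k0, k1, k3]
  ring

/-- A point in the four combinations that carry signs. -/
def ptW (u H w v p g : ℝ) : Pt := ⟨u + H, w - v, -H, v, p, g⟩

lemma exists_ptW (o : Pt) : ∃ u H w v p g, o = ptW u H w v p g :=
  ⟨o.U + o.G, -o.G, o.U' + o.G', o.G', o.p, o.g, by
    obtain ⟨U, U', G, G', p, g⟩ := o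
    simp [ptW]⟩

lemma ptW_sums (u H w v p g : ℝ) : (ptW u H w v p g).U + (ptW u H w v p g).G = u ∧
    (ptW u H w v p g).U' + (ptW u H w v p g).G' = w ∧ -(ptW u H w v p g).G = H := by
  refine ⟨?_, ?_, ?_⟩ <;> simp [ptW]

variable {u H w v p g : ℝ}

/-- The bounds on the products that occur. -/
lemma Raw.facts (h : Raw (ptW u H w v p g)) : 0 ≤ g ∧ g ≤ 1 / 2 ∧ 0 ≤ p ∧ p ≤ 1 ∧ 0 < u ∧ 0 ≤ H ∧
    w ≤ u ∧ -(p * u / 2) ≤ w ∧ v ≤ 4 / 5 * (p * H) := by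
  obtain ⟨eu, ew, eH⟩ := ptW_sums u H w v p g
  obtain ⟨hg0, hg1, hp0, hp1, hpos, hneg, hwu, huw, hvh, -, -, -, -⟩ := h
  rw [eu] at hpos hwu huw
  rw [ew] at hwu huw
  rw [eH] at hvh
  simp only [ptW] at hg0 hg1 hp0 hp1 hneg huw hvh
  exact ⟨hg0, hg1, hp0, hp1, hpos, neg_nonpos.1 hneg, hwu, huw, hvh⟩

lemma Raw.zero' (h : Raw (ptW u H w v p g)) {c : ℝ} (hc : c ∈ Icc (0 : ℝ) 1) :
    0 ≤ symB (ptW u H w v p g) c 0 := by
  obtain ⟨hg0, hg1, hp0, hp1, hu, hH, -, huw, hvh⟩ := h.facts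
  have hm : 0 ≤ 2 + w + (7 * p - 4) * u - (4 - 4 * p + g) * H := by
    simpa [ptW] using h.mid
  obtain ⟨hc0, hc1⟩ := hc
  have e : symB (ptW u H w v p g) c 0 =
      (2 + w + (7 * p - 4) * u - (4 - 4 * p + g) * H + g * H / 2) +
        (1 - c) * ((1 + c) * w - (2 + c) * v + (u + H) * (4 - p - p * c) + 3 * p * H +
          g * H * (1 - c - c ^ 2) / 2) := by
    simp only [symB, ker, ptW, abs_of_nonneg hc0, abs_zero]
    ring
  have hpu : 0 ≤ p * u := mul_nonneg hp0 hu.le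
  have hpH : 0 ≤ p * H := mul_nonneg hp0 hH
  have hgH : 0 ≤ g * H := mul_nonneg hg0 hH
  have a1 : -(p * u) ≤ (1 + c) * w := by
    have := mul_le_mul_of_nonneg_left huw (show 0 ≤ 1 + c by linarith)
    linarith [mul_le_mul_of_nonneg_right (show 1 + c ≤ 2 by linarith) (div_nonneg hpu zero_le_two)]
  have a2 : (2 + c) * v ≤ 12 / 5 * (p * H) := by
    have := mul_le_mul_of_nonneg_left hvh (show 0 ≤ 2 + c by linarith)
    linarith [mul_le_mul_of_nonneg_right (show 2 + c ≤ 3 by linarith) hpH]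
  have a3 := mul_le_mul_of_nonneg_right hc1 hpH
  have a4 := mul_le_mul_of_nonneg_right hc1 hpu
  have a5 : 0 ≤ g * H * ((2 - c - c ^ 2) / 2) := by
    have : 0 ≤ (2 - c - c ^ 2) / 2 := by nlinarith
    positivity
  have a6 := mul_le_mul_of_nonneg_right hp1 hu.le
  have a7 := mul_le_mul_of_nonneg_right hp1 hH
  have a8 := mul_le_mul_of_nonneg_right hg1 hH
  have key : 0 ≤ (1 + c) * w - (2 + c) * v + (u + H) * (4 - p - p * c) + 3 * p * H +
      g * H * (1 - c - c ^ 2) / 2 := by linarith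
  rw [e]
  linarith [mul_nonneg (sub_nonneg.2 hc1) key]

lemma Raw.mixed' (h : Raw (ptW u H w v p g)) {c d : ℝ} (hc : c ∈ Icc (0 : ℝ) 1)
    (hd : d ∈ Icc (0 : ℝ) 1) : 2 * (c * d) * (g * (u + H)) ≤ symB (ptW u H w v p g) c (-d) := by
  have hzero := h.zero' hc
  obtain ⟨hg0, hg1, hp0, hp1, hu, hH, hwu, -, hvh⟩ := h.facts
  have hcr : (4 * (1 - p) + 3 * g) * H ≤ (3 - 2 * g) * u := by
    simpa [ptW] using h.cross
  obtain ⟨hc0, hc1⟩ := hc
  obtain ⟨hd0, hd1⟩ := hd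
  have e : symB (ptW u H w v p g) c (-d) - 2 * (c * d) * (g * (u + H)) =
      symB (ptW u H w v p g) c 0 + d * (-(d * w) -
        v * ((1 - c) * (1 + c - d)) + u * (p * d + 4 - 2 * g * c) +
        H * (p * d + 4 + p * (3 + c ^ 2 - c * d) - 8 * c -
          g * (1 - c ^ 2 / 2 - d ^ 2 / 2 - c * d / 2) - 2 * g * c)) := by
    simp only [symB, ker, ptW, abs_of_nonneg hc0, abs_neg, abs_of_nonneg hd0, abs_zero]
    ring
  have hpu : 0 ≤ p * u := mul_nonneg hp0 hu.le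
  have hpH : 0 ≤ p * H := mul_nonneg hp0 hH
  have a1 : d * w ≤ u :=
    (mul_le_mul_of_nonneg_left hwu hd0).trans (mul_le_of_le_one_left hu.le hd1)
  have hk : 0 ≤ (1 - c) * (1 + c - d) := mul_nonneg (sub_nonneg.2 hc1) (by linarith)
  have a2 : v * ((1 - c) * (1 + c - d)) ≤ 8 / 5 * ((1 - c) * (p * H)) := by
    have := mul_le_mul_of_nonneg_right hvh hk
    linarith [mul_le_mul_of_nonneg_left (show 1 + c - d ≤ 2 by linarith)
      (mul_nonneg (sub_nonneg.2 hc1) hpH)]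
  have a3 := mul_nonneg hd0 hpu
  have a4 := mul_le_mul_of_nonneg_right hc1 (mul_nonneg hg0 hu.le)
  have a5 := mul_nonneg (mul_nonneg hd0 (sub_nonneg.2 hc1)) hpH
  have a6 : 0 ≤ g * H * (2 * (1 - c) + c ^ 2 / 2 + d ^ 2 / 2 + c * d / 2) := by
    have : 0 ≤ 2 * (1 - c) + c ^ 2 / 2 + d ^ 2 / 2 + c * d / 2 := by
      linarith [sq_nonneg c, sq_nonneg d, mul_nonneg hc0 hd0]
    positivity
  have a7 : (1 - c) * (1 + c) * (p * H) ≤ 2 * ((1 - c) * (p * H)) := by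
    linarith [mul_le_mul_of_nonneg_left (show 1 + c ≤ 2 by linarith)
      (mul_nonneg (sub_nonneg.2 hc1) hpH)]
  have a8 := mul_le_mul_of_nonneg_left (mul_le_of_le_one_left hH hp1) (sub_nonneg.2 hc1)
  have a9 := mul_nonneg (sub_nonneg.2 hc1) hH
  have key : 0 ≤ -(d * w) - v * ((1 - c) * (1 + c - d)) +
      u * (p * d + 4 - 2 * g * c) + H * (p * d + 4 + p * (3 + c ^ 2 - c * d) - 8 * c -
        g * (1 - c ^ 2 / 2 - d ^ 2 / 2 - c * d / 2) - 2 * g * c) := by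
    linarith
  linarith [mul_nonneg hd0 key]

lemma Raw.outward' (h : Raw (ptW u H w v p g)) {c d : ℝ} (hc : c ∈ Icc (0 : ℝ) 1)
    (hd : d ∈ Icc (0 : ℝ) 1) : 0 ≤ symB (ptW u H w v p g) (-c) (-d) := by
  obtain ⟨hg0, hg1, hp0, hp1, hu, hH, -, huw, hvh⟩ := h.facts
  obtain ⟨hc0, hc1⟩ := hc
  obtain ⟨hd0, hd1⟩ := hd
  have e : symB (ptW u H w v p g) (-c) (-d) = 2 + (2 - c ^ 2 - d ^ 2) * w -
      v * ((2 - c ^ 2 - d ^ 2) + (c + d) * (1 - c * d)) +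
      u * (p * (6 + c ^ 2 + d ^ 2) + 4 * (c + d)) +
      H * (p * (6 + c ^ 2 + d ^ 2) + 4 * (c + d) + p * (c + d) * (3 + c * d) + 8 * (c * d) -
        g * (c + d) * (1 - (c ^ 2 + d ^ 2) / 2)) := by
    simp only [symB, ker, ptW, abs_neg, abs_of_nonneg hc0, abs_of_nonneg hd0]
    ring
  have hpu : 0 ≤ p * u := mul_nonneg hp0 hu.le
  have hpH : 0 ≤ p * H := mul_nonneg hp0 hH
  have hc2 : c ^ 2 ≤ 1 := pow_le_one₀ hc0 hc1
  have hd2 : d ^ 2 ≤ 1 := pow_le_one₀ hd0 hd1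
  have hcd : c * d ≤ 1 := mul_le_one₀ hc1 hd0 hd1
  have hS : 0 ≤ 2 - c ^ 2 - d ^ 2 := by linarith
  have a1 : -(p * u) ≤ (2 - c ^ 2 - d ^ 2) * w := by
    have := mul_le_mul_of_nonneg_left huw hS
    linarith [mul_le_mul_of_nonneg_right (show 2 - c ^ 2 - d ^ 2 ≤ 2 by
      linarith [sq_nonneg c, sq_nonneg d]) (div_nonneg hpu zero_le_two)]
  have hk : 0 ≤ (2 - c ^ 2 - d ^ 2) + (c + d) * (1 - c * d) :=
    add_nonneg hS (mul_nonneg (by linarith) (by linarith))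
  have hk' : (2 - c ^ 2 - d ^ 2) + (c + d) * (1 - c * d) ≤ 4 := by
    linarith [mul_nonneg (add_nonneg hc0 hd0) (mul_nonneg hc0 hd0), sq_nonneg c, sq_nonneg d]
  have a2 : v * ((2 - c ^ 2 - d ^ 2) + (c + d) * (1 - c * d)) ≤ 16 / 5 * (p * H) := by
    have := mul_le_mul_of_nonneg_right hvh hk
    linarith [mul_le_mul_of_nonneg_right hk' hpH]
  have a3 := mul_nonneg (show 0 ≤ c ^ 2 + d ^ 2 by positivity) hpu
  have a4 := mul_nonneg (show 0 ≤ c ^ 2 + d ^ 2 by positivity) hpH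
  have a5 := mul_nonneg (add_nonneg hc0 hd0) hu.le
  have a6 := mul_nonneg (mul_nonneg (add_nonneg hc0 hd0) (show 0 ≤ 3 + c * d by positivity)) hpH
  have a7 := mul_nonneg (mul_nonneg hc0 hd0) hH
  have a8 : g * (c + d) * (1 - (c ^ 2 + d ^ 2) / 2) * H ≤ (c + d) * H := by
    have h1 : g * (1 - (c ^ 2 + d ^ 2) / 2) ≤ 1 := by
      linarith [mul_nonneg hg0 (show 0 ≤ c ^ 2 + d ^ 2 by positivity)]
    linarith [mul_le_mul_of_nonneg_left h1 (mul_nonneg (add_nonneg hc0 hd0) hH)]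
  have a9 := mul_nonneg (add_nonneg hc0 hd0) hH
  linarith

lemma Raw.slope_le' (h : Raw o) : slope o 1 ≤ 0 := by
  rw [slope_one]
  linarith [h.slope_le]

lemma Raw.good (h : Raw o) : GoodPt o := by
  obtain ⟨u, H, w, v, p, g, rfl⟩ := exists_ptW o
  obtain ⟨hg0, hg1, hp0, hp1, hu, hH, -, huw, hvh⟩ := h.facts
  have hpH : p * H ≤ H := mul_le_of_le_one_left hH hp1
  have hgH : g * H ≤ 1 / 2 * H := mul_le_mul_of_nonneg_right hg1 hH
  have hgH0 : 0 ≤ g * H := mul_nonneg hg0 hH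
  have hpu : p * u ≤ u := mul_le_of_le_one_left hu.le hp1
  have hpH0 : 0 ≤ p * H := mul_nonneg hp0 hH
  have hpu0 : 0 ≤ p * u := mul_nonneg hp0 hu.le
  have hs : 0 ≤ 2 + 2 * w - (4 - 6 * p) * u - (4 - 4 * p + 2 * g) * H := by
    simpa [ptW] using h.slope_le
  have hk0 : 0 ≤ k0 (ptW u H w v p g) := by
    simp only [k0, ptW]
    linarith
  have hk1 : 0 ≤ 3 * k0 (ptW u H w v p g) + k1 (ptW u H w v p g) := by
    simp only [k0, k1, ptW]
    linarith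
  refine ⟨?_, ?_, ?_, hk0, hk1, fun c hc => h.zero' hc, ?_, ?_,
    fun c hc d hd => ?_, fun c hc d hd => h.outward' hc hd⟩
  · rw [(ptW_sums u H w v p g).1]; exact hu
  · exact neg_nonpos.2 hH
  · simp only [ptW]
    linarith
  · rintro c ⟨hc0, hc1⟩
    rcases hc0.eq_or_lt with h0 | h0
    · subst h0
      simp only [diag]
      linarith
    have h1 := diag_tangent hk0 hk1 (t := 1) ⟨h0, hc1⟩ ⟨zero_lt_one, le_rfl⟩
    rw [diag_at_one, one_pow, div_one] at h1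
    have h2 := mul_nonneg (sq_nonneg c) h.top
    have h3 := mul_nonneg (sq_nonneg c)
      (mul_nonneg_of_nonpos_of_nonpos h.slope_le' (sub_nonpos.2 hc1))
    linarith
  · intro c hc
    have h1 := h.endc c hc
    rw [diag_at_one] at h1
    obtain ⟨hc0, hc1⟩ := hc
    have h2 := mul_nonneg hc0 h.top
    have h3 := mul_nonneg hc0 (mul_nonneg_of_nonpos_of_nonpos h.slope_le' (sub_nonpos.2 hc1))
    linarith
  · exact h.mixed' hc hd

/-! ## The bounds beyond the diameter -/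

open Out in
/-- The four constants and their bounds. -/
lemma const_bounds {e : ℝ} (he : e ∈ Ioo (0 : ℝ) 1) {XL B h₀ κ : ℝ}
    (hXL : XL = xN e / (36 * (1 + e) * dD e)) (hB : B = yN e / (36 * (1 + e) * dD e))
    (hh : h₀ = -bP e / (72 * dD e)) (hκ : κ = cP e / (144 * dD e)) :
    0 ≤ B ∧ -(3 * e / 25) ≤ XL ∧ 0 ≤ h₀ ∧ 0 ≤ h₀ - κ ∧ h₀ ≤ hbd e ∧ h₀ - κ ≤ hbd e ∧
      κ ≤ 4 / 5 * (1 + e) * (h₀ - κ) ∧
      0 ≤ 2 * (1 - e) + (1 - XL) * (2 * e - 1) + (2 * XL - B) * (1 + e) - 3 * (1 - e) * h₀ := by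
  have hc := Ioo_subset_Icc_self he
  have hD : 0 < dD e := by unfold dD; linarith [he.2]
  have h1 : 0 < 1 + e := by linarith [he.1]
  subst hXL hB hh hκ
  refine ⟨div_nonneg ?_ (by positivity), ?_, div_nonneg (h_pos hc) (by positivity), ?_, ?_, ?_, ?_, ?_⟩
  · have : 0 ≤ btP e := by unfold btP; nlinarith [he.1, he.2]
    unfold yN
    positivity
  · rw [le_div_iff₀ (by positivity), xN]
    linarith [mul_nonneg h1.le (xl_lo hc)]
  · rw [show -bP e / (72 * dD e) - cP e / (144 * dD e) = (-2 * bP e - cP e) / (144 * dD e) by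
      field_simp; ring]
    exact div_nonneg (hk_pos hc) (by positivity)
  · rw [div_le_iff₀ (by positivity)]
    linarith [hb_h hc]
  · rw [show -bP e / (72 * dD e) - cP e / (144 * dD e) = (-2 * bP e - cP e) / (144 * dD e) by
      field_simp; ring, div_le_iff₀ (by positivity)]
    linarith [hb_hk hc]
  · rw [show 4 / 5 * (1 + e) * (-bP e / (72 * dD e) - cP e / (144 * dD e)) =
      4 / 5 * (1 + e) * (-2 * bP e - cP e) / (144 * dD e) by field_simp; ring]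
    exact div_le_div_of_nonneg_right (by linarith [kap_hi hc]) (by positivity)
  · refine (div_nonneg (rim hc) (mul_pos (mul_pos (by norm_num : (0:ℝ) < 36) h1) hD).le).trans_eq ?_
    field_simp
    ring

open Out in
/-- The scaled bounds as polynomials in `e` and `s`. -/
lemma quad_bounds {e s : ℝ} (he : e ∈ Ioo (0 : ℝ) 1) (hs : s ∈ Icc (0 : ℝ) 1) {XL B X Y : ℝ}
    (hXL : XL = xN e / (36 * (1 + e) * dD e)) (hB : B = yN e / (36 * (1 + e) * dD e))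
    (hX : X = XL * (s ^ 2) ^ 2 + B * (s ^ 2 - (s ^ 2) ^ 2))
    (hY : Y = s ^ 2 * (2 * XL * s ^ 2 + B * (1 - 2 * s ^ 2))) :
    (20 + 29 * e) / 50 ≤ 1 - X ∧ (1 + e) * Y ≤ 1 - X ∧
      0 ≤ 4 * (1 + e) * Y + (1 - X) * (1 + e - 2 * (1 - e) * s) ∧
      0 ≤ (3 * e - 1) / 2 * (1 + s ^ 2) + (B * (1 + e - (3 * e - 1) / 2) - (1 - e) / 2) * s ^ 2 +
        (B - XL) * (1 - e) / 2 * (s ^ 2) ^ 2 + 2 * (1 - e) * (1 + s ^ 2) -
        (1 - e) * hbd e * ((7 + 4 * (1 - e) + 4 * s ^ 2) / 2) - (1 - e) * (1 - X) ∧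
      0 ≤ (3 * e - 1) / 2 * (1 + s ^ 2) + (B * (1 + e - (3 * e - 1) / 2) - (1 - e) / 2) * s ^ 2 +
        (B - XL) * (1 - e) / 2 * (s ^ 2) ^ 2 + 2 * (1 - e) * (1 + s ^ 2) -
        (1 - e) * hbd e * ((7 + 4 * (1 - e) + 4 * s ^ 2) / 2) - (1 - e) * (1 - X) -
        2 * (1 - e) * Y := by
  have hc := Ioo_subset_Icc_self he
  have hS : s ^ 2 ∈ Icc (0 : ℝ) 1 := ⟨sq_nonneg s, pow_le_one₀ hs.1 hs.2⟩
  have hD : 0 < dD e := by unfold dD; linarith [he.2]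
  have h1 : 0 < 1 + e := by linarith [he.1]
  have hd : (0 : ℝ) ≤ 36 * (1 + e) * dD e := by positivity
  have e1 : 1 - X = omN e (s ^ 2) / (36 * (1 + e) * dD e) := by
    rw [hX, hXL, hB, omN, kN]; field_simp; ring
  have e2 : Y = sxN e (s ^ 2) / (36 * (1 + e) * dD e) := by
    rw [hY, hXL, hB, sxN, kN]; field_simp; ring
  refine ⟨?_, ?_, ?_, ?_, ?_⟩
  · have := div_nonneg (om_lo hc hS) hd
    rw [sub_div, mul_div_cancel_left₀ _ (by positivity), ← e1] at this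
    linarith
  · rw [e1, e2, ← mul_div_assoc]
    exact div_le_div_of_nonneg_right (by linarith [w_hi hc hS]) hd
  · rw [e1, e2]
    refine (div_nonneg (w_lo hc hs) hd).trans_eq ?_
    simp only [omS, sxS, omN, sxN]
    field_simp
  · rw [e1, hXL, hB]
    refine (div_nonneg (g1_pos hc hS) hd).trans_eq ?_
    simp only [g1N, kN]
    field_simp
    ring
  · rw [e1, e2, hXL, hB]
    refine (div_nonneg (g2_pos hc hS) hd).trans_eq ?_
    simp only [g2N, g1N, kN]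
    field_simp
    ring

/-- The slope at cosine one, reversed and times `1 - e`, in the scaled data. -/
def rimF (d p s X Y o h : ℝ) : ℝ :=
  2 * d + (1 - X) * (p / o - d) + 2 * (p * Y / o - (1 - X) * d * s ^ 2 / (4 * o ^ 2)) -
    d * h * (2 * o + s)

/-- Beyond the diameter the slope dominates its rescaled value at the diameter. -/
lemma rimF_compare {d pl p s z o X Y XL B h h₀ κ hb : ℝ} (hd : 0 ≤ d) (hd1 : d ≤ 1)
    (hpl : pl = 1 - d / 2) (hp : p = pl - d ^ 2 * z / 2) (ho : o = 1 + d * z) (hs : s ∈ Icc (0 : ℝ) 1)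
    (hz : z ∈ Icc 0 (1 - s ^ 2)) (hh : h = h₀ - κ * z) (hh0 : 0 ≤ h₀) (hb0 : h₀ ≤ hb)
    (hbk : h₀ - κ ≤ hb) (hX : X = XL * (s ^ 2) ^ 2 + B * (s ^ 2 - (s ^ 2) ^ 2))
    (hY : Y = s ^ 2 * (2 * XL * s ^ 2 + B * (1 - 2 * s ^ 2))) (hX1 : 0 ≤ 1 - X)
    (hA : 0 ≤ (pl - d) * (1 + s ^ 2) + (B * (2 * pl - (pl - d)) - d / 2) * s ^ 2 +
        (B - XL) * d / 2 * (s ^ 2) ^ 2 + 2 * d * (1 + s ^ 2) -
        d * hb * ((7 + 4 * d + 4 * s ^ 2) / 2) - d * (1 - X))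
    (hA' : 0 ≤ (pl - d) * (1 + s ^ 2) + (B * (2 * pl - (pl - d)) - d / 2) * s ^ 2 +
        (B - XL) * d / 2 * (s ^ 2) ^ 2 + 2 * d * (1 + s ^ 2) -
        d * hb * ((7 + 4 * d + 4 * s ^ 2) / 2) - d * (1 - X) - 2 * d * Y) :
    (s ^ 2) ^ 2 * rimF d pl 1 XL (2 * XL - B) 1 h₀ ≤ rimF d p s X Y o h := by
  obtain ⟨hs0, hs1⟩ := hs
  obtain ⟨hz0, hz1⟩ := hz
  obtain ⟨S, hS⟩ : ∃ S, S = s ^ 2 := ⟨_, rfl⟩
  rw [← hS] at hz1 hA hA' hX hY ⊢
  have hS0 : 0 ≤ S := hS ▸ sq_nonneg s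
  have hS1 : 0 ≤ 1 - S := hz0.trans hz1
  have hdz : 0 ≤ d * z := mul_nonneg hd hz0
  have ho1 : 1 ≤ o := by linarith
  have ho0 : 0 < o := by linarith
  have hz1' : z ≤ 1 := by linarith
  have c1 : pl - d * z ≤ p / o := by
    rw [le_div_iff₀ ho0, hp, ho, hpl]
    nlinarith [sq_nonneg (d * z)]
  have c2 : p / o ≤ pl := by
    rw [div_le_iff₀ ho0, hp]
    nlinarith [mul_nonneg (sq_nonneg d) hz0, mul_le_mul_of_nonneg_left ho1 (show 0 ≤ pl by linarith)]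
  have hdzS : d * z ≤ d * (1 - S) := mul_le_mul_of_nonneg_left hz1 hd
  obtain ⟨G, hG⟩ : ∃ G, G = (pl - d) * (1 + S) + (B * (2 * pl - (pl - d)) - d / 2) * S +
        (B - XL) * d / 2 * S ^ 2 := ⟨_, rfl⟩
  rw [← hG] at hA hA'
  have eF : (1 - X) * (pl - d - d * S / 2) + 2 * Y * pl -
      S ^ 2 * ((1 - XL) * (pl - d - d / 2) + 2 * (2 * XL - B) * pl) = (1 - S) * G := by
    rw [hG, hX, hY]; ring
  have hw : (1 - X) * d * s ^ 2 / (4 * o ^ 2) ≤ (1 - X) * d * S / 4 := by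
    rw [← hS]
    exact div_le_div_of_nonneg_left (by positivity) (by norm_num) (by nlinarith)
  have hm : (1 - X) * (pl - d) - (1 - X) * (d * (1 - S)) ≤ (1 - X) * (p / o - d) := by
    have := mul_le_mul_of_nonneg_left c1 hX1
    linarith [mul_le_mul_of_nonneg_left hdzS hX1]
  have hH : d * h * (2 * o + s) - S ^ 2 * (3 * d * h₀) ≤
      (1 - S) * (d * hb * ((7 + 4 * d + 4 * S) / 2)) := by
    obtain ⟨K, hK⟩ : ∃ K, K = (7 + 4 * d + 4 * S) / 2 := ⟨_, rfl⟩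
    rw [← hK]
    have hlin : (2 * o + s) - 3 * S ^ 2 ≤ (1 - S) * K := by
      have h1 : s - S ^ 2 ≤ 3 / 2 * (1 - S) := by
        rw [hS]
        have h2 : s ^ 2 ≤ 1 := pow_le_one₀ hs0 hs1
        have h3 : s ^ 3 ≤ s := pow_le_of_le_one hs0 hs1 (by norm_num)
        linarith [mul_nonneg (sub_nonneg.2 hs1)
          (show 0 ≤ 3 / 2 * (1 + s) - s - s ^ 2 - s ^ 3 by linarith)]
      rw [hK, ho]
      linarith [hdzS, mul_nonneg hS1 hS0]
    have hoK : 2 * o + s ≤ K := by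
      rw [hK, ho]
      linarith [hdzS, mul_nonneg hd hS0]
    have hK0 : 0 ≤ K := by linarith
    obtain ⟨m, hm⟩ : ∃ m, m = max 0 (-κ) := ⟨_, rfl⟩
    have hm0 : 0 ≤ m := hm ▸ le_max_left _ _
    have hm1 : -κ ≤ m := hm ▸ le_max_right _ _
    have hm2 : h₀ + m ≤ hb := by
      rcases max_cases 0 (-κ) with ⟨h, -⟩ | ⟨h, -⟩ <;> rw [hm, h] <;> linarith
    have h2 : -κ * z * (2 * o + s) ≤ m * ((1 - S) * K) :=
      (mul_le_mul_of_nonneg_right (mul_le_mul_of_nonneg_right hm1 hz0) (by linarith)).trans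
        ((mul_assoc m z _).trans_le (mul_le_mul_of_nonneg_left
          (mul_le_mul hz1 hoK (by linarith) hS1) hm0))
    have h3 := mul_le_mul_of_nonneg_left hlin hh0
    have h4 := mul_le_mul_of_nonneg_left hm2 (mul_nonneg hS1 hK0)
    have h5 : h * (2 * o + s) - S ^ 2 * (3 * h₀) ≤ (1 - S) * (hb * K) := by
      rw [hh]; linarith
    linarith [mul_le_mul_of_nonneg_left h5 hd]
  simp only [rimF, one_pow, mul_one, div_one]
  rcases le_total 0 Y with hY0 | hY0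
  · have h1 : Y * pl - Y * (d * (1 - S)) ≤ p * Y / o := by
      have := mul_le_mul_of_nonneg_left c1 hY0
      rw [show p * Y / o = Y * (p / o) by ring]
      linarith [mul_le_mul_of_nonneg_left hdzS hY0]
    linarith [mul_nonneg hS1 hA']
  · have h1 : Y * pl ≤ p * Y / o := by
      rw [show p * Y / o = Y * (p / o) by ring]
      exact mul_le_mul_of_nonpos_left c2 hY0
    linarith [mul_nonneg hS1 hA]

/-- The scaled data of a point beyond the diameter. -/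
lemma out_scaled {e p g d s z o : ℝ} (he : e ∈ Ioo (0 : ℝ) 1) (hr : OutRange e p g)
    (hd : d = 1 - e) (hs : s = 2 * g / d) (hz : z = (1 + e - 2 * p) / d ^ 2) (ho : o = 1 + d * z)
    {XL B X Y h : ℝ} (hXL : XL = Out.xN e / (36 * (1 + e) * Out.dD e))
    (hB : B = Out.yN e / (36 * (1 + e) * Out.dD e))
    (hX : X = XL * (s ^ 2) ^ 2 + B * (s ^ 2 - (s ^ 2) ^ 2))
    (hY : Y = s ^ 2 * (2 * XL * s ^ 2 + B * (1 - 2 * s ^ 2)))
    (hh : h = -Out.bP e / (72 * Out.dD e) - Out.cP e / (144 * Out.dD e) * z) :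
    (ptOut e p g).U + (ptOut e p g).G = (1 - X) / (2 * o) / d ∧ (ptOut e p g).G = -h / d ∧
      (ptOut e p g).U' + (ptOut e p g).G' =
        (p * Y / o - (1 - X) * d * s ^ 2 / (4 * o ^ 2)) / d ∧
      (ptOut e p g).G' = Out.cP e / (144 * Out.dD e) * s ^ 2 / 2 / d ∧
      sigF e p = s ^ 2 := by
  obtain ⟨-, hg2, -, hp1⟩ := hr
  have hd0 : 0 < d := by rw [hd]; linarith [he.2]
  have h1e : 1 - e ≠ 0 := hd ▸ hd0.ne'
  have hD : (29 : ℝ) - 21 * e ≠ 0 := by linarith [he.2]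
  have hD' : (29 : ℝ) - e * 21 ≠ 0 := by linarith [he.2]
  have h1 : (1 : ℝ) + e ≠ 0 := by linarith [he.1]
  have hσ : sigF e p = s ^ 2 := by
    rw [sigF, ← hg2, hs, hd]; field_simp
  have hsg : p ^ 2 - e = d ^ 2 * s ^ 2 / 4 := by
    rw [← hg2, hs]; field_simp; ring
  have hp : 1 - p = d * o / 2 := by rw [ho, hz, hd]; field_simp; ring
  have hzp : (1 + e) / 2 - p = d ^ 2 * z / 2 := by rw [hz]; field_simp
  have ho0 : o ≠ 0 := by
    intro h
    rw [h, mul_zero, zero_div] at hp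
    linarith [he.2]
  have hXF : XF e p = X := by
    rw [XF, hσ, hX, hXL, hB]
    simp only [PF, betaHat, den, numA, Out.xN, Out.yN, Out.aP, Out.btP, Out.dD]
    field_simp
    ring
  have hXF' : XF' e p * s ^ 2 = Y := by
    rw [XF', hσ, hY, hXL, hB]
    simp only [PF, betaHat, den, numA, Out.xN, Out.yN, Out.aP, Out.btP, Out.dD]
    field_simp
    ring
  have hQ : QF e 1 = Out.bP e / (72 * Out.dD e) / d := by
    simp only [QF, numB, den, Out.bP, Out.dD, hd]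
    field_simp
    ring
  have hC : gCoef e = 2 * (Out.cP e / (144 * Out.dD e)) / d ^ 3 := by
    simp only [gCoef, ptIn, QF', numB, numB', den, yf, Out.cP, Out.dD, hd]
    field_simp
    ring
  have hG : (ptOut e p g).G = -h / d := by
    simp only [ptOut, GOut, hQ, hC, hzp, hh]
    field_simp
    ring
  refine ⟨?_, hG, ?_, ?_, hσ⟩
  · simp only [ptOut, hXF, hp]
    field_simp
    ring
  · rw [← hXF']
    simp only [ptOut, hXF, hσ, hp, hsg]
    field_simp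
    ring
  · simp only [ptOut, hC, hsg]
    field_simp
    ring

/-- The variables of a point beyond the diameter and what bounds them. -/
structure Vars (e p g d s z o : ℝ) : Prop where
  he0 : 0 < e
  he1 : e < 1
  hp0 : 0 < p
  hp1 : p ≤ (1 + e) / 2
  hd : d = 1 - e
  hd0 : 0 < d
  hd1 : d ≤ 1
  hg : g = d * s / 2
  hs : s = 2 * g / d
  hs0 : 0 < s
  hs1 : s ≤ 1
  hz : z = (1 + e - 2 * p) / d ^ 2
  hz0 : 0 ≤ z
  hz1 : z ≤ 1 - s ^ 2
  ho : o = 1 + d * z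
  hop : 1 - p = d * o / 2
  hzp : 2 * p = 1 + e - d ^ 2 * z
  hps : s * ((1 + e) / 2) ≤ p

lemma exists_vars {e p g : ℝ} (he : e ∈ Ioo (0 : ℝ) 1) (hr : OutRange e p g) :
    ∃ d s z o, Vars e p g d s z o := by
  obtain ⟨he0, he1⟩ := he
  obtain ⟨hg0, hg2, hp0, hp1⟩ := hr
  obtain ⟨d, hd⟩ : ∃ d, d = 1 - e := ⟨_, rfl⟩
  obtain ⟨s, hs⟩ : ∃ s, s = 2 * g / d := ⟨_, rfl⟩
  obtain ⟨z, hz⟩ : ∃ z, z = (1 + e - 2 * p) / d ^ 2 := ⟨_, rfl⟩
  obtain ⟨o, ho⟩ : ∃ o, o = 1 + d * z := ⟨_, rfl⟩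
  have hd0 : 0 < d := by linarith
  have hg : g = d * s / 2 := by rw [hs]; field_simp
  have hs0 : 0 < s := hs ▸ div_pos (by linarith) hd0
  have hp2 : p ^ 2 - e = d ^ 2 * s ^ 2 / 4 := by rw [← hg2, hg]; ring
  have hzp : 2 * p = 1 + e - d ^ 2 * z := by rw [hz]; field_simp; ring
  have hgle : g ≤ d / 2 := by nlinarith [mul_le_mul hp1 hp1 hp0.le (by linarith)]
  have hs1 : s ≤ 1 := by rw [hs, div_le_one hd0]; linarith
  have hS1 : s ^ 2 ≤ 1 := pow_le_one₀ hs0.le hs1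
  have hz1 : z ≤ 1 - s ^ 2 := by
    have h : ((1 + e) / 2 - p) * ((1 + e) / 2 + p) = (1 - s ^ 2) * d ^ 2 / 4 := by
      linear_combination (-1 : ℝ) * hp2 + (-(d + 1 - e) / 4) * hd
    have h2 : ((1 + e) / 2 - p) * (1 / 2) ≤ ((1 + e) / 2 - p) * ((1 + e) / 2 + p) :=
      mul_le_mul_of_nonneg_left (by linarith) (by linarith)
    rw [hz, div_le_iff₀ (pow_pos hd0 2)]
    linarith
  refine ⟨d, s, z, o, he0, he1, hp0, hp1, hd, hd0, by linarith, hg, hs, hs0, hs1, hz,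
    hz ▸ div_nonneg (by linarith) (sq_nonneg d), hz1, ho, ?_, hzp, ?_⟩
  · rw [ho]
    linear_combination (-1 / 2 : ℝ) * hzp - (1 / 2 : ℝ) * hd
  · refine pow_le_pow_iff_left₀ (by positivity) hp0.le two_ne_zero |>.1 ?_
    rw [hd] at hp2
    nlinarith [mul_nonneg he0.le (sub_nonneg.2 hS1)]

lemma Vars.one_le {e p g d s z o : ℝ} (v : Vars e p g d s z o) : 1 ≤ o := by
  linarith [v.ho, mul_nonneg v.hd0.le v.hz0]

lemma Vars.le_lin {e p g d s z o : ℝ} (v : Vars e p g d s z o) : o ≤ 1 + d * (1 - s ^ 2) := by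
  linarith [v.ho, mul_le_mul_of_nonneg_left v.hz1 v.hd0.le]

lemma Vars.le_two {e p g d s z o : ℝ} (v : Vars e p g d s z o) : o ≤ 2 - e := by
  linarith [v.le_lin, v.hd, mul_nonneg v.hd0.le (sq_nonneg s)]

section

variable {e p g d s z o X Y u w h XL B h₀ κ : ℝ}

lemma w_le_of (v : Vars e p g d s z o) (hu : u = (1 - X) / (2 * o))
    (hw : w = p * Y / o - (1 - X) * d * s ^ 2 / (4 * o ^ 2)) (hX : 0 ≤ 1 - X)
    (hYhi : (1 + e) * Y ≤ 1 - X) : w ≤ u := by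
  have ho := v.one_le
  have hd := v.hd0
  have hY : p * Y ≤ (1 - X) / 2 := by
    rcases le_total Y 0 with hy | hy
    · linarith [mul_nonpos_of_nonneg_of_nonpos v.hp0.le hy]
    · linarith [mul_le_mul_of_nonneg_right v.hp1 hy]
  rw [hw, hu, show (1 - X) / (2 * o) = ((1 - X) / 2) / o by field_simp]
  have : 0 ≤ (1 - X) * d * s ^ 2 / (4 * o ^ 2) := by positivity
  linarith [div_le_div_of_nonneg_right hY (show (0 : ℝ) ≤ o by linarith)]

lemma le_w_of (v : Vars e p g d s z o) (hu : u = (1 - X) / (2 * o))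
    (hw : w = p * Y / o - (1 - X) * d * s ^ 2 / (4 * o ^ 2)) (hX : 0 ≤ 1 - X)
    (hYlo : 0 ≤ 4 * (1 + e) * Y + (1 - X) * (1 + e - 2 * (1 - e) * s)) : -(p * u / 2) ≤ w := by
  have ho := v.one_le
  have hd := v.hd0
  have hp := v.hp0
  have hs := v.hs0
  have he : 0 < 1 + e := by linarith [v.he0]
  have hds : d * s ^ 2 / p ≤ 2 * d * s / (1 + e) := by
    rw [div_le_div_iff₀ hp he]
    linarith [mul_le_mul_of_nonneg_left v.hps (mul_nonneg hd.le hs.le)]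
  have hb : 0 ≤ 4 * Y + (1 - X) * (1 - 2 * d * s / (1 + e)) := by
    refine nonneg_of_mul_nonneg_right (a := 1 + e) ?_ he
    rw [v.hd]
    field_simp
    linarith
  have h2 : 0 ≤ (o - 1) * (4 * Y + (1 - X)) := by
    refine mul_nonneg (by linarith) ?_
    linarith [mul_nonneg hX (show 0 ≤ 2 * d * s / (1 + e) by positivity)]
  have hb2 : 0 ≤ o * (4 * Y + (1 - X)) - (1 - X) * (d * s ^ 2 / p) := by
    linarith [mul_le_mul_of_nonneg_left hds hX]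
  have e0 : w + p * u / 2 =
      p / (4 * o ^ 2) * (o * (4 * Y + (1 - X)) - (1 - X) * (d * s ^ 2 / p)) := by
    rw [hw, hu]
    field_simp
    ring
  linarith [mul_nonneg (show 0 ≤ p / (4 * o ^ 2) by positivity) hb2]

lemma h_bounds (v : Vars e p g d s z o) (hh : h = h₀ - κ * z) (h0 : 0 ≤ h₀) (hk : 0 ≤ h₀ - κ)
    (hb0 : h₀ ≤ Out.hbd e) (hbk : h₀ - κ ≤ Out.hbd e) (hkap : κ ≤ 4 / 5 * (1 + e) * (h₀ - κ)) :
    0 ≤ h ∧ h ≤ Out.hbd e ∧ κ * s ^ 2 / 2 ≤ 4 / 5 * (p * h) := by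
  have hz := v.hz0
  have hz1 : z ≤ 1 := by linarith [v.hz1, sq_nonneg s]
  have hs := v.hs0
  have hp := v.hp0
  have hh2 : 0 ≤ h := by
    rw [hh]
    linarith [mul_nonneg (sub_nonneg.2 hz1) h0, mul_nonneg hz hk]
  refine ⟨hh2, ?_, ?_⟩
  · rw [hh]
    linarith [mul_le_mul_of_nonneg_left hb0 (sub_nonneg.2 hz1), mul_le_mul_of_nonneg_left hbk hz]
  rcases le_total κ 0 with hk' | hk'
  · linarith [mul_nonpos_of_nonpos_of_nonneg hk' (sq_nonneg s), mul_nonneg hp.le hh2]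
  · have hh4 : h₀ - κ ≤ h := by linarith [mul_le_of_le_one_right hk' hz1]
    have h1 : κ * s ^ 2 ≤ κ * s :=
      mul_le_mul_of_nonneg_left (pow_le_of_le_one hs.le v.hs1 two_ne_zero) hk'
    have h2 := mul_le_mul_of_nonneg_right hkap hs.le
    have h3 := mul_le_mul v.hps hh4 hk hp.le
    linarith

lemma rimF_eq (v : Vars e p g d s z o) (hu : u = (1 - X) / (2 * o))
    (hw : w = p * Y / o - (1 - X) * d * s ^ 2 / (4 * o ^ 2)) :
    rimF d p s X Y o h = 2 * d + 2 * w - (4 - 6 * p) * u - (4 - 4 * p + 2 * g) * h := by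
  have ho := v.one_le
  rw [show (4 : ℝ) - 6 * p = 2 * d * o - 2 * p by linarith [v.hop], show (4 : ℝ) - 4 * p + 2 * g =
    2 * d * o + d * s by linarith [v.hop, v.hg], rimF, hw, hu]
  field_simp
  ring

lemma mid_of (v : Vars e p g d s z o) (hu : u = (1 - X) / (2 * o))
    (hXc : (20 + 29 * e) / 50 ≤ 1 - X) (hX3 : 1 - X ≤ 1 + 3 * e / 25) (hh2 : 0 ≤ h)
    (hh3 : h ≤ Out.hbd e)
    (hC : 0 ≤ 2 * d + 2 * w - (4 - 6 * p) * u - (4 - 4 * p + 2 * g) * h) :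
    0 ≤ 2 * d + w + (7 * p - 4) * u - (4 - 4 * p + g) * h := by
  have he := v.he0
  have he1 := v.he1
  have ho1 := v.one_le
  have ho3 := v.le_two
  have hd0 := v.hd0
  have hz0 := v.hz0
  have hm := Out.mid (e := e) ⟨he.le, he1.le⟩
  have h1 : o * h ≤ (2 - e) * Out.hbd e := mul_le_mul ho3 hh3 hh2 (by linarith)
  have h2 : z * u ≤ (1 + 3 * e / 25) / (2 * (2 - e)) := by
    rw [hu, ← mul_div_assoc, div_le_div_iff₀ (by linarith) (by linarith)]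
    have hzo : z * (2 - e) ≤ o := by
      rw [v.ho, v.hd]
      linarith [v.hz1, sq_nonneg s]
    linarith [mul_le_mul_of_nonneg_right hX3 (mul_nonneg hz0 (show 0 ≤ 2 - e by linarith)),
      mul_le_mul_of_nonneg_left hzo (show 0 ≤ 1 + 3 * e / 25 by linarith)]
  have hu_lo : (20 + 29 * e) / 50 / (2 * (2 - e)) ≤ u := by
    rw [hu]
    exact div_le_div₀ (by linarith) hXc (by linarith) (by linarith)
  have h3 := mul_le_mul_of_nonneg_left h1 hd0.le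
  have h4 := mul_le_mul_of_nonneg_left h2 (sq_nonneg d)
  have h5 := mul_le_mul_of_nonneg_left hu_lo he.le
  have h6 : 0 ≤ d * (1 - (2 - e) * Out.hbd e) + 2 * (e * ((20 + 29 * e) / 50 / (2 * (2 - e)))) -
      2 * (d ^ 2 * ((1 + 3 * e / 25) / (2 * (2 - e)))) := by
    refine (div_nonneg hm (show (0 : ℝ) ≤ 2 - e by linarith)).trans_eq ?_
    have : (2 : ℝ) - e ≠ 0 := by linarith
    rw [v.hd]
    field_simp
  have e7 : 2 * d + w + (7 * p - 4) * u - (4 - 4 * p + g) * h =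
      (2 * d + 2 * w - (4 - 6 * p) * u - (4 - 4 * p + 2 * g) * h) / 2 + d * (1 - o * h) +
        2 * (e * u) - 2 * (d ^ 2 * (z * u)) := by
    linear_combination (2 * u + h) * v.hzp + d * h * v.ho + h * v.hd
  linarith

lemma cross_of (v : Vars e p g d s z o) (hu : u = (1 - X) / (2 * o))
    (hXc : (20 + 29 * e) / 50 ≤ 1 - X) (hh2 : 0 ≤ h) (hh3 : h ≤ Out.hbd e) :
    (4 * (1 - p) + 3 * g) * h ≤ (3 - 2 * g) * u := by
  have hd0 := v.hd0
  have ho1 := v.one_le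
  have hs0 := v.hs0
  have hp := Out.slope_gain (e := e) (s := s) ⟨v.he0.le, v.he1.le⟩ ⟨hs0.le, v.hs1⟩
  rw [← v.hd] at hp
  have hb : 0 ≤ Out.hbd e := hh2.trans hh3
  have h0 : 0 ≤ 1 + d * (1 - s ^ 2) := by linarith [v.le_lin]
  have h1 : 2 * o * d * h * (2 * o + 3 * s / 2) ≤ 2 * (1 + d * (1 - s ^ 2)) * d * Out.hbd e *
      (2 * (1 + d * (1 - s ^ 2)) + 3 * s / 2) := by
    have := v.le_lin
    gcongr
  have hds : d * s ≤ 1 := mul_le_one₀ v.hd1 hs0.le v.hs1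
  have h2 := mul_le_mul_of_nonneg_left hXc (show 0 ≤ 3 - d * s by linarith)
  rw [show (4 : ℝ) * (1 - p) + 3 * g = d * (2 * o + 3 * s / 2) by rw [v.hop, v.hg]; ring,
    show (3 : ℝ) - 2 * g = 3 - d * s by rw [v.hg]; ring, hu, mul_div_assoc',
    le_div_iff₀ (by linarith)]
  linarith

lemma top_of (v : Vars e p g d s z o) (hu : u = (1 - X) / (2 * o))
    (hXc : (20 + 29 * e) / 50 ≤ 1 - X) (hX2 : -(3 * e / 25) * (s ^ 2) ^ 2 ≤ X) :
    0 ≤ X + s * u / 2 := by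
  have he := v.he0
  have hs0 := v.hs0
  have h1 : (20 + 29 * e) / 50 / 4 ≤ u := by
    rw [hu]
    exact div_le_div₀ (by linarith) hXc (by linarith [v.one_le]) (by linarith [v.le_two])
  have h2 := mul_le_mul_of_nonneg_left h1 hs0.le
  have h3 : (s ^ 2) ^ 2 ≤ s := by
    rw [← pow_mul]
    exact pow_le_of_le_one hs0.le v.hs1 (by norm_num)
  have h4 := mul_le_mul_of_nonneg_left h3 (show 0 ≤ 3 * e / 25 by linarith)
  have h5 := mul_nonneg hs0.le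
    (show 0 ≤ (20 + 29 * e) / 50 / 8 - 3 * e / 25 by linarith [v.he1])
  linarith

lemma raw_div {Q : Pt} (v : Vars e p g d s z o) (eu : Q.U + Q.G = u / d) (eG : Q.G = -h / d)
    (ew : Q.U' + Q.G' = w / d) (eG' : Q.G' = κ * s ^ 2 / 2 / d) (eQp : Q.p = p) (eQg : Q.g = g)
    (hu : u = (1 - X) / (2 * o)) (hu0 : 0 < u) (hh2 : 0 ≤ h) (hwu : w ≤ u)
    (huw : -(p * u / 2) ≤ w) (hv : κ * s ^ 2 / 2 ≤ 4 / 5 * (p * h))
    (hC : 0 ≤ 2 * d + 2 * w - (4 - 6 * p) * u - (4 - 4 * p + 2 * g) * h)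
    (hmid : 0 ≤ 2 * d + w + (7 * p - 4) * u - (4 - 4 * p + g) * h)
    (hcross : (4 * (1 - p) + 3 * g) * h ≤ (3 - 2 * g) * u) (htop : 0 ≤ X + s * u / 2) :
    Raw Q := by
  have hd0 := v.hd0
  have ho := v.one_le
  have eH : -Q.G = h / d := by rw [eG]; ring
  refine ⟨?_, ?_, ?_, ?_, ?_, ?_, ?_, ?_, ?_, ?_, ?_, ?_, ?_⟩
  · rw [eQg, v.hg]; exact (div_pos (mul_pos hd0 v.hs0) two_pos).le
  · rw [eQg, v.hg]
    linarith [mul_le_one₀ v.hd1 v.hs0.le v.hs1]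
  · rw [eQp]; exact v.hp0.le
  · rw [eQp]; linarith [v.hp1, v.he1]
  · rw [eu]; exact div_pos hu0 hd0
  · rw [eG]; exact div_nonpos_of_nonpos_of_nonneg (neg_nonpos.2 hh2) hd0.le
  · rw [eu, ew]; exact div_le_div_of_nonneg_right hwu hd0.le
  · rw [eu, ew, eQp]
    exact le_of_eq_of_le (by ring) (div_le_div_of_nonneg_right huw hd0.le)
  · rw [eH, eG', eQp]
    exact (div_le_div_of_nonneg_right hv hd0.le).trans_eq (by ring)
  · rw [ew, eu, eH, eQp, eQg]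
    exact (div_nonneg hC hd0.le).trans_eq (by field_simp)
  · rw [ew, eu, eH, eQp, eQg]
    exact (div_nonneg hmid hd0.le).trans_eq (by field_simp)
  · rw [eu, eH, eQp, eQg]
    exact le_of_eq_of_le (by ring) ((div_le_div_of_nonneg_right hcross hd0.le).trans_eq (by ring))
  · rw [eu, eQp, eQg]
    refine htop.trans_eq ?_
    rw [v.hop, v.hg, hu]
    field_simp
    ring

end

open Out in
/-- The bounds, and the slope against the one at the diameter. -/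
theorem out_raw {e p g : ℝ} (he : e ∈ Ioo (0 : ℝ) 1) (hr : OutRange e p g) :
    Raw (ptOut e p g) ∧ slope (ptOut e p g) 1 ≤ sigF e p ^ 2 * slope (ptIn e 1) 1 := by
  obtain ⟨d, s, z, o, v⟩ := exists_vars he hr
  obtain ⟨XL, hXL⟩ : ∃ x, x = xN e / (36 * (1 + e) * dD e) := ⟨_, rfl⟩
  obtain ⟨B, hB⟩ : ∃ x, x = yN e / (36 * (1 + e) * dD e) := ⟨_, rfl⟩
  obtain ⟨h₀, hh0⟩ : ∃ x, x = -bP e / (72 * dD e) := ⟨_, rfl⟩
  obtain ⟨κ, hκ⟩ : ∃ x, x = cP e / (144 * dD e) := ⟨_, rfl⟩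
  obtain ⟨X, hX⟩ : ∃ x, x = XL * (s ^ 2) ^ 2 + B * (s ^ 2 - (s ^ 2) ^ 2) := ⟨_, rfl⟩
  obtain ⟨Y, hY⟩ : ∃ x, x = s ^ 2 * (2 * XL * s ^ 2 + B * (1 - 2 * s ^ 2)) := ⟨_, rfl⟩
  obtain ⟨h, hh⟩ : ∃ x, x = h₀ - κ * z := ⟨_, rfl⟩
  obtain ⟨hB0, hXl, hh00, hhk, hb0, hbk, hkap, hrim⟩ := const_bounds he hXL hB hh0 hκ
  obtain ⟨hXc, hYhi, hYlo, hA, hA'⟩ := quad_bounds he ⟨v.hs0.le, v.hs1⟩ hXL hB hX hY
  obtain ⟨eu, eG, ew, eG', hσ⟩ := out_scaled he hr v.hd v.hs v.hz v.ho hXL hB hX hY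
    (show h = -bP e / (72 * dD e) - cP e / (144 * dD e) * z by rw [hh, hh0, hκ])
  obtain ⟨u, hu⟩ : ∃ u, u = (1 - X) / (2 * o) := ⟨_, rfl⟩
  obtain ⟨w, hw⟩ : ∃ w, w = p * Y / o - (1 - X) * d * s ^ 2 / (4 * o ^ 2) := ⟨_, rfl⟩
  rw [← hu] at eu
  rw [← hw] at ew
  rw [← hκ] at eG'
  have hX0 : 0 < 1 - X := lt_of_lt_of_le (by linarith [he.1]) hXc
  have hS1 : s ^ 2 ≤ 1 := pow_le_one₀ v.hs0.le v.hs1
  have hX2 : -(3 * e / 25) * (s ^ 2) ^ 2 ≤ X := by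
    rw [hX]
    linarith [mul_le_mul_of_nonneg_right hXl (sq_nonneg (s ^ 2)),
      mul_nonneg hB0 (mul_nonneg (sq_nonneg s) (sub_nonneg.2 hS1))]
  have hX3 : 1 - X ≤ 1 + 3 * e / 25 := by
    linarith [mul_le_mul_of_nonneg_left (pow_le_one₀ (n := 2) (sq_nonneg s) hS1)
      (show 0 ≤ 3 * e / 25 by linarith [he.1])]
  obtain ⟨hh2, hh3, hv⟩ := h_bounds v hh hh00 hhk hb0 hbk hkap
  have hrimF : (s ^ 2) ^ 2 * rimF d ((1 + e) / 2) 1 XL (2 * XL - B) 1 h₀ ≤ rimF d p s X Y o h := by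
    have e3 : (3 * e - 1) / 2 = (1 + e) / 2 - d := by rw [v.hd]; ring
    rw [e3, ← v.hd, show 1 + e - ((1 + e) / 2 - d) = 2 * ((1 + e) / 2) - ((1 + e) / 2 - d) by ring]
      at hA hA'
    exact rimF_compare v.hd0.le v.hd1 (by rw [v.hd]; ring) (by linarith [v.hzp]) v.ho
      ⟨v.hs0.le, v.hs1⟩ ⟨v.hz0, v.hz1⟩ hh hh00 hb0 hbk hX hY hX0.le hA hA'
  have hrim0 : 0 ≤ rimF d ((1 + e) / 2) 1 XL (2 * XL - B) 1 h₀ := by
    simp only [rimF, one_pow, mul_one, div_one]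
    rw [v.hd]
    linarith
  have hC : 0 ≤ 2 * d + 2 * w - (4 - 6 * p) * u - (4 - 4 * p + 2 * g) * h :=
    rimF_eq (h := h) v hu hw ▸ (mul_nonneg (sq_nonneg _) hrim0).trans hrimF
  have hu0 : 0 < u := hu ▸ div_pos hX0 (by linarith [v.one_le])
  refine ⟨raw_div v eu eG ew eG' rfl rfl hu hu0 hh2 (w_le_of v hu hw hX0.le hYhi)
    (le_w_of v hu hw hX0.le hYlo) hv hC (mid_of v hu hXc hX3 hh2 hh3 hC)
    (cross_of v hu hXc hh2 hh3) (top_of v hu hXc hX2), ?_⟩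
  have hd0 := v.hd0
  have hr1 : OutRange e ((1 + e) / 2) (d / 2) :=
    ⟨by linarith, by rw [v.hd]; ring, by linarith [he.1], le_rfl⟩
  obtain ⟨eu1, eG1, ew1, -, -⟩ := out_scaled (s := 1) (z := 0) (o := 1) he hr1 v.hd
    (by field_simp) (by ring) (by ring) (X := XL) (Y := 2 * XL - B) (h := h₀) hXL hB (by ring)
    (by ring) (by rw [hh0]; ring)
  have hj := ptOut_join (e := e) he
  rw [← v.hd] at hj
  rw [← hj, slope_one, slope_one, hσ, eu, eG, ew, eu1, eG1, ew1,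
    show (ptOut e p g).p = p from rfl, show (ptOut e p g).g = g from rfl,
    show (ptOut e ((1 + e) / 2) (d / 2)).p = (1 + e) / 2 from rfl,
    show (ptOut e ((1 + e) / 2) (d / 2)).g = d / 2 from rfl]
  have h7 := div_le_div_of_nonneg_right hrimF hd0.le
  rw [rimF_eq v hu hw, rimF] at h7
  refine le_of_eq_of_le ?_ ((neg_le_neg h7).trans_eq ?_)
  · field_simp
  · have : (1 : ℝ) - e ≠ 0 := by linarith [he.2]
    rw [v.hd]
    field_simp
    ring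

/-- The facts beyond the diameter hold for every radius. -/
theorem outPin : OutPin := fun _ he =>
  ⟨fun _ _ hr => (out_raw he hr).1.good, fun _ _ hr => (out_raw he hr).1.endc,
    fun _ _ hr => (out_raw he hr).2⟩

end Vale.Agent.P219.CH.Relax.Five
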