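import Vale.Agent.P219.Relax.Five.Cert
import Vale.Agent.P219.Gen.Law

/-!
# P219, dimension five: the value clause

Against `c (1 - c ^ 2)` the rational part of the marginal coefficient is an exact derivative, up to
`c ^ 3 (1 - c ^ 2) / y ^ 4`, so the mean does not depend on the weight.
-/

noncomputable section

open MeasureTheory Set Filter Topology

namespace Vale.Agent.P219.CH.Relax.Five

open GenK.Four (tanh_pos tanh_lt_one')

/-- An antiderivative of the rational part. -/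
def ratPrim (e t : ℝ) : ℝ :=
  t ^ 3 * (1 - t ^ 2) ^ 2 * PF e t / (2 * yf e t ^ 3) +
    (t ^ 4 * (1 / 2 - (2 + e) / 6 * t ^ 2)) / (2 * yf e t ^ 3)

/-- An antiderivative of the part with the distance. -/
def distPrim (T t : ℝ) : ℝ :=
  -(1 - t ^ 2) ^ 2 * Real.log ((1 + T * t) / (1 - T * t)) / 4 +
    ((1 - 1 / T ^ 2) ^ 2 * Real.log ((1 + T * t) / (1 - T * t)) +
      4 * T * (1 - 1 / T ^ 2) / T ^ 2 * t + 2 * T / T ^ 4 * (t - T ^ 2 * t ^ 3 / 3)) / 4

variable {e t : ℝ}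

lemma hasDerivAt_ratPrim (he : e ∈ Ioo (0 : ℝ) 1) (ht : t ∈ Icc (0 : ℝ) 1) :
    HasDerivAt (ratPrim e) ((1 - t ^ 2) * t * (t ^ 2 * diag (ptIn e t) t) / yf e t ^ 4) t := by
  have hy := yf_pos he ht
  have h1 : 1 + t ≠ 0 := by linarith [ht.1]
  have hP := hasDerivAt_PF he h1
  have hyd : HasDerivAt (fun x => yf e x) (-(2 * e * t)) t := by
    unfold yf
    exact (((hasDerivAt_pow 2 t).const_mul e).const_sub 1).congr_deriv (by push_cast; ring)
  have hden : HasDerivAt (fun x => 2 * yf e x ^ 3) _ t := (hyd.pow 3).const_mul 2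
  have hne : 2 * yf e t ^ 3 ≠ 0 := by positivity
  have hA := ((((hasDerivAt_pow 3 t).mul (((hasDerivAt_pow 2 t).const_sub 1).pow 2)).mul hP).div
    hden hne)
  have hB := (((hasDerivAt_pow 4 t).mul (((hasDerivAt_pow 2 t).const_mul ((2 + e) / 6)).const_sub
    (1 / 2))).div hden hne)
  refine (hA.add hB : HasDerivAt (ratPrim e) _ t).congr_deriv ?_
  rw [diag_split]
  simp only [ptIn, Pi.mul_apply, Pi.pow_apply]
  obtain ⟨y, hy'⟩ : ∃ y, y = yf e t := ⟨_, rfl⟩
  rw [← hy'] at hy ⊢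
  push_cast
  field_simp
  rw [hy', yf]
  ring

lemma hasDerivAt_distPrim {T : ℝ} (hT : 0 < T) (hT1 : T < 1) (ht : t ∈ Icc (0 : ℝ) 1) :
    HasDerivAt (distPrim T) ((1 - t ^ 2) * t * Real.log ((1 + T * t) / (1 - T * t))) t := by
  have h1 : 0 < 1 - T * t := sub_pos.2 ((mul_le_of_le_one_right hT.le ht.2).trans_lt hT1)
  have h2 : 0 < 1 + T * t := by linarith [mul_nonneg hT.le ht.1]
  have hl : HasDerivAt (fun x => Real.log ((1 + T * x) / (1 - T * x)))
      (2 * T / ((1 - T * t) * (1 + T * t))) t := by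
    refine (((((hasDerivAt_id t).const_mul T).const_add 1).div
      (((hasDerivAt_id t).const_mul T).const_sub 1) h1.ne').log (div_pos h2 h1).ne').congr_deriv ?_
    simp only [id_eq, Pi.div_apply]
    field_simp
    ring
  have hA := (((((hasDerivAt_pow 2 t).const_sub 1).pow 2).neg).mul hl).div_const 4
  have hB := (((hl.const_mul ((1 - 1 / T ^ 2) ^ 2)).add
    ((hasDerivAt_id t).const_mul (4 * T * (1 - 1 / T ^ 2) / T ^ 2))).add
    (((hasDerivAt_id t).sub (((hasDerivAt_pow 3 t).const_mul (T ^ 2)).div_const 3)).const_mul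
      (2 * T / T ^ 4))).div_const 4
  refine (hA.add hB : HasDerivAt (distPrim T) _ t).congr_deriv ?_
  simp only [Pi.neg_apply, Pi.pow_apply]
  have hne : 1 - t ^ 2 * T ^ 2 ≠ 0 := by nlinarith [mul_pos h1 h2]
  obtain ⟨ℓ, hℓ⟩ : ∃ ℓ, ℓ = Real.log ((1 + T * t) / (1 - T * t)) := ⟨_, rfl⟩
  rw [← hℓ, show (1 - T * t) * (1 + T * t) = 1 - t ^ 2 * T ^ 2 by ring]
  push_cast
  field_simp
  ring

lemma integral_sinh_four (R : ℝ) :
    ∫ t in (0 : ℝ)..R, Real.sinh t ^ 4 =
      Real.sinh (2 * R) * Real.cosh (2 * R) / 16 - Real.sinh (2 * R) / 4 + 3 * R / 8 := by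
  have hd : ∀ t ∈ uIcc (0 : ℝ) R, HasDerivAt (fun t => Real.sinh (2 * t) * Real.cosh (2 * t) / 16 -
      Real.sinh (2 * t) / 4 + 3 * t / 8) (Real.sinh t ^ 4) t := by
    intro t _
    have h2 : HasDerivAt (fun x : ℝ => 2 * x) 2 t := by
      simpa using (hasDerivAt_id t).const_mul (2 : ℝ)
    refine ((((h2.sinh.mul h2.cosh).div_const 16).sub (h2.sinh.div_const 4)).add
      (((hasDerivAt_id t).const_mul 3).div_const 8)).congr_deriv ?_
    rw [Real.sinh_two_mul, Real.cosh_two_mul]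
    linear_combination ((Real.cosh t ^ 2 + 7 * Real.sinh t ^ 2 - 3) / 8) * Real.cosh_sq t
  rw [intervalIntegral.integral_eq_sub_of_hasDerivAt hd
    ((Real.continuous_sinh.pow 4).intervalIntegrable _ _)]
  simp

lemma measurable_aFive (R : ℝ) : Measurable (aFive R) := by
  unfold aFive diag k0 k1 k2 k3 ptIn PF PF' QF QF' yf numA numA' numB numB'
  fun_prop

/-- The value clause, with equality. -/
theorem valuePin : ValuePin := by
  intro R hR hi
  refine le_of_eq ?_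
  have hT := tanh_pos hR
  have hT1 := tanh_lt_one' R
  have he := tanh_sq_mem hR
  obtain ⟨B, hB⟩ := isCompact_Icc.exists_bound_of_continuousOn
    (continuousOn_id.mul (continuousOn_margB hR))
  have hc : ContinuousOn (aFive R) (Icc 0 1) := continuousOn_id.mul (continuousOn_margB hR)
  have hm := Gen.Law.cmean_eq 1 (g := fun c => -aFive R c) (B := B) (measurable_aFive R).neg hc.neg
    fun c h => ⟨neg_nonneg.2 (mul_nonpos_of_nonneg_of_nonpos h.1 (margB_nonpos hR hi h)),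
      (neg_le_abs _).trans (hB c h)⟩
  have hK : ∫ c in (-1 : ℝ)..1, (1 - c ^ 2) ^ 1 = 4 / 3 := by
    simp only [pow_one]
    rw [intervalIntegral.integral_sub intervalIntegrable_const
      (intervalIntegral.intervalIntegrable_pow 2), integral_pow, intervalIntegral.integral_const]
    norm_num
  obtain ⟨Φ, hΦ⟩ : ∃ Φ : ℝ → ℝ, Φ = fun t =>
      betaFive R * distPrim (Real.tanh R) t -
        16 * Real.tanh R ^ 4 * ratPrim (Real.tanh R ^ 2) t := ⟨_, rfl⟩
  have hd : ∀ t ∈ uIcc (0 : ℝ) 1, HasDerivAt Φ (-aFive R t * (1 - t ^ 2) ^ 1) t := by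
    intro t ht
    rw [uIcc_of_le zero_le_one] at ht
    rw [hΦ]
    refine (((hasDerivAt_distPrim hT hT1 ht).const_mul (betaFive R)).sub
      ((hasDerivAt_ratPrim he ht).const_mul (16 * Real.tanh R ^ 4))).congr_deriv ?_
    rw [aFive_eq, margB]
    ring
  have hI : ∫ c in (0 : ℝ)..1, -aFive R c * (1 - c ^ 2) ^ 1 = Φ 1 - Φ 0 :=
    intervalIntegral.integral_eq_sub_of_hasDerivAt hd
      ((hc.neg.mul (by fun_prop)).intervalIntegrable_of_Icc zero_le_one)
  rw [hK, hI] at hm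
  have hcm : Gen.cmean 5 (fun c => -aFive R c) = 3 / 4 * (Φ 1 - Φ 0) := by linarith
  have hl : Real.log ((1 + Real.tanh R * 1) / (1 - Real.tanh R * 1)) = 2 * R := by
    have := log_tc hR (2 * R)
    rwa [tc_diam hR] at this
  obtain ⟨T, hTd⟩ : ∃ T, T = Real.tanh R := ⟨_, rfl⟩
  rw [← hTd] at hT hT1 he hl hΦ
  have h1e : 0 < 1 - T ^ 2 := sub_pos.2 he.2
  have hval : Φ 1 - Φ 0 = betaFive R * (((1 - 1 / T ^ 2) ^ 2 * (2 * R) +
      4 * T * (1 - 1 / T ^ 2) / T ^ 2 + 2 * T / T ^ 4 * (1 - T ^ 2 / 3)) / 4) -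
      16 * T ^ 4 * (1 / (12 * (1 - T ^ 2) ^ 2)) := by
    simp only [hΦ, distPrim, ratPrim, hl, yf, mul_zero, add_zero, sub_zero, div_one, Real.log_one]
    field_simp
    ring
  rw [show (5 : ℕ) - 1 = 4 from rfl, show 2 * 4 = 8 from rfl, integral_sinh_four, hcm, hval,
    ← betaFive.eq_def]
  have hs2 : Real.sinh (2 * R) = 2 * T / (1 - T ^ 2) := by
    rw [GenK.Four.sinh_eq, show 2 * R / 2 = R by ring, hTd]
  have hc2 : Real.cosh (2 * R) = (1 + T ^ 2) / (1 - T ^ 2) := by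
    have h := coth_eq (r := 2 * R) (by linarith)
    rw [show 2 * R / 2 = R by ring, hs2, ← hTd] at h
    field_simp at h ⊢
    linarith
  have hS : Real.sinh R ^ 2 = T ^ 2 / (1 - T ^ 2) := by
    rw [Real.sinh_sq, hTd]
    have h := Real.cosh_two_mul R
    rw [hc2] at h
    have h' := Real.cosh_sq R
    rw [← hTd]
    field_simp at h ⊢
    linear_combination -(1 : ℝ) / 2 * h + (1 - T ^ 2) / 2 * h'
  rw [show Real.sinh R ^ 8 = (Real.sinh R ^ 2) ^ 4 by ring,
    show Real.sinh R ^ 4 = (Real.sinh R ^ 2) ^ 2 by ring, hS, hs2, hc2]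
  field_simp
  ring

end Vale.Agent.P219.CH.Relax.Five
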