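import Vale.Agent.P219.Relax.Five.In
import Vale.Agent.P219.Relax.Five.Out
import Vale.Agent.P219.Relax.Five.Value

/-!
# P219, dimension five: certificates against every ball
-/

noncomputable section

namespace Vale.Agent.P219.CH.Relax.Five

/-- A certificate against the ball of every radius. -/
theorem cert_five : Cert 5 := cert_of_pins inPin outPin valuePin certPin

end Vale.Agent.P219.CH.Relax.Five
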