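import Vale.Agent.P219.Relax.Five.InTree

/-!
# P219, dimension five: signs of the coefficients inside the diameter

Each is nonnegative in the Bernstein basis of the unit square of `(e, t)`, by the kernel check.
-/

noncomputable section

open Set

namespace Vale.Agent.P219.CH.Relax.Five.InP

open Vale.Agent.P219.Poly (E)

lemma posW_nonneg {e t : ℝ} (he : e ∈ Icc (0 : ℝ) 1) (ht : t ∈ Icc (0 : ℝ) 1) :
    0 ≤ atPt posW e t - (1 - e) ^ 2 :=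
  E.nonneg_of_scaled (p := (.add (.add nUT nGT) (.neg (.pow (.add (.k 1) (.neg (.x 0))) 2)))) (K := 1)
    (by decide +kernel) he ht (by norm_num) <| by
    simp only [atPt, posW, sem_nGT, sem_nUT, E.sem, Matrix.cons_val_zero]
    push_cast
    ring

lemma negG_nonneg {e t : ℝ} (he : e ∈ Icc (0 : ℝ) 1) (ht : t ∈ Icc (0 : ℝ) 1) :
    0 ≤ atPt negG e t :=
  E.nonneg_of_scaled (p := (.mul (.k (-1)) nGT)) (K := 1)
    (by decide +kernel) he ht (by norm_num) <| by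
    simp only [atPt, negG, sem_nGT, E.sem]
    push_cast
    ring

lemma mono_nonneg {e t : ℝ} (he : e ∈ Icc (0 : ℝ) 1) (ht : t ∈ Icc (0 : ℝ) 1) :
    0 ≤ atPt mono e t :=
  E.nonneg_of_scaled (p := (.add (.mul (.k 2) (.mul (.add (.k 3) (.mul (.mul (.k 3) (.x 0)) (.pow (.x 1) 2))) nUT)) (.mul (.mul (.k 2) (.x 1)) nVT))) (K := 2)
    (by decide +kernel) he ht (by norm_num) <| by
    simp only [atPt, mono, sem_nUT, sem_nVT, E.sem, Matrix.cons_val_zero, Matrix.cons_val_one]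
    push_cast
    ring

lemma conv0_nonneg {e t : ℝ} (he : e ∈ Icc (0 : ℝ) 1) (ht : t ∈ Icc (0 : ℝ) 1) :
    0 ≤ atPt conv0 e t :=
  E.nonneg_of_scaled (p := (.add (.mul (.k 2) (.add (.mul (.mul (.k 2) (.x 1)) nNT) (.mul (.add (.k 3) (.mul (.mul (.k 3) (.x 0)) (.pow (.x 1) 2))) nUT))) (.mul (.mul (.k 2) (.x 1)) nVT))) (K := 2)
    (by decide +kernel) he ht (by norm_num) <| by
    simp only [atPt, conv0, sem_nNT, sem_nUT, sem_nVT, E.sem, Matrix.cons_val_zero, Matrix.cons_val_one]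
    push_cast
    ring

lemma conv1_nonneg {e t : ℝ} (he : e ∈ Icc (0 : ℝ) 1) (ht : t ∈ Icc (0 : ℝ) 1) :
    0 ≤ atPt conv1 e t :=
  E.nonneg_of_scaled (p := (.add (.add (.add (.mul (.k 2) (.add (.mul (.mul (.k 6) (.x 1)) nNT) (.mul (.add (.add (.k 9) (.neg (.mul (.k 8) (.x 1)))) (.mul (.mul (.k 9) (.x 0)) (.pow (.x 1) 2))) nUT))) (.mul (.mul (.k 6) (.x 1)) nVT)) (.mul (.k 2) (.mul (.add (.k 4) (.mul (.mul (.k 2) (.x 0)) (.pow (.x 1) 2))) nGT))) (.mul (.mul (.k 2) (.x 1)) nWT))) (K := 2)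
    (by decide +kernel) he ht (by norm_num) <| by
    simp only [atPt, conv1, sem_nGT, sem_nNT, sem_nUT, sem_nVT, sem_nWT, E.sem, Matrix.cons_val_zero, Matrix.cons_val_one]
    push_cast
    ring

lemma slopeT_nonneg {e t : ℝ} (he : e ∈ Icc (0 : ℝ) 1) (ht : t ∈ Icc (0 : ℝ) 1) :
    0 ≤ atPt slopeT e t :=
  E.nonneg_of_scaled (p := (.add (.add (.add (.mul (.k 2) (.add (.mul (.mul (.k 4) (.x 1)) nNT) (.mul (.add (.add (.k 6) (.neg (.mul (.k 8) (.pow (.x 1) 2)))) (.mul (.mul (.k 6) (.x 0)) (.pow (.x 1) 2))) nUT))) (.mul (.mul (.k 4) (.x 1)) nVT)) (.mul (.k 2) (.mul (.add (.add (.mul (.k 4) (.x 1)) (.mul (.mul (.k 2) (.x 0)) (.pow (.x 1) 3))) (.neg (.mul (.mul (.k 2) (.x 0)) (.pow (.x 1) 5)))) nGT))) (.mul (.add (.mul (.k 2) (.pow (.x 1) 2)) (.mul (.k 2) (.pow (.x 1) 4))) nWT))) (K := 2)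
    (by decide +kernel) he ht (by norm_num) <| by
    simp only [atPt, slopeT, sem_nGT, sem_nNT, sem_nUT, sem_nVT, sem_nWT, E.sem, Matrix.cons_val_zero, Matrix.cons_val_one]
    push_cast
    ring

lemma zero0_nonneg {e t : ℝ} (he : e ∈ Icc (0 : ℝ) 1) (ht : t ∈ Icc (0 : ℝ) 1) :
    0 ≤ atPt zero0 e t :=
  E.nonneg_of_scaled (p := (.add (.mul (.k 2) (.add (.mul (.mul (.k 4) (.x 1)) nNT) (.mul (.add (.k 6) (.mul (.mul (.k 6) (.x 0)) (.pow (.x 1) 2))) nUT))) (.mul (.mul (.k 4) (.x 1)) nVT))) (K := 2)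
    (by decide +kernel) he ht (by norm_num) <| by
    simp only [atPt, zero0, sem_nNT, sem_nUT, sem_nVT, E.sem, Matrix.cons_val_zero, Matrix.cons_val_one]
    push_cast
    ring

lemma zero1_nonneg {e t : ℝ} (he : e ∈ Icc (0 : ℝ) 1) (ht : t ∈ Icc (0 : ℝ) 1) :
    0 ≤ atPt zero1 e t :=
  E.nonneg_of_scaled (p := (.add (.add (.add (.mul (.k 2) (.add (.mul (.k 3) (.mul (.mul (.k 4) (.x 1)) nNT)) (.mul (.add (.add (.mul (.k 3) (.k 6)) (.neg (.mul (.k 8) (.x 1)))) (.mul (.k 3) (.mul (.mul (.k 6) (.x 0)) (.pow (.x 1) 2)))) nUT))) (.mul (.k 3) (.mul (.mul (.k 4) (.x 1)) nVT))) (.mul (.k 2) (.mul (.add (.k 4) (.mul (.mul (.k 2) (.x 0)) (.pow (.x 1) 2))) nGT))) (.mul (.mul (.k 2) (.x 1)) nWT))) (K := 6)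
    (by decide +kernel) he ht (by norm_num) <| by
    simp only [atPt, zero1, sem_nGT, sem_nNT, sem_nUT, sem_nVT, sem_nWT, E.sem, Matrix.cons_val_zero, Matrix.cons_val_one]
    push_cast
    ring

lemma zero2_nonneg {e t : ℝ} (he : e ∈ Icc (0 : ℝ) 1) (ht : t ∈ Icc (0 : ℝ) 1) :
    0 ≤ atPt zero2 e t :=
  E.nonneg_of_scaled (p := (.add (.add (.add (.mul (.k 2) (.add (.mul (.k 3) (.mul (.mul (.k 4) (.x 1)) nNT)) (.mul (.add (.add (.k 19) (.neg (.mul (.k 16) (.x 1)))) (.mul (.mul (.k 19) (.x 0)) (.pow (.x 1) 2))) nUT))) (.mul (.mul (.k 10) (.x 1)) nVT)) (.mul (.k 2) (.mul (.add (.k 8) (.mul (.mul (.k 4) (.x 0)) (.pow (.x 1) 2))) nGT))) (.mul (.mul (.k 4) (.x 1)) nWT))) (K := 6)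
    (by decide +kernel) he ht (by norm_num) <| by
    simp only [atPt, zero2, sem_nGT, sem_nNT, sem_nUT, sem_nVT, sem_nWT, E.sem, Matrix.cons_val_zero, Matrix.cons_val_one]
    push_cast
    ring

lemma zero3_nonneg {e t : ℝ} (he : e ∈ Icc (0 : ℝ) 1) (ht : t ∈ Icc (0 : ℝ) 1) :
    0 ≤ atPt zero3 e t :=
  E.nonneg_of_scaled (p := (.add (.add (.add (.mul (.k 2) (.add (.mul (.mul (.k 4) (.x 1)) nNT) (.mul (.add (.add (.k 7) (.neg (.mul (.k 8) (.x 1)))) (.mul (.mul (.k 7) (.x 0)) (.pow (.x 1) 2))) nUT))) (.mul (.mul (.k 2) (.x 1)) nVT)) (.mul (.add (.k 7) (.mul (.mul (.k 5) (.x 0)) (.pow (.x 1) 2))) nGT)) (.mul (.mul (.k 2) (.x 1)) nWT))) (K := 2)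
    (by decide +kernel) he ht (by norm_num) <| by
    simp only [atPt, zero3, sem_nGT, sem_nNT, sem_nUT, sem_nVT, sem_nWT, E.sem, Matrix.cons_val_zero, Matrix.cons_val_one]
    push_cast
    ring

lemma gend0_nonneg {e t : ℝ} (he : e ∈ Icc (0 : ℝ) 1) (ht : t ∈ Icc (0 : ℝ) 1) :
    0 ≤ atPt gend0 e t :=
  E.nonneg_of_scaled (p := (.add (.add (.add (.mul (.k 2) (.add (.mul (.mul (.k 12) (.x 1)) nNT) (.mul (.add (.add (.k 21) (.neg (.mul (.k 24) (.x 1)))) (.mul (.mul (.k 21) (.x 0)) (.pow (.x 1) 2))) nUT))) (.mul (.mul (.k 6) (.x 1)) nVT)) (.mul (.k 2) (.mul (.add (.k 10) (.mul (.mul (.k 8) (.x 0)) (.pow (.x 1) 2))) nGT))) (.mul (.mul (.k 6) (.x 1)) nWT))) (K := 2)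
    (by decide +kernel) he ht (by norm_num) <| by
    simp only [atPt, gend0, sem_nGT, sem_nNT, sem_nUT, sem_nVT, sem_nWT, E.sem, Matrix.cons_val_zero, Matrix.cons_val_one]
    push_cast
    ring

lemma gend1_nonneg {e t : ℝ} (he : e ∈ Icc (0 : ℝ) 1) (ht : t ∈ Icc (0 : ℝ) 1) :
    0 ≤ atPt gend1 e t :=
  E.nonneg_of_scaled (p := (.add (.add (.add (.mul (.k 2) (.add (.mul (.mul (.k 40) (.x 1)) nNT) (.mul (.add (.add (.k 76) (.neg (.mul (.k 104) (.x 1)))) (.mul (.mul (.k 64) (.x 0)) (.pow (.x 1) 2))) nUT))) (.mul (.mul (.k 20) (.x 1)) nVT)) (.mul (.k 2) (.mul (.add (.add (.k 52) (.neg (.mul (.k 3) (.mul (.k 16) (.x 1))))) (.mul (.mul (.k 32) (.x 0)) (.pow (.x 1) 2))) nGT))) (.mul (.mul (.k 20) (.x 1)) nWT))) (K := 6)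
    (by decide +kernel) he ht (by norm_num) <| by
    simp only [atPt, gend1, sem_nGT, sem_nNT, sem_nUT, sem_nVT, sem_nWT, E.sem, Matrix.cons_val_zero, Matrix.cons_val_one]
    push_cast
    ring

lemma gend2_nonneg {e t : ℝ} (he : e ∈ Icc (0 : ℝ) 1) (ht : t ∈ Icc (0 : ℝ) 1) :
    0 ≤ atPt gend2 e t :=
  E.nonneg_of_scaled (p := (.mul (.add (.add (.add (.mul (.k 2) (.add (.mul (.mul (.k 44) (.x 1)) nNT) (.mul (.add (.add (.k 94) (.neg (.mul (.k 3) (.mul (.k 48) (.x 1))))) (.mul (.k 3) (.mul (.mul (.k 22) (.x 0)) (.pow (.x 1) 2)))) nUT))) (.mul (.mul (.k 16) (.x 1)) nVT)) (.mul (.k 2) (.mul (.add (.add (.k 82) (.neg (.mul (.k 112) (.x 1)))) (.mul (.mul (.k 46) (.x 0)) (.pow (.x 1) 2))) nGT))) (.mul (.mul (.k 16) (.x 1)) nWT)) (.add (.x 1) (.bar 1)))) (K := 6)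
    (by decide +kernel) he ht (by norm_num) <| by
    simp only [atPt, gend2, sem_nGT, sem_nNT, sem_nUT, sem_nVT, sem_nWT, E.sem, Matrix.cons_val_zero, Matrix.cons_val_one]
    push_cast
    ring

end Vale.Agent.P219.CH.Relax.Five.InP
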