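import Vale.Agent.P219.Relax.Five.InTree

/-!
# P219, dimension five: signs of the coefficients inside the diameter

Each is nonnegative in the Bernstein basis of the unit square of `(e, t)`, by the kernel check.
-/

noncomputable section

open Set

namespace Vale.Agent.P219.CH.Relax.Five.InP

open Vale.Agent.P219.Poly (E)

lemma diagL1_nonneg {e t : ℝ} (he : e ∈ Icc (0 : ℝ) 1) (ht : t ∈ Icc (0 : ℝ) 1) :
    0 ≤ atPt diagL1 e t :=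
  E.nonneg_of_scaled (p := (.add (.add (.add (.mul (.k 2) (.add (.mul (.k 3) (.mul (.mul (.k 2) (.x 1)) nNT)) (.mul (.add (.add (.mul (.k 3) (.k 3)) (.neg (.mul (.k 8) (.pow (.x 1) 2)))) (.mul (.k 3) (.mul (.mul (.k 3) (.x 0)) (.pow (.x 1) 2)))) nUT))) (.mul (.k 3) (.mul (.mul (.k 2) (.x 1)) nVT))) (.mul (.k 2) (.mul (.add (.mul (.k 4) (.x 1)) (.mul (.mul (.k 2) (.x 0)) (.pow (.x 1) 3))) nGT))) (.mul (.mul (.k 2) (.pow (.x 1) 2)) nWT))) (K := 6)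
    (by decide +kernel) he ht (by norm_num) <| by
    simp only [atPt, diagL1, sem_nGT, sem_nNT, sem_nUT, sem_nVT, sem_nWT, E.sem, Matrix.cons_val_zero, Matrix.cons_val_one]
    push_cast
    ring

lemma diagL2_nonneg {e t : ℝ} (he : e ∈ Icc (0 : ℝ) 1) (ht : t ∈ Icc (0 : ℝ) 1) :
    0 ≤ atPt diagL2 e t :=
  E.nonneg_of_scaled (p := (.add (.add (.add (.mul (.k 2) (.add (.mul (.k 3) (.mul (.mul (.k 2) (.x 1)) nNT)) (.mul (.add (.add (.mul (.k 3) (.k 3)) (.neg (.mul (.k 14) (.pow (.x 1) 2)))) (.mul (.k 3) (.mul (.mul (.k 3) (.x 0)) (.pow (.x 1) 2)))) nUT))) (.mul (.add (.mul (.k 3) (.mul (.k 2) (.x 1))) (.neg (.mul (.k 2) (.pow (.x 1) 3)))) nVT)) (.mul (.k 2) (.mul (.add (.add (.add (.add (.mul (.k 8) (.x 1)) (.mul (.k 1) (.pow (.x 1) 2))) (.neg (.mul (.k 8) (.pow (.x 1) 3)))) (.mul (.mul (.k 4) (.x 0)) (.pow (.x 1) 3))) (.neg (.mul (.mul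 (.k 1) (.x 0)) (.pow (.x 1) 4)))) nGT))) (.mul (.mul (.k 4) (.pow (.x 1) 2)) nWT))) (K := 6)
    (by decide +kernel) he ht (by norm_num) <| by
    simp only [atPt, diagL2, sem_nGT, sem_nNT, sem_nUT, sem_nVT, sem_nWT, E.sem, Matrix.cons_val_zero, Matrix.cons_val_one]
    push_cast
    ring

lemma diagL3_nonneg {e t : ℝ} (he : e ∈ Icc (0 : ℝ) 1) (ht : t ∈ Icc (0 : ℝ) 1) :
    0 ≤ atPt diagL3 e t :=
  E.nonneg_of_scaled (p := (.add (.add (.add (.mul (.k 2) (.add (.mul (.mul (.k 2) (.x 1)) nNT) (.mul (.add (.add (.k 3) (.neg (.mul (.k 6) (.pow (.x 1) 2)))) (.mul (.mul (.k 3) (.x 0)) (.pow (.x 1) 2))) nUT))) (.mul (.add (.mul (.k 2) (.x 1)) (.neg (.mul (.k 2) (.pow (.x 1) 3)))) nVT)) (.mul (.k 2) (.mul (.add (.add (.add (.add (.add (.mul (.k 4) (.x 1)) (.pow (.x 1) 2)) (.neg (.mul (.k 8) (.pow (.x 1) 3)))) (.mul (.mul (.k 2) (.x 0)) (.pow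 (.x 1) 3))) (.neg (.mul (.x 0) (.pow (.x 1) 4)))) (.mul (.mul (.k 2) (.x 0)) (.pow (.x 1) 5))) nGT))) (.mul (.add (.mul (.k 2) (.pow (.x 1) 2)) (.neg (.mul (.k 2) (.pow (.x 1) 4)))) nWT))) (K := 2)
    (by decide +kernel) he ht (by norm_num) <| by
    simp only [atPt, diagL3, sem_nGT, sem_nNT, sem_nUT, sem_nVT, sem_nWT, E.sem, Matrix.cons_val_zero, Matrix.cons_val_one]
    push_cast
    ring

lemma diagR1_nonneg {e t : ℝ} (he : e ∈ Icc (0 : ℝ) 1) (ht : t ∈ Icc (0 : ℝ) 1) :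
    0 ≤ atPt diagR1 e t :=
  E.nonneg_of_scaled (p := (.add (.add (.add (.mul (.k 2) (.add (.mul (.k 3) (.mul (.mul (.k 2) (.x 1)) nNT)) (.mul (.add (.add (.add (.mul (.k 3) (.k 3)) (.neg (.mul (.k 4) (.x 1)))) (.neg (.mul (.k 14) (.pow (.x 1) 2)))) (.mul (.k 3) (.mul (.mul (.k 3) (.x 0)) (.pow (.x 1) 2)))) nUT))) (.mul (.add (.add (.mul (.k 3) (.mul (.k 2) (.x 1))) (.neg (.mul (.k 4) (.pow (.x 1) 2)))) (.neg (.mul (.k 2) (.pow (.x 1) 3)))) nVT)) (.mul (.k 2) (.mul (.add (.add (.add (.add (.add (.add (.k 4) (.mul (.k 10) (.x 1))) (.neg (.mul (.k 3) (.mul (.k 5) (.pow (.x 1) 2))))) (.mul (.mul (.k 2) (.x 0)) (.pow (.x 1) 2))) (.neg (.mul (.k 8) (.pow (.x 1) 3)))) (.mul (.mul (.k 2) (.x 0)) (.pow (.x 1) 3))) (.mul (.mul (.k 5) (.x 0)) (.pow (.x 1) 4))) nGT))) (.mul (.add (.add (.mul (.k 2) (.x 1)) (.mul (.k 4) (.pow (.x 1) 2))) (.neg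 (.mul (.k 3) (.mul (.k 2) (.pow (.x 1) 3))))) nWT))) (K := 6)
    (by decide +kernel) he ht (by norm_num) <| by
    simp only [atPt, diagR1, sem_nGT, sem_nNT, sem_nUT, sem_nVT, sem_nWT, E.sem, Matrix.cons_val_zero, Matrix.cons_val_one]
    push_cast
    ring

lemma diagR2_nonneg {e t : ℝ} (he : e ∈ Icc (0 : ℝ) 1) (ht : t ∈ Icc (0 : ℝ) 1) :
    0 ≤ atPt diagR2 e t :=
  E.nonneg_of_scaled (p := (.add (.add (.add (.mul (.k 2) (.add (.mul (.k 3) (.mul (.mul (.k 2) (.x 1)) nNT)) (.mul (.add (.add (.add (.k 11) (.neg (.mul (.k 3) (.mul (.k 4) (.x 1))))) (.neg (.mul (.k 8) (.pow (.x 1) 2)))) (.mul (.k 3) (.mul (.mul (.k 3) (.x 0)) (.pow (.x 1) 2)))) nUT))) (.mul (.add (.mul (.k 4) (.x 1)) (.neg (.mul (.k 4) (.pow (.x 1) 2)))) nVT)) (.mul (.k 2) (.mul (.add (.add (.add (.add (.mul (.k 3) (.k 3)) (.neg (.mul (.k 2) (.x 1)))) (.neg (.mul (.k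 16) (.pow (.x 1) 2)))) (.mul (.k 3) (.mul (.x 0) (.pow (.x 1) 2)))) (.mul (.k 3) (.mul (.mul (.k 2) (.x 0)) (.pow (.x 1) 3)))) nGT))) (.mul (.add (.mul (.k 4) (.x 1)) (.neg (.mul (.k 4) (.pow (.x 1) 2)))) nWT))) (K := 6)
    (by decide +kernel) he ht (by norm_num) <| by
    simp only [atPt, diagR2, sem_nGT, sem_nNT, sem_nUT, sem_nVT, sem_nWT, E.sem, Matrix.cons_val_zero, Matrix.cons_val_one]
    push_cast
    ring

lemma diagR3_nonneg {e t : ℝ} (he : e ∈ Icc (0 : ℝ) 1) (ht : t ∈ Icc (0 : ℝ) 1) :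
    0 ≤ atPt diagR3 e t :=
  (sq_nonneg (16 * (1 - t) - 8 * (1 - e))).trans <| sub_nonneg.1 <|
  E.nonneg_of_scaled (p := (.add (.add (.add (.mul (.mul (.k 2) (.x 1)) nNT) (.mul (.add (.add (.k 5) (.neg (.mul (.k 8) (.x 1)))) (.mul (.mul (.k 3) (.x 0)) (.pow (.x 1) 2))) nUT)) (.mul (.add (.add (.k 5) (.neg (.mul (.k 8) (.x 1)))) (.mul (.mul (.k 3) (.x 0)) (.pow (.x 1) 2))) nGT)) (.neg (.pow (.add (.mul (.k 16) (.add (.k 1) (.neg (.x 1)))) (.neg (.mul (.k 8) (.add (.k 1) (.neg (.x 0)))))) 2)))) (K := 1)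
    (by decide +kernel) he ht (by norm_num) <| by
    simp only [atPt, diagR3, sem_nGT, sem_nNT, sem_nUT, E.sem, Matrix.cons_val_zero, Matrix.cons_val_one]
    push_cast
    ring

lemma endL0_nonneg {e t : ℝ} (he : e ∈ Icc (0 : ℝ) 1) (ht : t ∈ Icc (0 : ℝ) 1) :
    0 ≤ atPt endL0 e t :=
  E.nonneg_of_scaled (p := (.add (.add (.add (.mul (.k 2) (.add (.mul (.mul (.k 12) (.pow (.x 1) 4)) nNT) (.mul (.add (.add (.mul (.k 21) (.pow (.x 1) 3)) (.neg (.mul (.k 24) (.pow (.x 1) 4)))) (.mul (.mul (.k 21) (.x 0)) (.pow (.x 1) 5))) nUT))) (.mul (.mul (.k 6) (.pow (.x 1) 4)) nVT)) (.mul (.k 2) (.mul (.add (.mul (.k 10) (.pow (.x 1) 3)) (.mul (.mul (.k 8) (.x 0)) (.pow (.x 1) 5))) nGT))) (.mul (.mul (.k 6) (.pow (.x 1) 4)) nWT))) (K := 2)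
    (by decide +kernel) he ht (by norm_num) <| by
    simp only [atPt, endL0, sem_nGT, sem_nNT, sem_nUT, sem_nVT, sem_nWT, E.sem, Matrix.cons_val_zero, Matrix.cons_val_one]
    push_cast
    ring

lemma endL1_nonneg {e t : ℝ} (he : e ∈ Icc (0 : ℝ) 1) (ht : t ∈ Icc (0 : ℝ) 1) :
    0 ≤ atPt endL1 e t :=
  E.nonneg_of_scaled (p := (.add (.add (.add (.add (.mul (.k 4) (.mul (.add (.mul (.k 3) (.add (.add (.add (.mul (.k 3) (.pow (.x 1) 3)) (.mul (.k 4) (.pow (.x 1) 4))) (.neg (.mul (.k 3) (.pow (.x 1) 5)))) (.pow (.x 1) 6))) (.mul (.k 1) (.pow (.x 1) 7))) nNT)) (.mul (.add (.add (.add (.add (.add (.mul (.k 3) (.add (.add (.mul (.k 2) (.add (.add (.add (.mul (.k 9) (.pow (.x 1) 2)) (.mul (.k 2) (.mul (.k 9) (.pow (.x 1) 3)))) (.neg (.mul (.k 69) (.pow (.x 1) 4)))) (.mul (.mul (.k 9) (.x 0)) (.pow (.x 1) 4)))) (.mul (.k 89) (.pow (.x 1)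 5))) (.mul (.k 4) (.mul (.mul (.k 9) (.x 0)) (.pow (.x 1) 5))))) (.mul (.k 1) (.pow (.x 1) 6))) (.neg (.mul (.k 6) (.mul (.mul (.k 9) (.x 0)) (.pow (.x 1) 6))))) (.neg (.mul (.k 4) (.mul (.k 8) (.pow (.x 1) 7))))) (.mul (.k 3) (.mul (.mul (.k 1) (.x 0)) (.pow (.x 1) 7)))) (.mul (.mul (.k 1) (.x 0)) (.pow (.x 1) 8))) nUT)) (.mul (.add (.mul (.k 3) (.add (.mul (.k 2) (.add (.add (.mul (.k 3) (.pow (.x 1) 3)) (.neg (.mul (.k 2) (.pow (.x 1) 4)))) (.neg (.mul (.k 3) (.pow (.x 1) 5))))) (.mul (.k 7) (.pow (.x 1) 6)))) (.mul (.k 7) (.pow (.x 1) 7))) nVT)) (.mul (.k 2) (.mul (.add (.add (.add (.mul (.k 3) (.add (.mul (.k 2) (.add (.mul (.k 13) (.pow (.x 1) 3)) (.neg (.mul (.k 11) (.pow (.x 1) 4))))) (.mul (.mul (.k 19) (.x 0)) (.pow (.x 1) 5)))) (.mul (.k 2) (.mul (.k 4) (.pow (.x 1) 6)))) (.neg (.mul (.k 3) (.mul (.mul (.k 11) (.x 0)) (.pow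 (.x 1) 6))))) (.mul (.k 2) (.mul (.mul (.k 2) (.x 0)) (.pow (.x 1) 8)))) nGT))) (.mul (.add (.mul (.k 3) (.add (.mul (.k 15) (.pow (.x 1) 4)) (.neg (.mul (.k 11) (.pow (.x 1) 5))))) (.mul (.k 2) (.mul (.k 2) (.pow (.x 1) 7)))) nWT))) (K := 12)
    (by decide +kernel) he ht (by norm_num) <| by
    simp only [atPt, endL1, sem_nGT, sem_nNT, sem_nUT, sem_nVT, sem_nWT, E.sem, Matrix.cons_val_zero, Matrix.cons_val_one]
    push_cast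
    ring

lemma endL2_nonneg {e t : ℝ} (he : e ∈ Icc (0 : ℝ) 1) (ht : t ∈ Icc (0 : ℝ) 1) :
    0 ≤ atPt endL2 e t :=
  E.nonneg_of_scaled (p := (.mul (.mul (.add (.add (.add (.add (.mul (.k 12) (.mul (.add (.add (.add (.mul (.k 4) (.add (.add (.mul (.k 6) (.pow (.x 1) 3)) (.neg (.mul (.k 4) (.pow (.x 1) 4)))) (.neg (.mul (.k 3) (.pow (.x 1) 5))))) (.mul (.k 7) (.pow (.x 1) 6))) (.neg (.mul (.k 2) (.mul (.k 1) (.pow (.x 1) 7))))) (.neg (.mul (.k 1) (.pow (.x 1) 8)))) nNT)) (.mul (.add (.add (.add (.add (.add (.add (.add (.add (.add (.mul (.k 2) (.add (.add (.mul (.k 3) (.add (.add (.mul (.k 4) (.add (.add (.mul (.k 2) (.add (.mul (.k 9) (.pow (.x 1) 2)) (.neg (.mul (.k 3) (.pow (.x 1) 3))))) (.neg (.mul (.k 81) (.pow (.x 1) 4)))) (.mul (.k 2) (.mul (.mul (.k 9) (.x 0)) (.pow (.x 1) 4))))) (.mul (.k 353) (.pow (.x 1) 5))) (.neg (.mul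 (.k 8) (.mul (.mul (.k 3) (.x 0)) (.pow (.x 1) 5)))))) (.neg (.mul (.k 2) (.mul (.k 91) (.pow (.x 1) 6))))) (.neg (.mul (.k 12) (.mul (.mul (.k 9) (.x 0)) (.pow (.x 1) 6)))))) (.neg (.mul (.k 169) (.pow (.x 1) 7)))) (.mul (.k 6) (.mul (.mul (.k 1) (.x 0)) (.pow (.x 1) 7)))) (.mul (.k 2) (.mul (.k 47) (.pow (.x 1) 8)))) (.neg (.mul (.k 4) (.mul (.mul (.k 19) (.x 0)) (.pow (.x 1) 8))))) (.neg (.mul (.k 3) (.mul (.k 5) (.pow (.x 1) 9))))) (.neg (.mul (.k 3) (.mul (.mul (.k 3) (.x 0)) (.pow (.x 1) 9))))) (.neg (.mul (.k 8) (.mul (.k 1) (.pow (.x 1) 10))))) (.mul (.k 6) (.mul (.mul (.k 1) (.x 0)) (.pow (.x 1) 10)))) (.mul (.mul (.k 1) (.x 0)) (.pow (.x 1) 11))) nUT)) (.mul (.add (.add (.add (.mul (.k 2) (.add (.mul (.k 3) (.add (.mul (.k 4) (.add (.add (.mul (.k 6) (.pow (.x 1) 3)) (.neg (.mul (.k 10) (.pow (.x 1) 4)))) (.neg (.mul (.k 3)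 (.pow (.x 1) 5))))) (.mul (.k 27) (.pow (.x 1) 6)))) (.mul (.k 2) (.mul (.k 7) (.pow (.x 1) 7))))) (.neg (.mul (.k 3) (.mul (.k 5) (.pow (.x 1) 8))))) (.neg (.mul (.k 6) (.mul (.k 1) (.pow (.x 1) 9))))) (.neg (.mul (.k 1) (.pow (.x 1) 10)))) nVT)) (.mul (.k 2) (.mul (.add (.add (.add (.add (.add (.add (.add (.mul (.k 8) (.add (.add (.mul (.k 3) (.add (.add (.add (.mul (.k 16) (.pow (.x 1) 3)) (.neg (.mul (.k 22) (.pow (.x 1) 4)))) (.mul (.k 3) (.pow (.x 1) 5))) (.mul (.mul (.k 11) (.x 0)) (.pow (.x 1) 5)))) (.mul (.k 5) (.pow (.x 1) 6))) (.neg (.mul (.k 3) (.mul (.mul (.k 11) (.x 0)) (.pow (.x 1) 6)))))) (.neg (.mul (.k 13) (.pow (.x 1) 7)))) (.mul (.k 12) (.mul (.mul (.k 3) (.x 0)) (.pow (.x 1) 7)))) (.mul (.k 2) (.mul (.k 5) (.pow (.x 1) 8)))) (.mul (.k 4) (.mul (.mul (.k 5) (.x 0)) (.pow (.x 1) 8)))) (.mul (.k 3) (.mul (.k 1) (.pow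 (.x 1) 9)))) (.neg (.mul (.k 4) (.mul (.mul (.k 5) (.x 0)) (.pow (.x 1) 9))))) (.neg (.mul (.k 4) (.mul (.mul (.k 1) (.x 0)) (.pow (.x 1) 10))))) nGT))) (.mul (.add (.add (.add (.mul (.k 4) (.add (.mul (.k 3) (.add (.mul (.k 2) (.add (.mul (.k 9) (.pow (.x 1) 4)) (.neg (.mul (.k 11) (.pow (.x 1) 5))))) (.mul (.k 3) (.pow (.x 1) 6)))) (.mul (.k 5) (.pow (.x 1) 7)))) (.neg (.mul (.k 11) (.pow (.x 1) 8)))) (.mul (.k 2) (.mul (.k 1) (.pow (.x 1) 9)))) (.mul (.k 1) (.pow (.x 1) 10))) nWT)) (.add (.x 0) (.bar 0))) (.add (.x 1) (.bar 1)))) (K := 48)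
    (by decide +kernel) he ht (by norm_num) <| by
    simp only [atPt, endL2, sem_nGT, sem_nNT, sem_nUT, sem_nVT, sem_nWT, E.sem, Matrix.cons_val_zero, Matrix.cons_val_one]
    push_cast
    ring

lemma endL3_nonneg {e t : ℝ} (he : e ∈ Icc (0 : ℝ) 1) (ht : t ∈ Icc (0 : ℝ) 1) :
    0 ≤ atPt endL3 e t :=
  E.nonneg_of_scaled (p := (.add (.add (.add (.add (.mul (.k 4) (.mul (.add (.add (.add (.add (.mul (.k 4) (.add (.mul (.k 4) (.add (.mul (.k 9) (.pow (.x 1) 3)) (.neg (.mul (.k 12) (.pow (.x 1) 4))))) (.mul (.k 9) (.pow (.x 1) 6)))) (.neg (.mul (.k 13) (.pow (.x 1) 7)))) (.mul (.k 15) (.pow (.x 1) 8))) (.mul (.k 9) (.pow (.x 1) 9))) (.mul (.k 1) (.pow (.x 1) 10))) nNT)) (.mul (.add (.add (.add (.add (.add (.add (.add (.add (.add (.add (.mul (.k 2) (.add (.add (.add (.add (.add (.mul (.k 4) (.add (.add (.mul (.k 4) (.add (.add (.add (.mul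 (.k 27) (.pow (.x 1) 2)) (.neg (.mul (.k 2) (.mul (.k 15) (.pow (.x 1) 3))))) (.neg (.mul (.k 2) (.mul (.k 42) (.pow (.x 1) 4))))) (.mul (.mul (.k 27) (.x 0)) (.pow (.x 1) 4)))) (.mul (.k 525) (.pow (.x 1) 5))) (.neg (.mul (.k 8) (.mul (.mul (.k 15) (.x 0)) (.pow (.x 1) 5)))))) (.neg (.mul (.k 655) (.pow (.x 1) 6)))) (.neg (.mul (.k 1) (.pow (.x 1) 7)))) (.neg (.mul (.k 4) (.mul (.mul (.k 3) (.x 0)) (.pow (.x 1) 7))))) (.mul (.k 107) (.pow (.x 1) 8))) (.neg (.mul (.mul (.k 79) (.x 0)) (.pow (.x 1) 8))))) (.neg (.mul (.k 243) (.pow (.x 1) 9)))) (.mul (.k 2) (.mul (.mul (.k 63) (.x 0)) (.pow (.x 1) 9)))) (.neg (.mul (.k 77) (.pow (.x 1) 10)))) (.mul (.k 2) (.mul (.mul (.k 39) (.x 0)) (.pow (.x 1) 10)))) (.mul (.k 1) (.pow (.x 1) 11))) (.mul (.mul (.k 37) (.x 0)) (.pow (.x 1) 11))) (.mul (.k 1) (.pow (.x 1) 12))) (.mul (.mul (.k 27) (.x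 0)) (.pow (.x 1) 12))) (.mul (.mul (.k 9) (.x 0)) (.pow (.x 1) 13))) (.mul (.mul (.k 1) (.x 0)) (.pow (.x 1) 14))) nUT)) (.mul (.add (.add (.add (.add (.mul (.k 2) (.add (.add (.add (.mul (.k 4) (.add (.mul (.k 4) (.add (.mul (.k 9) (.pow (.x 1) 3)) (.neg (.mul (.k 18) (.pow (.x 1) 4))))) (.mul (.k 39) (.pow (.x 1) 6)))) (.mul (.k 27) (.pow (.x 1) 7))) (.neg (.mul (.k 3) (.pow (.x 1) 8)))) (.neg (.mul (.k 3) (.pow (.x 1) 9))))) (.neg (.mul (.k 29) (.pow (.x 1) 10)))) (.neg (.mul (.k 27) (.pow (.x 1) 11)))) (.neg (.mul (.k 9) (.pow (.x 1) 12)))) (.neg (.mul (.k 1) (.pow (.x 1) 13)))) nVT)) (.mul (.k 2) (.mul (.add (.add (.add (.add (.add (.mul (.k 2) (.add (.add (.add (.add (.add (.mul (.k 8) (.add (.add (.add (.mul (.k 2) (.add (.add (.mul (.k 19) (.pow (.x 1) 3)) (.neg (.mul (.k 33) (.pow (.x 1) 4)))) (.mul (.k 9) (.pow (.x 1) 5))))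 (.mul (.mul (.k 25) (.x 0)) (.pow (.x 1) 5))) (.mul (.k 2) (.pow (.x 1) 6))) (.neg (.mul (.mul (.k 33) (.x 0)) (.pow (.x 1) 6))))) (.mul (.k 1) (.pow (.x 1) 7))) (.mul (.k 8) (.mul (.mul (.k 9) (.x 0)) (.pow (.x 1) 7)))) (.mul (.k 47) (.pow (.x 1) 8))) (.mul (.k 8) (.mul (.mul (.k 1) (.x 0)) (.pow (.x 1) 8)))) (.mul (.k 15) (.pow (.x 1) 9)))) (.neg (.mul (.mul (.k 53) (.x 0)) (.pow (.x 1) 9)))) (.mul (.k 2) (.mul (.k 1) (.pow (.x 1) 10)))) (.mul (.mul (.k 11) (.x 0)) (.pow (.x 1) 10))) (.mul (.mul (.k 9) (.x 0)) (.pow (.x 1) 11))) (.mul (.mul (.k 1) (.x 0)) (.pow (.x 1) 12))) nGT))) (.mul (.add (.add (.add (.add (.mul (.k 16) (.add (.add (.add (.mul (.k 21) (.pow (.x 1) 4)) (.neg (.mul (.k 33) (.pow (.x 1) 5)))) (.mul (.k 9) (.pow (.x 1) 6))) (.mul (.k 1) (.pow (.x 1) 7)))) (.neg (.mul (.k 17) (.pow (.x 1) 8)))) (.mul (.k 35) (.pow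 (.x 1) 9))) (.mul (.k 13) (.pow (.x 1) 10))) (.mul (.k 1) (.pow (.x 1) 11))) nWT))) (K := 64)
    (by decide +kernel) he ht (by norm_num) <| by
    simp only [atPt, endL3, sem_nGT, sem_nNT, sem_nUT, sem_nVT, sem_nWT, E.sem, Matrix.cons_val_zero, Matrix.cons_val_one]
    push_cast
    ring

lemma endR1_nonneg {e t : ℝ} (he : e ∈ Icc (0 : ℝ) 1) (ht : t ∈ Icc (0 : ℝ) 1) :
    0 ≤ atPt endR1 e t :=
  E.nonneg_of_scaled (p := (.add (.mul (.k 2) (.add (.add (.add (.mul (.k 6) (.mul (.add (.add (.add (.add (.mul (.k 4) (.add (.add (.add (.mul (.k 4) (.x 1)) (.neg (.mul (.k 12) (.pow (.x 1) 2)))) (.mul (.k 14) (.pow (.x 1) 3))) (.neg (.mul (.k 6) (.pow (.x 1) 4))))) (.neg (.mul (.k 11) (.pow (.x 1) 5)))) (.mul (.k 13) (.pow (.x 1) 6))) (.neg (.mul (.k 1) (.pow (.x 1) 7)))) (.neg (.mul (.k 1) (.pow (.x 1) 8)))) nNT)) (.mul (.add (.add (.add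 (.add (.add (.add (.add (.add (.add (.add (.add (.add (.add (.add (.add (.mul (.k 8) (.add (.add (.mul (.k 3) (.add (.add (.add (.k 6) (.neg (.mul (.k 18) (.x 1)))) (.mul (.k 13) (.pow (.x 1) 2))) (.mul (.mul (.k 6) (.x 0)) (.pow (.x 1) 2)))) (.mul (.k 73) (.pow (.x 1) 3))) (.neg (.mul (.k 3) (.mul (.mul (.k 18) (.x 0)) (.pow (.x 1) 3)))))) (.neg (.mul (.k 1603) (.pow (.x 1) 4)))) (.mul (.k 24) (.mul (.mul (.k 21) (.x 0)) (.pow (.x 1) 4)))) (.mul (.k 1381) (.pow (.x 1) 5))) (.neg (.mul (.k 8) (.mul (.mul (.k 23) (.x 0)) (.pow (.x 1) 5))))) (.neg (.mul (.k 245) (.pow (.x 1) 6)))) (.neg (.mul (.k 3) (.mul (.mul (.k 33) (.x 0)) (.pow (.x 1) 6))))) (.neg (.mul (.k 175) (.pow (.x 1) 7)))) (.mul (.k 3) (.mul (.mul (.k 23) (.x 0)) (.pow (.x 1) 7)))) (.mul (.k 4) (.mul (.k 11) (.pow (.x 1) 8)))) (.neg (.mul (.mul (.k 25) (.x 0)) (.pow (.x 1)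 8)))) (.neg (.mul (.k 6) (.mul (.k 1) (.pow (.x 1) 9))))) (.mul (.k 3) (.mul (.mul (.k 3) (.x 0)) (.pow (.x 1) 9)))) (.neg (.mul (.k 4) (.mul (.k 1) (.pow (.x 1) 10))))) (.mul (.k 12) (.mul (.mul (.k 1) (.x 0)) (.pow (.x 1) 10)))) (.mul (.k 2) (.mul (.mul (.k 1) (.x 0)) (.pow (.x 1) 11)))) nUT)) (.mul (.add (.add (.add (.add (.add (.add (.mul (.k 4) (.add (.mul (.k 3) (.add (.add (.mul (.k 4) (.x 1)) (.neg (.mul (.k 12) (.pow (.x 1) 2)))) (.mul (.k 14) (.pow (.x 1) 3)))) (.neg (.mul (.k 26) (.pow (.x 1) 4))))) (.neg (.mul (.k 3) (.mul (.k 11) (.pow (.x 1) 5))))) (.mul (.k 3) (.mul (.k 29) (.pow (.x 1) 6)))) (.mul (.k 13) (.pow (.x 1) 7))) (.neg (.mul (.k 3) (.mul (.k 7) (.pow (.x 1) 8))))) (.neg (.mul (.k 12) (.pow (.x 1) 9)))) (.neg (.mul (.k 2) (.mul (.k 1) (.pow (.x 1) 10))))) nVT)) (.mul (.add (.add (.add (.add (.add (.add (.add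 (.mul (.k 2) (.add (.add (.add (.add (.mul (.k 4) (.add (.add (.add (.add (.mul (.k 3) (.add (.mul (.k 4) (.x 1)) (.neg (.mul (.k 16) (.pow (.x 1) 2))))) (.mul (.k 88) (.pow (.x 1) 3))) (.mul (.k 3) (.mul (.mul (.k 2) (.x 0)) (.pow (.x 1) 3)))) (.neg (.mul (.k 82) (.pow (.x 1) 4)))) (.neg (.mul (.k 3) (.mul (.mul (.k 8) (.x 0)) (.pow (.x 1) 4)))))) (.mul (.k 67) (.pow (.x 1) 5))) (.mul (.k 4) (.mul (.mul (.k 53) (.x 0)) (.pow (.x 1) 5)))) (.mul (.k 2) (.mul (.k 25) (.pow (.x 1) 6)))) (.neg (.mul (.k 4) (.mul (.mul (.k 41) (.x 0)) (.pow (.x 1) 6)))))) (.neg (.mul (.k 7) (.pow (.x 1) 7)))) (.mul (.mul (.k 31) (.x 0)) (.pow (.x 1) 7))) (.mul (.k 2) (.mul (.k 5) (.pow (.x 1) 8)))) (.mul (.k 2) (.mul (.mul (.k 19) (.x 0)) (.pow (.x 1) 8)))) (.mul (.k 3) (.mul (.k 1) (.pow (.x 1) 9)))) (.neg (.mul (.mul (.k 17) (.x 0)) (.pow (.x 1) 9))))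 (.neg (.mul (.k 4) (.mul (.mul (.k 1) (.x 0)) (.pow (.x 1) 10))))) nGT))) (.mul (.add (.add (.add (.add (.add (.mul (.k 8) (.add (.add (.mul (.k 3) (.add (.mul (.k 2) (.pow (.x 1) 2)) (.neg (.mul (.k 8) (.pow (.x 1) 3))))) (.mul (.k 47) (.pow (.x 1) 4))) (.neg (.mul (.k 41) (.pow (.x 1) 5))))) (.mul (.k 55) (.pow (.x 1) 6))) (.mul (.k 2) (.mul (.k 23) (.pow (.x 1) 7)))) (.neg (.mul (.k 8) (.mul (.k 1) (.pow (.x 1) 8))))) (.mul (.k 2) (.mul (.k 1) (.pow (.x 1) 9)))) (.mul (.k 1) (.pow (.x 1) 10))) nWT))) (K := 48)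
    (by decide +kernel) he ht (by norm_num) <| by
    simp only [atPt, endR1, sem_nGT, sem_nNT, sem_nUT, sem_nVT, sem_nWT, E.sem, Matrix.cons_val_zero, Matrix.cons_val_one]
    push_cast
    ring

lemma endR2_nonneg {e t : ℝ} (he : e ∈ Icc (0 : ℝ) 1) (ht : t ∈ Icc (0 : ℝ) 1) :
    0 ≤ atPt endR2 e t :=
  E.nonneg_of_scaled (p := (.add (.add (.add (.add (.mul (.k 2) (.mul (.add (.add (.add (.add (.add (.add (.mul (.k 40) (.x 1)) (.neg (.mul (.k 3) (.mul (.k 28) (.pow (.x 1) 2))))) (.mul (.k 3) (.mul (.k 14) (.pow (.x 1) 3)))) (.mul (.k 13) (.pow (.x 1) 4))) (.neg (.mul (.k 3) (.mul (.k 5) (.pow (.x 1) 5))))) (.mul (.k 3) (.pow (.x 1) 6))) (.mul (.k 1) (.pow (.x 1) 7))) nNT)) (.mul (.add (.add (.add (.add (.add (.add (.add (.add (.add (.add (.add (.mul (.k 2) (.add (.add (.mul (.k 3) (.add (.k 20) (.neg (.mul (.k 42) (.x 1))))) (.neg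 (.mul (.k 17) (.pow (.x 1) 2)))) (.mul (.k 3) (.mul (.mul (.k 20) (.x 0)) (.pow (.x 1) 2))))) (.mul (.k 487) (.pow (.x 1) 3))) (.neg (.mul (.k 6) (.mul (.mul (.k 42) (.x 0)) (.pow (.x 1) 3))))) (.neg (.mul (.k 3) (.mul (.k 167) (.pow (.x 1) 4))))) (.mul (.k 6) (.mul (.mul (.k 21) (.x 0)) (.pow (.x 1) 4)))) (.mul (.k 193) (.pow (.x 1) 5))) (.mul (.k 3) (.mul (.mul (.k 13) (.x 0)) (.pow (.x 1) 5)))) (.mul (.k 11) (.pow (.x 1) 6))) (.neg (.mul (.k 3) (.mul (.mul (.k 15) (.x 0)) (.pow (.x 1) 6))))) (.neg (.mul (.k 6) (.mul (.k 4) (.pow (.x 1) 7))))) (.mul (.k 3) (.mul (.mul (.k 3) (.x 0)) (.pow (.x 1) 7)))) (.mul (.k 3) (.mul (.mul (.k 1) (.x 0)) (.pow (.x 1) 8)))) nUT)) (.mul (.add (.add (.add (.add (.add (.add (.mul (.k 40) (.x 1)) (.neg (.mul (.k 3) (.mul (.k 28) (.pow (.x 1) 2))))) (.mul (.k 3) (.mul (.k 14) (.pow (.x 1) 3)))) (.mul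 (.k 13) (.pow (.x 1) 4))) (.neg (.mul (.k 3) (.mul (.k 5) (.pow (.x 1) 5))))) (.mul (.k 3) (.pow (.x 1) 6))) (.mul (.k 1) (.pow (.x 1) 7))) nVT)) (.mul (.k 2) (.mul (.add (.add (.add (.add (.add (.add (.add (.add (.add (.add (.add (.mul (.k 40) (.x 1)) (.neg (.mul (.k 112) (.pow (.x 1) 2)))) (.mul (.k 110) (.pow (.x 1) 3))) (.mul (.mul (.k 20) (.x 0)) (.pow (.x 1) 3))) (.neg (.mul (.k 46) (.pow (.x 1) 4)))) (.neg (.mul (.mul (.k 56) (.x 0)) (.pow (.x 1) 4)))) (.mul (.k 1) (.pow (.x 1) 5))) (.mul (.mul (.k 61) (.x 0)) (.pow (.x 1) 5))) (.mul (.k 7) (.pow (.x 1) 6))) (.neg (.mul (.mul (.k 23) (.x 0)) (.pow (.x 1) 6)))) (.neg (.mul (.mul (.k 4) (.x 0)) (.pow (.x 1) 7)))) (.mul (.mul (.k 2) (.x 0)) (.pow (.x 1) 8))) nGT))) (.mul (.add (.add (.add (.add (.add (.mul (.k 20) (.pow (.x 1) 2)) (.neg (.mul (.k 56) (.pow (.x 1) 3)))) (.mul (.k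 3) (.mul (.k 19) (.pow (.x 1) 4)))) (.neg (.mul (.k 23) (.pow (.x 1) 5)))) (.neg (.mul (.k 1) (.pow (.x 1) 6)))) (.mul (.k 3) (.pow (.x 1) 7))) nWT))) (K := 6)
    (by decide +kernel) he ht (by norm_num) <| by
    simp only [atPt, endR2, sem_nGT, sem_nNT, sem_nUT, sem_nVT, sem_nWT, E.sem, Matrix.cons_val_zero, Matrix.cons_val_one]
    push_cast
    ring

lemma endR3_nonneg {e t : ℝ} (he : e ∈ Icc (0 : ℝ) 1) (ht : t ∈ Icc (0 : ℝ) 1) :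
    0 ≤ atPt endR3 e t :=
  E.nonneg_of_scaled (p := (.add (.add (.add (.mul (.k 2) (.add (.mul (.add (.add (.mul (.k 32) (.x 1)) (.neg (.mul (.k 48) (.pow (.x 1) 2)))) (.mul (.k 16) (.pow (.x 1) 4))) nNT) (.mul (.add (.add (.add (.add (.add (.add (.add (.k 48) (.neg (.mul (.k 72) (.x 1)))) (.neg (.mul (.k 64) (.pow (.x 1) 2)))) (.mul (.mul (.k 48) (.x 0)) (.pow (.x 1) 2))) (.mul (.k 152) (.pow (.x 1) 3))) (.neg (.mul (.mul (.k 72) (.x 0)) (.pow (.x 1) 3)))) (.neg (.mul (.k 64) (.pow (.x 1) 4)))) (.mul (.mul (.k 24) (.x 0)) (.pow (.x 1) 5))) nUT))) (.mul (.add (.add (.mul (.k 32) (.x 1)) (.neg (.mul (.k 48) (.pow (.x 1) 2)))) (.mul (.k 16) (.pow (.x 1) 4))) nVT)) (.mul (.k 2) (.mul (.add (.add (.add (.add (.add (.mul (.k 32) (.x 1)) (.neg (.mul (.k 64) (.pow (.x 1) 2)))) (.mul (.k 32) (.pow (.x 1) 3))) (.mul (.mul (.k 16) (.x 0)) (.pow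 (.x 1) 3))) (.neg (.mul (.mul (.k 32) (.x 0)) (.pow (.x 1) 4)))) (.mul (.mul (.k 16) (.x 0)) (.pow (.x 1) 5))) nGT))) (.mul (.add (.add (.mul (.k 16) (.pow (.x 1) 2)) (.neg (.mul (.k 32) (.pow (.x 1) 3)))) (.mul (.k 16) (.pow (.x 1) 4))) nWT))) (K := 2)
    (by decide +kernel) he ht (by norm_num) <| by
    simp only [atPt, endR3, sem_nGT, sem_nNT, sem_nUT, sem_nVT, sem_nWT, E.sem, Matrix.cons_val_zero, Matrix.cons_val_one]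
    push_cast
    ring

end Vale.Agent.P219.CH.Relax.Five.InP
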