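import Vale.Agent.P219.Relax.Five.InTree

/-!
# P219, dimension five: signs of the coefficients inside the diameter

Each is nonnegative in the Bernstein basis of the unit square of `(e, t)`, by the kernel check.
-/

noncomputable section

open Set

namespace Vale.Agent.P219.CH.Relax.Five.InP

open Vale.Agent.P219.Poly (E)

lemma mix01_nonneg {e t : ℝ} (he : e ∈ Icc (0 : ℝ) 1) (ht : t ∈ Icc (0 : ℝ) 1) :
    0 ≤ atPt mix01 e t :=
  E.nonneg_of_scaled (p := (.add (.add (.add (.mul (.k 2) (.add (.mul (.k 3) (.mul (.mul (.k 4) (.x 1)) nNT)) (.mul (.add (.add (.mul (.k 3) (.k 6)) (.mul (.k 8) (.x 1))) (.mul (.k 3) (.mul (.mul (.k 6) (.x 0)) (.pow (.x 1) 2)))) nUT))) (.mul (.k 3) (.mul (.mul (.k 4) (.x 1)) nVT))) (.mul (.k 2) (.mul (.add (.k (-2)) (.neg (.mul (.mul (.k 4) (.x 0)) (.pow (.x 1) 2)))) nGT))) (.mul (.mul (.k (-2)) (.x 1)) nWT))) (K := 6)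
    (by decide +kernel) he ht (by norm_num) <| by
    simp only [atPt, mix01, sem_nGT, sem_nNT, sem_nUT, sem_nVT, sem_nWT, E.sem, Matrix.cons_val_zero, Matrix.cons_val_one]
    push_cast
    ring

lemma mix02_nonneg {e t : ℝ} (he : e ∈ Icc (0 : ℝ) 1) (ht : t ∈ Icc (0 : ℝ) 1) :
    0 ≤ atPt mix02 e t :=
  E.nonneg_of_scaled (p := (.add (.add (.add (.mul (.k 2) (.add (.mul (.k 3) (.mul (.mul (.k 4) (.x 1)) nNT)) (.mul (.add (.add (.k 19) (.mul (.k 16) (.x 1))) (.mul (.mul (.k 19) (.x 0)) (.pow (.x 1) 2))) nUT))) (.mul (.mul (.k 10) (.x 1)) nVT)) (.mul (.k 2) (.mul (.add (.k (-4)) (.neg (.mul (.mul (.k 8) (.x 0)) (.pow (.x 1) 2)))) nGT))) (.mul (.mul (.k (-4)) (.x 1)) nWT))) (K := 6)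
    (by decide +kernel) he ht (by norm_num) <| by
    simp only [atPt, mix02, sem_nGT, sem_nNT, sem_nUT, sem_nVT, sem_nWT, E.sem, Matrix.cons_val_zero, Matrix.cons_val_one]
    push_cast
    ring

lemma mix03_nonneg {e t : ℝ} (he : e ∈ Icc (0 : ℝ) 1) (ht : t ∈ Icc (0 : ℝ) 1) :
    0 ≤ atPt mix03 e t :=
  E.nonneg_of_scaled (p := (.add (.add (.add (.mul (.k 2) (.add (.mul (.mul (.k 4) (.x 1)) nNT) (.mul (.add (.add (.k 7) (.mul (.k 8) (.x 1))) (.mul (.mul (.k 7) (.x 0)) (.pow (.x 1) 2))) nUT))) (.mul (.mul (.k 2) (.x 1)) nVT)) (.mul (.add (.k (-5)) (.neg (.mul (.mul (.k 7) (.x 0)) (.pow (.x 1) 2)))) nGT)) (.mul (.mul (.k (-2)) (.x 1)) nWT))) (K := 2)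
    (by decide +kernel) he ht (by norm_num) <| by
    simp only [atPt, mix03, sem_nGT, sem_nNT, sem_nUT, sem_nVT, sem_nWT, E.sem, Matrix.cons_val_zero, Matrix.cons_val_one]
    push_cast
    ring

lemma mix11_nonneg {e t : ℝ} (he : e ∈ Icc (0 : ℝ) 1) (ht : t ∈ Icc (0 : ℝ) 1) :
    0 ≤ atPt mix11 e t :=
  E.nonneg_of_scaled (p := (.add (.add (.mul (.k 2) (.add (.mul (.k 9) (.mul (.mul (.k 4) (.x 1)) nNT)) (.mul (.add (.k 52) (.mul (.mul (.k 56) (.x 0)) (.pow (.x 1) 2))) nUT))) (.mul (.k 9) (.mul (.mul (.k 4) (.x 1)) nVT))) (.mul (.k 2) (.mul (.add (.add (.mul (.k 3) (.k 2)) (.mul (.k 16) (.x 1))) (.neg (.mul (.k 3) (.mul (.mul (.k 2) (.x 0)) (.pow (.x 1) 2))))) nGT)))) (K := 18)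
    (by decide +kernel) he ht (by norm_num) <| by
    simp only [atPt, mix11, sem_nGT, sem_nNT, sem_nUT, sem_nVT, E.sem, Matrix.cons_val_zero, Matrix.cons_val_one]
    push_cast
    ring

lemma mix12_nonneg {e t : ℝ} (he : e ∈ Icc (0 : ℝ) 1) (ht : t ∈ Icc (0 : ℝ) 1) :
    0 ≤ atPt mix12 e t :=
  E.nonneg_of_scaled (p := (.add (.add (.add (.mul (.k 2) (.add (.mul (.k 9) (.mul (.mul (.k 4) (.x 1)) nNT)) (.mul (.add (.add (.k 53) (.mul (.k 3) (.mul (.k 8) (.x 1)))) (.mul (.mul (.k 61) (.x 0)) (.pow (.x 1) 2))) nUT))) (.mul (.k 3) (.mul (.mul (.k 10) (.x 1)) nVT))) (.mul (.add (.add (.k 1) (.mul (.k 2) (.mul (.k 32) (.x 1)))) (.neg (.mul (.k 3) (.mul (.mul (.k 11) (.x 0)) (.pow (.x 1) 2))))) nGT)) (.mul (.mul (.k (-8)) (.x 1)) nWT))) (K := 18)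
    (by decide +kernel) he ht (by norm_num) <| by
    simp only [atPt, mix12, sem_nGT, sem_nNT, sem_nUT, sem_nVT, sem_nWT, E.sem, Matrix.cons_val_zero, Matrix.cons_val_one]
    push_cast
    ring

lemma mix13_nonneg {e t : ℝ} (he : e ∈ Icc (0 : ℝ) 1) (ht : t ∈ Icc (0 : ℝ) 1) :
    0 ≤ atPt mix13 e t :=
  E.nonneg_of_scaled (p := (.add (.add (.add (.mul (.k 2) (.add (.mul (.k 3) (.mul (.mul (.k 4) (.x 1)) nNT)) (.mul (.add (.add (.k 19) (.mul (.k 16) (.x 1))) (.mul (.mul (.k 23) (.x 0)) (.pow (.x 1) 2))) nUT))) (.mul (.k 3) (.mul (.mul (.k 2) (.x 1)) nVT))) (.mul (.k 2) (.mul (.add (.add (.mul (.k 3) (.k (-1))) (.mul (.k 16) (.x 1))) (.neg (.mul (.mul (.k 7) (.x 0)) (.pow (.x 1) 2)))) nGT))) (.mul (.k 3) (.mul (.mul (.k (-2)) (.x 1)) nWT)))) (K := 6)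
    (by decide +kernel) he ht (by norm_num) <| by
    simp only [atPt, mix13, sem_nGT, sem_nNT, sem_nUT, sem_nVT, sem_nWT, E.sem, Matrix.cons_val_zero, Matrix.cons_val_one]
    push_cast
    ring

lemma mix21_nonneg {e t : ℝ} (he : e ∈ Icc (0 : ℝ) 1) (ht : t ∈ Icc (0 : ℝ) 1) :
    0 ≤ atPt mix21 e t :=
  E.nonneg_of_scaled (p := (.add (.add (.add (.mul (.k 2) (.add (.mul (.k 9) (.mul (.mul (.k 4) (.x 1)) nNT)) (.mul (.add (.add (.k 53) (.neg (.mul (.k 3) (.mul (.k 8) (.x 1))))) (.mul (.mul (.k 61) (.x 0)) (.pow (.x 1) 2))) nUT))) (.mul (.k 3) (.mul (.mul (.k 10) (.x 1)) nVT))) (.mul (.add (.add (.mul (.k 3) (.k 11)) (.mul (.k 2) (.mul (.k 32) (.x 1)))) (.neg (.mul (.mul (.k 1) (.x 0)) (.pow (.x 1) 2)))) nGT)) (.mul (.mul (.k 8) (.x 1)) nWT))) (K := 18)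
    (by decide +kernel) he ht (by norm_num) <| by
    simp only [atPt, mix21, sem_nGT, sem_nNT, sem_nUT, sem_nVT, sem_nWT, E.sem, Matrix.cons_val_zero, Matrix.cons_val_one]
    push_cast
    ring

lemma mix22_nonneg {e t : ℝ} (he : e ∈ Icc (0 : ℝ) 1) (ht : t ∈ Icc (0 : ℝ) 1) :
    0 ≤ atPt mix22 e t :=
  E.nonneg_of_scaled (p := (.add (.add (.mul (.k 2) (.add (.mul (.k 9) (.mul (.mul (.k 4) (.x 1)) nNT)) (.mul (.add (.k 52) (.mul (.mul (.k 68) (.x 0)) (.pow (.x 1) 2))) nUT))) (.mul (.k 3) (.mul (.mul (.k 8) (.x 1)) nVT))) (.mul (.k 2) (.mul (.add (.add (.k 10) (.mul (.k 64) (.x 1))) (.neg (.mul (.mul (.k 10) (.x 0)) (.pow (.x 1) 2)))) nGT)))) (K := 18)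
    (by decide +kernel) he ht (by norm_num) <| by
    simp only [atPt, mix22, sem_nGT, sem_nNT, sem_nUT, sem_nVT, E.sem, Matrix.cons_val_zero, Matrix.cons_val_one]
    push_cast
    ring

lemma mix23_nonneg {e t : ℝ} (he : e ∈ Icc (0 : ℝ) 1) (ht : t ∈ Icc (0 : ℝ) 1) :
    0 ≤ atPt mix23 e t :=
  E.nonneg_of_scaled (p := (.add (.add (.add (.mul (.k 2) (.add (.mul (.k 3) (.mul (.mul (.k 4) (.x 1)) nNT)) (.mul (.add (.add (.mul (.k 3) (.k 6)) (.mul (.k 8) (.x 1))) (.mul (.mul (.k 26) (.x 0)) (.pow (.x 1) 2))) nUT))) (.mul (.mul (.k 4) (.x 1)) nVT)) (.mul (.k 2) (.mul (.add (.mul (.k 32) (.x 1)) (.neg (.mul (.mul (.k 4) (.x 0)) (.pow (.x 1) 2)))) nGT))) (.mul (.mul (.k (-4)) (.x 1)) nWT))) (K := 6)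
    (by decide +kernel) he ht (by norm_num) <| by
    simp only [atPt, mix23, sem_nGT, sem_nNT, sem_nUT, sem_nVT, sem_nWT, E.sem, Matrix.cons_val_zero, Matrix.cons_val_one]
    push_cast
    ring

lemma mix31_nonneg {e t : ℝ} (he : e ∈ Icc (0 : ℝ) 1) (ht : t ∈ Icc (0 : ℝ) 1) :
    0 ≤ atPt mix31 e t :=
  E.nonneg_of_scaled (p := (.add (.add (.add (.mul (.k 2) (.add (.mul (.k 3) (.mul (.mul (.k 4) (.x 1)) nNT)) (.mul (.add (.add (.k 19) (.neg (.mul (.k 16) (.x 1)))) (.mul (.mul (.k 23) (.x 0)) (.pow (.x 1) 2))) nUT))) (.mul (.k 3) (.mul (.mul (.k 2) (.x 1)) nVT))) (.mul (.k 2) (.mul (.add (.add (.k 7) (.mul (.k 16) (.x 1))) (.mul (.k 3) (.mul (.x 0) (.pow (.x 1) 2)))) nGT))) (.mul (.k 3) (.mul (.mul (.k 2) (.x 1)) nWT)))) (K := 6)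
    (by decide +kernel) he ht (by norm_num) <| by
    simp only [atPt, mix31, sem_nGT, sem_nNT, sem_nUT, sem_nVT, sem_nWT, E.sem, Matrix.cons_val_zero, Matrix.cons_val_one]
    push_cast
    ring

lemma mix32_nonneg {e t : ℝ} (he : e ∈ Icc (0 : ℝ) 1) (ht : t ∈ Icc (0 : ℝ) 1) :
    0 ≤ atPt mix32 e t :=
  E.nonneg_of_scaled (p := (.add (.add (.add (.mul (.k 2) (.add (.mul (.k 3) (.mul (.mul (.k 4) (.x 1)) nNT)) (.mul (.add (.add (.mul (.k 3) (.k 6)) (.neg (.mul (.k 8) (.x 1)))) (.mul (.mul (.k 26) (.x 0)) (.pow (.x 1) 2))) nUT))) (.mul (.mul (.k 4) (.x 1)) nVT)) (.mul (.k 2) (.mul (.add (.k 4) (.mul (.k 32) (.x 1))) nGT))) (.mul (.mul (.k 4) (.x 1)) nWT))) (K := 6)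
    (by decide +kernel) he ht (by norm_num) <| by
    simp only [atPt, mix32, sem_nGT, sem_nNT, sem_nUT, sem_nVT, sem_nWT, E.sem, Matrix.cons_val_zero, Matrix.cons_val_one]
    push_cast
    ring

lemma mix33_nonneg {e t : ℝ} (he : e ∈ Icc (0 : ℝ) 1) (ht : t ∈ Icc (0 : ℝ) 1) :
    0 ≤ atPt mix33 e t :=
  E.nonneg_of_scaled (p := (.add (.add (.mul (.mul (.k 4) (.x 1)) nNT) (.mul (.add (.k 6) (.mul (.mul (.k 10) (.x 0)) (.pow (.x 1) 2))) nUT)) (.mul (.mul (.k 16) (.x 1)) nGT))) (K := 1)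
    (by decide +kernel) he ht (by norm_num) <| by
    simp only [atPt, mix33, sem_nGT, sem_nNT, sem_nUT, E.sem, Matrix.cons_val_zero, Matrix.cons_val_one]
    push_cast
    ring

end Vale.Agent.P219.CH.Relax.Five.InP
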