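import Vale.Agent.P219.Relax.Five.InTree

/-!
# P219, dimension five: signs of the coefficients inside the diameter

Each is nonnegative in the Bernstein basis of the unit square of `(e, t)`, by the kernel check.
-/

noncomputable section

open Set

namespace Vale.Agent.P219.CH.Relax.Five.InP

open Vale.Agent.P219.Poly (E)

lemma outw00_nonneg {e t : ℝ} (he : e ∈ Icc (0 : ℝ) 1) (ht : t ∈ Icc (0 : ℝ) 1) :
    0 ≤ atPt outw00 e t :=
  E.nonneg_of_scaled (p := (.add (.mul (.k 2) (.add (.mul (.mul (.k 4) (.x 1)) nNT) (.mul (.add (.k 6) (.mul (.mul (.k 6) (.x 0)) (.pow (.x 1) 2))) nUT))) (.mul (.mul (.k 4) (.x 1)) nVT))) (K := 2)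
    (by decide +kernel) he ht (by norm_num) <| by
    simp only [atPt, outw00, sem_nNT, sem_nUT, sem_nVT, E.sem, Matrix.cons_val_zero, Matrix.cons_val_one]
    push_cast
    ring

lemma outw01_nonneg {e t : ℝ} (he : e ∈ Icc (0 : ℝ) 1) (ht : t ∈ Icc (0 : ℝ) 1) :
    0 ≤ atPt outw01 e t :=
  E.nonneg_of_scaled (p := (.add (.add (.add (.mul (.k 2) (.add (.mul (.k 3) (.mul (.mul (.k 4) (.x 1)) nNT)) (.mul (.add (.add (.mul (.k 3) (.k 6)) (.mul (.k 8) (.x 1))) (.mul (.k 3) (.mul (.mul (.k 6) (.x 0)) (.pow (.x 1) 2)))) nUT))) (.mul (.k 3) (.mul (.mul (.k 4) (.x 1)) nVT))) (.mul (.k 2) (.mul (.add (.k (-2)) (.neg (.mul (.mul (.k 4) (.x 0)) (.pow (.x 1) 2)))) nGT))) (.mul (.mul (.k (-2)) (.x 1)) nWT))) (K := 6)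
    (by decide +kernel) he ht (by norm_num) <| by
    simp only [atPt, outw01, sem_nGT, sem_nNT, sem_nUT, sem_nVT, sem_nWT, E.sem, Matrix.cons_val_zero, Matrix.cons_val_one]
    push_cast
    ring

lemma outw02_nonneg {e t : ℝ} (he : e ∈ Icc (0 : ℝ) 1) (ht : t ∈ Icc (0 : ℝ) 1) :
    0 ≤ atPt outw02 e t :=
  E.nonneg_of_scaled (p := (.add (.add (.add (.mul (.k 2) (.add (.mul (.k 3) (.mul (.mul (.k 4) (.x 1)) nNT)) (.mul (.add (.add (.k 19) (.mul (.k 16) (.x 1))) (.mul (.mul (.k 19) (.x 0)) (.pow (.x 1) 2))) nUT))) (.mul (.mul (.k 10) (.x 1)) nVT)) (.mul (.k 2) (.mul (.add (.k (-4)) (.neg (.mul (.mul (.k 8) (.x 0)) (.pow (.x 1) 2)))) nGT))) (.mul (.mul (.k (-4)) (.x 1)) nWT))) (K := 6)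
    (by decide +kernel) he ht (by norm_num) <| by
    simp only [atPt, outw02, sem_nGT, sem_nNT, sem_nUT, sem_nVT, sem_nWT, E.sem, Matrix.cons_val_zero, Matrix.cons_val_one]
    push_cast
    ring

lemma outw03_nonneg {e t : ℝ} (he : e ∈ Icc (0 : ℝ) 1) (ht : t ∈ Icc (0 : ℝ) 1) :
    0 ≤ atPt outw03 e t :=
  E.nonneg_of_scaled (p := (.add (.add (.add (.mul (.k 2) (.add (.mul (.mul (.k 4) (.x 1)) nNT) (.mul (.add (.add (.k 7) (.mul (.k 8) (.x 1))) (.mul (.mul (.k 7) (.x 0)) (.pow (.x 1) 2))) nUT))) (.mul (.mul (.k 2) (.x 1)) nVT)) (.mul (.add (.k (-5)) (.neg (.mul (.mul (.k 7) (.x 0)) (.pow (.x 1) 2)))) nGT)) (.mul (.mul (.k (-2)) (.x 1)) nWT))) (K := 2)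
    (by decide +kernel) he ht (by norm_num) <| by
    simp only [atPt, outw03, sem_nGT, sem_nNT, sem_nUT, sem_nVT, sem_nWT, E.sem, Matrix.cons_val_zero, Matrix.cons_val_one]
    push_cast
    ring

lemma outw11_nonneg {e t : ℝ} (he : e ∈ Icc (0 : ℝ) 1) (ht : t ∈ Icc (0 : ℝ) 1) :
    0 ≤ atPt outw11 e t :=
  E.nonneg_of_scaled (p := (.add (.add (.mul (.k 3) (.add (.mul (.k 2) (.add (.mul (.k 3) (.mul (.mul (.k 4) (.x 1)) nNT)) (.mul (.add (.add (.mul (.k 3) (.k 6)) (.mul (.k 16) (.x 1))) (.mul (.k 3) (.mul (.mul (.k 6) (.x 0)) (.pow (.x 1) 2)))) nUT))) (.mul (.k 3) (.mul (.mul (.k 4) (.x 1)) nVT)))) (.mul (.k 2) (.mul (.add (.add (.mul (.k 3) (.k (-4))) (.neg (.mul (.k 16) (.x 1)))) (.neg (.mul (.k 3) (.mul (.mul (.k 8) (.x 0)) (.pow (.x 1) 2))))) nGT))) (.mul (.k 3) (.mul (.mul (.k (-4)) (.x 1)) nWT)))) (K := 18)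
    (by decide +kernel) he ht (by norm_num) <| by
    simp only [atPt, outw11, sem_nGT, sem_nNT, sem_nUT, sem_nVT, sem_nWT, E.sem, Matrix.cons_val_zero, Matrix.cons_val_one]
    push_cast
    ring

lemma outw12_nonneg {e t : ℝ} (he : e ∈ Icc (0 : ℝ) 1) (ht : t ∈ Icc (0 : ℝ) 1) :
    0 ≤ atPt outw12 e t :=
  E.nonneg_of_scaled (p := (.add (.add (.mul (.k 3) (.add (.mul (.k 2) (.add (.mul (.k 3) (.mul (.mul (.k 4) (.x 1)) nNT)) (.mul (.add (.add (.k 19) (.mul (.k 3) (.mul (.k 8) (.x 1)))) (.mul (.mul (.k 19) (.x 0)) (.pow (.x 1) 2))) nUT))) (.mul (.mul (.k 10) (.x 1)) nVT))) (.mul (.add (.add (.mul (.k 3) (.k (-13))) (.neg (.mul (.k 2) (.mul (.k 32) (.x 1))))) (.neg (.mul (.mul (.k 73) (.x 0)) (.pow (.x 1) 2)))) nGT)) (.mul (.mul (.k (-16)) (.x 1)) nWT))) (K := 18)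
    (by decide +kernel) he ht (by norm_num) <| by
    simp only [atPt, outw12, sem_nGT, sem_nNT, sem_nUT, sem_nVT, sem_nWT, E.sem, Matrix.cons_val_zero, Matrix.cons_val_one]
    push_cast
    ring

lemma outw13_nonneg {e t : ℝ} (he : e ∈ Icc (0 : ℝ) 1) (ht : t ∈ Icc (0 : ℝ) 1) :
    0 ≤ atPt outw13 e t :=
  E.nonneg_of_scaled (p := (.add (.add (.add (.mul (.k 2) (.add (.mul (.k 3) (.mul (.mul (.k 4) (.x 1)) nNT)) (.mul (.add (.add (.mul (.k 3) (.k 7)) (.mul (.k 32) (.x 1))) (.mul (.k 3) (.mul (.mul (.k 7) (.x 0)) (.pow (.x 1) 2)))) nUT))) (.mul (.k 3) (.mul (.mul (.k 2) (.x 1)) nVT))) (.mul (.k 2) (.mul (.add (.add (.k (-11)) (.neg (.mul (.k 16) (.x 1)))) (.neg (.mul (.k 3) (.mul (.mul (.k 5) (.x 0)) (.pow (.x 1) 2))))) nGT))) (.mul (.k 3) (.mul (.mul (.k (-2)) (.x 1)) nWT)))) (K := 6)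
    (by decide +kernel) he ht (by norm_num) <| by
    simp only [atPt, outw13, sem_nGT, sem_nNT, sem_nUT, sem_nVT, sem_nWT, E.sem, Matrix.cons_val_zero, Matrix.cons_val_one]
    push_cast
    ring

lemma outw22_nonneg {e t : ℝ} (he : e ∈ Icc (0 : ℝ) 1) (ht : t ∈ Icc (0 : ℝ) 1) :
    0 ≤ atPt outw22 e t :=
  E.nonneg_of_scaled (p := (.add (.add (.mul (.k 3) (.add (.mul (.k 2) (.add (.mul (.k 3) (.mul (.mul (.k 4) (.x 1)) nNT)) (.mul (.add (.add (.k 20) (.mul (.k 32) (.x 1))) (.mul (.mul (.k 20) (.x 0)) (.pow (.x 1) 2))) nUT))) (.mul (.mul (.k 8) (.x 1)) nVT))) (.mul (.k 2) (.mul (.add (.add (.mul (.k 3) (.k (-10))) (.neg (.mul (.k 64) (.x 1)))) (.neg (.mul (.mul (.k 50) (.x 0)) (.pow (.x 1) 2)))) nGT))) (.mul (.mul (.k (-16)) (.x 1)) nWT))) (K := 18)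
    (by decide +kernel) he ht (by norm_num) <| by
    simp only [atPt, outw22, sem_nGT, sem_nNT, sem_nUT, sem_nVT, sem_nWT, E.sem, Matrix.cons_val_zero, Matrix.cons_val_one]
    push_cast
    ring

lemma outw23_nonneg {e t : ℝ} (he : e ∈ Icc (0 : ℝ) 1) (ht : t ∈ Icc (0 : ℝ) 1) :
    0 ≤ atPt outw23 e t :=
  E.nonneg_of_scaled (p := (.add (.add (.add (.mul (.k 2) (.add (.mul (.k 3) (.mul (.mul (.k 4) (.x 1)) nNT)) (.mul (.add (.add (.k 22) (.mul (.k 40) (.x 1))) (.mul (.mul (.k 22) (.x 0)) (.pow (.x 1) 2))) nUT))) (.mul (.mul (.k 4) (.x 1)) nVT)) (.mul (.k 2) (.mul (.add (.add (.k (-16)) (.neg (.mul (.k 32) (.x 1)))) (.neg (.mul (.mul (.k 20) (.x 0)) (.pow (.x 1) 2)))) nGT))) (.mul (.mul (.k (-4)) (.x 1)) nWT))) (K := 6)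
    (by decide +kernel) he ht (by norm_num) <| by
    simp only [atPt, outw23, sem_nGT, sem_nNT, sem_nUT, sem_nVT, sem_nWT, E.sem, Matrix.cons_val_zero, Matrix.cons_val_one]
    push_cast
    ring

lemma outw33_nonneg {e t : ℝ} (he : e ∈ Icc (0 : ℝ) 1) (ht : t ∈ Icc (0 : ℝ) 1) :
    0 ≤ atPt outw33 e t :=
  E.nonneg_of_scaled (p := (.add (.add (.mul (.mul (.k 4) (.x 1)) nNT) (.mul (.add (.add (.k 8) (.mul (.k 16) (.x 1))) (.mul (.mul (.k 8) (.x 0)) (.pow (.x 1) 2))) nUT)) (.mul (.add (.add (.k (-8)) (.neg (.mul (.k 16) (.x 1)))) (.neg (.mul (.mul (.k 8) (.x 0)) (.pow (.x 1) 2)))) nGT))) (K := 1)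
    (by decide +kernel) he ht (by norm_num) <| by
    simp only [atPt, outw33, sem_nGT, sem_nNT, sem_nUT, E.sem, Matrix.cons_val_zero, Matrix.cons_val_one]
    push_cast
    ring

lemma concT_nonneg {e t : ℝ} (he : e ∈ Icc (0 : ℝ) 1) (ht : t ∈ Icc (0 : ℝ) 1) :
    0 ≤ concT e t :=
  E.nonneg_of_scaled (p := (.neg (.add (.mul (.add (.add (.add (.add (.add (.add (.add (.add (.add (.add (.mul (.add (.add (.k (-4320)) (.mul (.k 3060) (.x 0))) (.neg (.mul (.k 180) (.pow (.x 0) 2)))) (.pow (.x 1) 0)) (.mul (.add (.add (.add (.add (.k (-5445)) (.mul (.k 9075) (.x 0))) (.neg (.mul (.k 4875) (.pow (.x 0) 2)))) (.mul (.k 1095) (.pow (.x 0) 3))) (.neg (.mul (.k 90) (.pow (.x 0) 4)))) (.mul (.k 2) (.x 1)))) (.mul (.add (.add (.add (.add (.k (-2727)) (.mul (.k 14073) (.x 0))) (.neg (.mul (.k 10929) (.pow (.x 0) 2)))) (.mul (.k 3477) (.pow (.x 0) 3))) (.neg (.mul (.k 774)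 (.pow (.x 0) 4)))) (.mul (.k 3) (.pow (.x 1) 2)))) (.mul (.add (.add (.add (.add (.add (.k 279) (.mul (.k 9494) (.x 0))) (.neg (.mul (.k 9612) (.pow (.x 0) 2)))) (.mul (.k 3366) (.pow (.x 0) 3))) (.neg (.mul (.k 587) (.pow (.x 0) 4)))) (.neg (.mul (.k 60) (.pow (.x 0) 5)))) (.mul (.k 4) (.pow (.x 1) 3)))) (.mul (.add (.add (.add (.add (.add (.k 441) (.mul (.k 1434) (.x 0))) (.neg (.mul (.k 1956) (.pow (.x 0) 2)))) (.neg (.mul (.k 2934) (.pow (.x 0) 3)))) (.mul (.k 2235) (.pow (.x 0) 4))) (.neg (.mul (.k 180) (.pow (.x 0) 5)))) (.mul (.k 5) (.pow (.x 1) 4)))) (.mul (.add (.add (.add (.add (.add (.mul (.k (-1301)) (.x 0)) (.mul (.k 1588) (.pow (.x 0) 2))) (.neg (.mul (.k 6936) (.pow (.x 0) 3)))) (.mul (.k 4826) (.pow (.x 0) 4))) (.neg (.mul (.k 583) (.pow (.x 0) 5)))) (.mul (.k 6) (.pow (.x 0) 6))) (.mul (.k 6) (.pow (.x 1) 5)))) (.mul (.add (.add (.add (.add (.add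 (.mul (.k (-279)) (.x 0)) (.mul (.k 564) (.pow (.x 0) 2))) (.neg (.mul (.k 7536) (.pow (.x 0) 3)))) (.mul (.k 7398) (.pow (.x 0) 4))) (.neg (.mul (.k 1605) (.pow (.x 0) 5)))) (.mul (.k 18) (.pow (.x 0) 6))) (.mul (.k 7) (.pow (.x 1) 6)))) (.mul (.add (.add (.add (.add (.mul (.k 629) (.pow (.x 0) 2)) (.neg (.mul (.k 6606) (.pow (.x 0) 3)))) (.mul (.k 7800) (.pow (.x 0) 4))) (.neg (.mul (.k 2414) (.pow (.x 0) 5)))) (.mul (.k 111) (.pow (.x 0) 6))) (.mul (.k 8) (.pow (.x 1) 7)))) (.mul (.add (.add (.add (.add (.mul (.k 171) (.pow (.x 0) 2)) (.neg (.mul (.k 2178) (.pow (.x 0) 3)))) (.mul (.k 5160) (.pow (.x 0) 4))) (.neg (.mul (.k 3042) (.pow (.x 0) 5)))) (.mul (.k 369) (.pow (.x 0) 6))) (.mul (.k 9) (.pow (.x 1) 8)))) (.mul (.add (.add (.add (.mul (.k (-135)) (.pow (.x 0) 3)) (.mul (.k 3105) (.pow (.x 0) 4))) (.neg (.mul (.k 2655) (.pow (.x 0) 5)))) (.mul (.k 405)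 (.pow (.x 0) 6))) (.mul (.k 10) (.pow (.x 1) 9)))) (.mul (.add (.add (.add (.mul (.k (-45)) (.pow (.x 0) 3)) (.mul (.k 1035) (.pow (.x 0) 4))) (.neg (.mul (.k 885) (.pow (.x 0) 5)))) (.mul (.k 135) (.pow (.x 0) 6))) (.mul (.k 11) (.pow (.x 1) 10)))) (.mul (.add (.k 1) (.x 1)) yfT)) (.neg (.mul (.add (.add (.add (.add (.add (.add (.add (.add (.add (.add (.add (.add (.add (.k (-1440)) (.mul (.k 1020) (.x 0))) (.neg (.mul (.k 60) (.pow (.x 0) 2)))) (.mul (.add (.add (.k (-4320)) (.mul (.k 3060) (.x 0))) (.neg (.mul (.k 180) (.pow (.x 0) 2)))) (.x 1))) (.mul (.add (.add (.add (.add (.k (-5445)) (.mul (.k 9075) (.x 0))) (.neg (.mul (.k 4875) (.pow (.x 0) 2)))) (.mul (.k 1095) (.pow (.x 0) 3))) (.neg (.mul (.k 90) (.pow (.x 0) 4)))) (.pow (.x 1) 2))) (.mul (.add (.add (.add (.add (.k (-2727)) (.mul (.k 14073) (.x 0))) (.neg (.mul (.k 10929) (.pow (.x 0) 2)))) (.mul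 (.k 3477) (.pow (.x 0) 3))) (.neg (.mul (.k 774) (.pow (.x 0) 4)))) (.pow (.x 1) 3))) (.mul (.add (.add (.add (.add (.add (.k 279) (.mul (.k 9494) (.x 0))) (.neg (.mul (.k 9612) (.pow (.x 0) 2)))) (.mul (.k 3366) (.pow (.x 0) 3))) (.neg (.mul (.k 587) (.pow (.x 0) 4)))) (.neg (.mul (.k 60) (.pow (.x 0) 5)))) (.pow (.x 1) 4))) (.mul (.add (.add (.add (.add (.add (.k 441) (.mul (.k 1434) (.x 0))) (.neg (.mul (.k 1956) (.pow (.x 0) 2)))) (.neg (.mul (.k 2934) (.pow (.x 0) 3)))) (.mul (.k 2235) (.pow (.x 0) 4))) (.neg (.mul (.k 180) (.pow (.x 0) 5)))) (.pow (.x 1) 5))) (.mul (.add (.add (.add (.add (.add (.mul (.k (-1301)) (.x 0)) (.mul (.k 1588) (.pow (.x 0) 2))) (.neg (.mul (.k 6936) (.pow (.x 0) 3)))) (.mul (.k 4826) (.pow (.x 0) 4))) (.neg (.mul (.k 583) (.pow (.x 0) 5)))) (.mul (.k 6) (.pow (.x 0) 6))) (.pow (.x 1) 6))) (.mul (.add (.add (.add (.add (.add (.mul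 (.k (-279)) (.x 0)) (.mul (.k 564) (.pow (.x 0) 2))) (.neg (.mul (.k 7536) (.pow (.x 0) 3)))) (.mul (.k 7398) (.pow (.x 0) 4))) (.neg (.mul (.k 1605) (.pow (.x 0) 5)))) (.mul (.k 18) (.pow (.x 0) 6))) (.pow (.x 1) 7))) (.mul (.add (.add (.add (.add (.mul (.k 629) (.pow (.x 0) 2)) (.neg (.mul (.k 6606) (.pow (.x 0) 3)))) (.mul (.k 7800) (.pow (.x 0) 4))) (.neg (.mul (.k 2414) (.pow (.x 0) 5)))) (.mul (.k 111) (.pow (.x 0) 6))) (.pow (.x 1) 8))) (.mul (.add (.add (.add (.add (.mul (.k 171) (.pow (.x 0) 2)) (.neg (.mul (.k 2178) (.pow (.x 0) 3)))) (.mul (.k 5160) (.pow (.x 0) 4))) (.neg (.mul (.k 3042) (.pow (.x 0) 5)))) (.mul (.k 369) (.pow (.x 0) 6))) (.pow (.x 1) 9))) (.mul (.add (.add (.add (.mul (.k (-135)) (.pow (.x 0) 3)) (.mul (.k 3105) (.pow (.x 0) 4))) (.neg (.mul (.k 2655) (.pow (.x 0) 5)))) (.mul (.k 405) (.pow (.x 0) 6))) (.pow (.x 1) 10))) (.mul (.add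 (.add (.add (.mul (.k (-45)) (.pow (.x 0) 3)) (.mul (.k 1035) (.pow (.x 0) 4))) (.neg (.mul (.k 885) (.pow (.x 0) 5)))) (.mul (.k 135) (.pow (.x 0) 6))) (.pow (.x 1) 11))) (.add (.mul (.k 3) yfT) (.neg (.mul (.mul (.mul (.k 8) (.x 0)) (.x 1)) (.add (.k 1) (.x 1)))))))))) (K := 1)
    (by decide +kernel) he ht (by norm_num) <| by
    simp only [concT, dsN, sN, sem_yfT, E.sem, Matrix.cons_val_zero, Matrix.cons_val_one]
    push_cast
    ring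

end Vale.Agent.P219.CH.Relax.Five.InP
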