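import Vale.Agent.P219.Relax.Five.Profile
import Vale.Agent.P219.Relax.Five.InPolyA
import Vale.Agent.P219.Relax.Five.InPolyB
import Vale.Agent.P219.Relax.Five.InPolyC
import Vale.Agent.P219.Relax.Five.InPolyD

/-!
# P219, dimension five: the facts inside the diameter

Over the common denominator every fact is a combination with nonnegative basis weights in the
cosines of coefficients that are nonnegative in `(e, t)`. The gain on the diagonal splits at the
contact, the bound with one cosine equal to one at `t ^ 2 * (3 + t) / 4`.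
-/

noncomputable section

open Set

namespace Vale.Agent.P219.CH.Relax.Five

namespace InP

/-- A cubic in the basis of an interval, `a` and `b` the distances from its ends. -/
def bs (a b c₀ c₁ c₂ c₃ : ℝ) : ℝ :=
  a ^ 3 * c₀ + 3 * a ^ 2 * b * c₁ + 3 * a * b ^ 2 * c₂ + b ^ 3 * c₃

lemma bs_nonneg {a b c₀ c₁ c₂ c₃ : ℝ} (ha : 0 ≤ a) (hb : 0 ≤ b) (h₀ : 0 ≤ c₀) (h₁ : 0 ≤ c₁)
    (h₂ : 0 ≤ c₂) (h₃ : 0 ≤ c₃) : 0 ≤ bs a b c₀ c₁ c₂ c₃ := by
  unfold bs
  positivity

/-- A point with data over a common denominator. -/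
def ptG (e t N U V G W : ℝ) : Pt :=
  ⟨U / N, V / N, G / N, W / N, (1 + e * t ^ 2) / (2 * t), (1 - e * t ^ 2) / (2 * t)⟩

variable {e t N U V G W c d : ℝ}

lemma nN_pos (he : e ∈ Ioo (0 : ℝ) 1) (ht : 0 ≤ t) : 0 < nN e t :=
  mul_pos (den_pos he) (pow_pos (by linarith) 3)

lemma ptIn_eq (he : e ∈ Ioo (0 : ℝ) 1) (ht : 0 < t) :
    ptIn e t = ptG e t (nN e t) (nU e t) (nV e t) (nG e t) (nW e t) := by
  have hd := (den_pos he).ne'
  have h1 : (1 : ℝ) + t ≠ 0 := by linarith
  simp only [ptIn, ptG, PF, PF', QF, QF', nN, nU, nV, nG, nW, yf, Pt.mk.injEq]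
  refine ⟨?_, ?_, ?_, ?_, trivial, trivial⟩ <;> field_simp <;> ring

lemma zero_eq (hN : N ≠ 0) (ht : t ≠ 0) (hc : 0 ≤ c) :
    2 * t * N * symB (ptG e t N U V G W) c 0 = bs (1 - c) c (zero0 e t N U V G W)
      (zero1 e t N U V G W) (zero2 e t N U V G W) (zero3 e t N U V G W) := by
  simp only [symB, ker, ptG, bs, zero0, zero1, zero2, zero3, abs_of_nonneg hc, abs_zero]
  field_simp
  ring

lemma gend_eq (hN : N ≠ 0) (ht : t ≠ 0) (hc : 3 + c ≠ 0) :
    2 * t * N * (3 + c) * (symE (ptG e t N U V G W) c + 2 * c * ((ptG e t N U V G W).g *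
        ((ptG e t N U V G W).U + (ptG e t N U V G W).G))) =
      bs (1 - c) c (gend0 e t N U V G W) (gend1 e t N U V G W) (gend2 e t N U V G W)
        (8 * diagR3 e t N U V G W) := by
  simp only [symE, ker, ptG, bs, gend0, gend1, gend2, diagR3]
  field_simp
  ring

lemma diagL_eq (hN : N ≠ 0) (ht : t ≠ 0) :
    2 * t * N * t ^ 3 * (diag (ptG e t N U V G W) c + c ^ 2 * ((ptG e t N U V G W).g *
        ((ptG e t N U V G W).U + (ptG e t N U V G W).G))) =
      bs (t - c) c (conv0 e t N U V G W) (diagL1 e t N U V G W) (diagL2 e t N U V G W)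
        (diagL3 e t N U V G W) := by
  simp only [diag, k0, k1, k2, k3, ptG, bs, conv0, diagL1, diagL2, diagL3]
  field_simp
  ring

lemma diagR_eq (hN : N ≠ 0) (ht : t ≠ 0) :
    2 * t * N * (1 - t) ^ 3 * (diag (ptG e t N U V G W) c + c ^ 2 * ((ptG e t N U V G W).g *
        ((ptG e t N U V G W).U + (ptG e t N U V G W).G))) =
      bs (1 - c) (c - t) (diagL3 e t N U V G W) (diagR1 e t N U V G W) (diagR2 e t N U V G W)
        (diagR3 e t N U V G W) := by
  simp only [diag, k0, k1, k2, k3, ptG, bs, diagL3, diagR1, diagR2, diagR3]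
  field_simp
  ring

lemma endL_eq (hN : N ≠ 0) (ht : t ≠ 0) (hc : 3 + c ≠ 0) :
    2 * t * N * (3 + c) * t ^ 3 * (t ^ 2 * (3 + t) / 4) ^ 3 * (symE (ptG e t N U V G W) c -
        c * (2 * diag (ptG e t N U V G W) t / t ^ 2 +
          slope (ptG e t N U V G W) t * (c + 1 - 2 * t))) =
      bs (t ^ 2 * (3 + t) / 4 - c) c (endL0 e t N U V G W) (endL1 e t N U V G W)
        (endL2 e t N U V G W) (endL3 e t N U V G W) := by
  simp only [symE, ker, diag, slope, k0, k1, k2, k3, ptG, bs, endL0, endL1, endL2, endL3]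
  field_simp
  ring

lemma endR_eq (hN : N ≠ 0) (ht : t ≠ 0) (hc : 3 + c ≠ 0) :
    2 * t * N * (3 + c) * t ^ 3 * (1 - t ^ 2 * (3 + t) / 4) ^ 3 * (symE (ptG e t N U V G W) c -
        c * (2 * diag (ptG e t N U V G W) t / t ^ 2 +
          slope (ptG e t N U V G W) t * (c + 1 - 2 * t))) =
      bs (1 - c) (c - t ^ 2 * (3 + t) / 4) (endL3 e t N U V G W) (endR1 e t N U V G W)
        (endR2 e t N U V G W) (endR3 e t N U V G W) := by
  simp only [symE, ker, diag, slope, k0, k1, k2, k3, ptG, bs, endL3, endR1, endR2, endR3]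
  field_simp
  ring

lemma mixed_eq (hN : N ≠ 0) (ht : t ≠ 0) (hc : 0 ≤ c) (hd : 0 ≤ d) :
    2 * t * N * (symB (ptG e t N U V G W) c (-d) -
        2 * (c * d) * ((ptG e t N U V G W).g * (ptG e t N U V G W).U)) =
      bs (1 - c) c
        (bs (1 - d) d (zero0 e t N U V G W) (mix01 e t N U V G W) (mix02 e t N U V G W)
          (mix03 e t N U V G W))
        (bs (1 - d) d (zero1 e t N U V G W) (mix11 e t N U V G W) (mix12 e t N U V G W)
          (mix13 e t N U V G W))
        (bs (1 - d) d (zero2 e t N U V G W) (mix21 e t N U V G W) (mix22 e t N U V G W)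
          (mix23 e t N U V G W))
        (bs (1 - d) d (zero3 e t N U V G W) (mix31 e t N U V G W) (mix32 e t N U V G W)
          (mix33 e t N U V G W)) := by
  simp only [symB, ker, ptG, bs, zero0, zero1, zero2, zero3, mix01, mix02, mix03, mix11, mix12,
    mix13, mix21, mix22, mix23, mix31, mix32, mix33, abs_of_nonneg hc, abs_neg, abs_of_nonneg hd]
  field_simp
  ring

lemma outward_eq (hN : N ≠ 0) (ht : t ≠ 0) (hc : 0 ≤ c) (hd : 0 ≤ d) :
    2 * t * N * symB (ptG e t N U V G W) (-c) (-d) =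
      bs (1 - c) c
        (bs (1 - d) d (outw00 e t N U V G W) (outw01 e t N U V G W) (outw02 e t N U V G W)
          (outw03 e t N U V G W))
        (bs (1 - d) d (outw01 e t N U V G W) (outw11 e t N U V G W) (outw12 e t N U V G W)
          (outw13 e t N U V G W))
        (bs (1 - d) d (outw02 e t N U V G W) (outw12 e t N U V G W) (outw22 e t N U V G W)
          (outw23 e t N U V G W))
        (bs (1 - d) d (outw03 e t N U V G W) (outw13 e t N U V G W) (outw23 e t N U V G W)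
          (outw33 e t N U V G W)) := by
  simp only [symB, ker, ptG, bs, outw00, outw01, outw02, outw03, outw11, outw12, outw13, outw22,
    outw23, outw33, abs_of_nonneg hc, abs_neg, abs_of_nonneg hd]
  field_simp
  ring

lemma slope_eq (hN : N ≠ 0) (ht : t ≠ 0) :
    2 * t * N * t ^ 3 * slope (ptG e t N U V G W) t = -slopeT e t N U V G W := by
  simp only [slope, k0, k1, k3, ptG, slopeT]
  field_simp
  ring

lemma sN_eq (e t : ℝ) : sN e t = -atPt slopeT e t := by
  simp only [sN, atPt, slopeT, nN, nU, nV, nG, nW, numA, numA', numB, numB', den, yf]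
  ring

lemma aSlope_eq (he : e ∈ Ioo (0 : ℝ) 1) (ht : t ∈ Ioc (0 : ℝ) 1) :
    aSlope e t = sN e t / (2 * den e * ((1 + t) ^ 3 * yf e t ^ 4)) := by
  have hN := (nN_pos he ht.1.le).ne'
  have hy := (yf_pos he (Ioc_subset_Icc_self ht)).ne'
  have h1 : (1 : ℝ) + t ≠ 0 := by linarith [ht.1]
  have hd := (den_pos he).ne'
  have ht0 := ht.1.ne'
  have h := slope_eq (e := e) (U := nU e t) (V := nV e t) (G := nG e t) (W := nW e t) hN ht0
  rw [← ptIn_eq he ht.1] at h
  rw [sN_eq, atPt, ← h, aSlope, nN]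
  field_simp

theorem conc {e : ℝ} (he : e ∈ Ioo (0 : ℝ) 1) : AntitoneOn (aSlope e) (Ioc 0 1) := by
  have hc := Ioo_subset_Icc_self he
  obtain ⟨D, hD⟩ : ∃ D : ℝ → ℝ, D = fun t => 2 * den e * ((1 + t) ^ 3 * yf e t ^ 4) := ⟨_, rfl⟩
  have hder : ∀ t ∈ Ioc (0 : ℝ) 1, HasDerivAt (fun x => sN e x / D x)
      (-concT e t / (2 * den e * ((1 + t) ^ 4 * yf e t ^ 5))) t := by
    intro t ht
    have hy := yf_pos he (Ioc_subset_Icc_self ht)
    have h1 : 0 < 1 + t := by linarith [ht.1]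
    have hd := den_pos he
    have hne : D t ≠ 0 := by rw [hD]; positivity
    have hyd : HasDerivAt (yf e) (-(e * (2 * t))) t := by
      have := ((hasDerivAt_pow 2 t).const_mul e).const_sub 1
      exact this.congr_deriv (by norm_num)
    have hDd : HasDerivAt D (2 * den e * (3 * (1 + t) ^ 2 * yf e t ^ 4 +
        (1 + t) ^ 3 * (4 * yf e t ^ 3 * (-(e * (2 * t)))))) t := by
      rw [hD]
      have ha : HasDerivAt (fun x : ℝ => (1 + x) ^ 3) (3 * (1 + t) ^ 2) t :=
        (((hasDerivAt_id' t).const_add 1).pow 3).congr_deriv (by norm_num)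
      exact (ha.mul (hyd.pow 4)).const_mul (2 * den e)
    refine ((hasDerivAt_sN e t).div hDd hne).congr_deriv ?_
    rw [concT, hD]
    have := hy.ne'
    have := h1.ne'
    have := hd.ne'
    field_simp
    ring
  refine AntitoneOn.congr (f₁ := fun x => sN e x / D x) ?_ fun t ht => by
    rw [aSlope_eq he ht, hD]
  refine antitoneOn_of_hasDerivWithinAt_nonpos (convex_Ioc 0 1)
    (fun t ht => (hder t ht).continuousAt.continuousWithinAt)
    (fun t ht => (hder t (interior_subset ht)).hasDerivWithinAt) fun t ht => ?_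
  have ht' := interior_subset ht
  have hy := yf_pos he (Ioc_subset_Icc_self ht')
  have h1 : 0 < 1 + t := by linarith [ht'.1]
  have hd := den_pos he
  exact div_nonpos_of_nonpos_of_nonneg
    (neg_nonpos.2 (concT_nonneg hc (Ioc_subset_Icc_self ht'))) (by positivity)

end InP

open InP

/-- The facts inside the diameter at one contact. -/
theorem in_point {e t : ℝ} (he : e ∈ Ioo (0 : ℝ) 1) (ht : t ∈ Ioc (0 : ℝ) 1) :
    GoodPt (ptIn e t) ∧ EndCond (ptIn e t) t ∧ slope (ptIn e t) t ≤ 0 := by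
  have hc' := Ioo_subset_Icc_self he
  have ht' := Ioc_subset_Icc_self ht
  have ht0 := ht.1
  obtain ⟨N, hN⟩ : ∃ N, N = nN e t := ⟨_, rfl⟩
  have hN0 : 0 < N := hN ▸ nN_pos he ht0.le
  have hM : 0 < 2 * t * N := by positivity
  have eo := ptIn_eq he ht0
  rw [← hN] at eo
  have hposW : 0 < nU e t + nG e t := by
    have h : (1 - e) ^ 2 ≤ atPt posW e t := sub_nonneg.1 (posW_nonneg hc' ht')
    simp only [atPt, posW, one_mul] at h
    exact lt_of_lt_of_le (pow_pos (sub_pos.2 he.2) 2) h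
  have hk0 : 0 ≤ k0 (ptIn e t) := by
    refine nonneg_of_mul_nonneg_right (a := 2 * t * N) ?_ hM
    refine (conv0_nonneg hc' ht').trans_eq ?_
    rw [eo, hN]
    have := (nN_pos he ht0.le).ne'
    simp only [atPt, conv0, k0, ptG]
    field_simp
    ring
  have hk1 : 0 ≤ 3 * k0 (ptIn e t) + k1 (ptIn e t) := by
    refine nonneg_of_mul_nonneg_right (a := 2 * t * N) ?_ hM
    refine (conv1_nonneg hc' ht').trans_eq ?_
    rw [eo, hN]
    have := (nN_pos he ht0.le).ne'
    simp only [atPt, conv1, k0, k1, ptG]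
    field_simp
    ring
  refine ⟨⟨?_, ?_, ?_, hk0, hk1, ?_, ?_, ?_, ?_, ?_⟩, ?_, ?_⟩
  · rw [eo]
    simp only [ptG, ← add_div]
    exact div_pos hposW hN0
  · rw [eo]
    have h := negG_nonneg hc' ht'
    simp only [atPt, negG] at h
    exact div_nonpos_of_nonpos_of_nonneg (by linarith) hN0.le
  · refine nonneg_of_mul_nonneg_right (a := 2 * t * N) ?_ hM
    refine (mono_nonneg hc' ht').trans_eq ?_
    rw [eo, hN]
    have := (nN_pos he ht0.le).ne'
    simp only [atPt, mono, ptG]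
    field_simp
    ring
  · rintro c ⟨hc0, hc1⟩
    refine nonneg_of_mul_nonneg_right (a := 2 * t * N) ?_ hM
    rw [eo, zero_eq hN0.ne' ht0.ne' hc0, hN]
    exact bs_nonneg (sub_nonneg.2 hc1) hc0 (zero0_nonneg hc' ht') (zero1_nonneg hc' ht')
      (zero2_nonneg hc' ht') (zero3_nonneg hc' ht')
  · rintro c ⟨hc0, hc1⟩
    rcases le_total c t with hct | hct
    · refine nonneg_of_mul_nonneg_right (a := 2 * t * N * t ^ 3) ?_ (by positivity)
      rw [eo, diagL_eq hN0.ne' ht0.ne', hN]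
      exact bs_nonneg (sub_nonneg.2 hct) hc0 (conv0_nonneg hc' ht') (diagL1_nonneg hc' ht')
        (diagL2_nonneg hc' ht') (diagL3_nonneg hc' ht')
    · rcases ht.2.eq_or_lt with h1 | h1
      · obtain rfl : c = t := le_antisymm (by linarith) hct
        refine nonneg_of_mul_nonneg_right (a := 2 * c * N * c ^ 3) ?_ (by positivity)
        rw [eo, diagL_eq hN0.ne' ht0.ne', hN]
        exact bs_nonneg (sub_self c).ge hc0 (conv0_nonneg hc' ht') (diagL1_nonneg hc' ht')
          (diagL2_nonneg hc' ht') (diagL3_nonneg hc' ht')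
      · refine nonneg_of_mul_nonneg_right (a := 2 * t * N * (1 - t) ^ 3) ?_
          (mul_pos hM (pow_pos (sub_pos.2 h1) 3))
        rw [eo, diagR_eq hN0.ne' ht0.ne', hN]
        exact bs_nonneg (sub_nonneg.2 hc1) (sub_nonneg.2 hct) (diagL3_nonneg hc' ht')
          (diagR1_nonneg hc' ht') (diagR2_nonneg hc' ht') (diagR3_nonneg hc' ht')
  · rintro c ⟨hc0, hc1⟩
    have h3 : 0 < 3 + c := by linarith
    refine nonneg_of_mul_nonneg_right (a := 2 * t * N * (3 + c)) ?_ (mul_pos hM h3)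
    rw [eo, gend_eq hN0.ne' ht0.ne' h3.ne', hN]
    exact bs_nonneg (sub_nonneg.2 hc1) hc0 (gend0_nonneg hc' ht') (gend1_nonneg hc' ht')
      (gend2_nonneg hc' ht') (mul_nonneg (by norm_num) (diagR3_nonneg hc' ht'))
  · rintro c ⟨hc0, hc1⟩ d ⟨hd0, hd1⟩
    rw [← sub_nonneg]
    refine nonneg_of_mul_nonneg_right (a := 2 * t * N) ?_ hM
    rw [eo, mixed_eq hN0.ne' ht0.ne' hc0 hd0, hN]
    exact bs_nonneg (sub_nonneg.2 hc1) hc0
      (bs_nonneg (sub_nonneg.2 hd1) hd0 (zero0_nonneg hc' ht') (mix01_nonneg hc' ht')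
        (mix02_nonneg hc' ht') (mix03_nonneg hc' ht'))
      (bs_nonneg (sub_nonneg.2 hd1) hd0 (zero1_nonneg hc' ht') (mix11_nonneg hc' ht')
        (mix12_nonneg hc' ht') (mix13_nonneg hc' ht'))
      (bs_nonneg (sub_nonneg.2 hd1) hd0 (zero2_nonneg hc' ht') (mix21_nonneg hc' ht')
        (mix22_nonneg hc' ht') (mix23_nonneg hc' ht'))
      (bs_nonneg (sub_nonneg.2 hd1) hd0 (zero3_nonneg hc' ht') (mix31_nonneg hc' ht')
        (mix32_nonneg hc' ht') (mix33_nonneg hc' ht'))
  · rintro c ⟨hc0, hc1⟩ d ⟨hd0, hd1⟩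
    refine nonneg_of_mul_nonneg_right (a := 2 * t * N) ?_ hM
    rw [eo, outward_eq hN0.ne' ht0.ne' hc0 hd0, hN]
    exact bs_nonneg (sub_nonneg.2 hc1) hc0
      (bs_nonneg (sub_nonneg.2 hd1) hd0 (outw00_nonneg hc' ht') (outw01_nonneg hc' ht')
        (outw02_nonneg hc' ht') (outw03_nonneg hc' ht'))
      (bs_nonneg (sub_nonneg.2 hd1) hd0 (outw01_nonneg hc' ht') (outw11_nonneg hc' ht')
        (outw12_nonneg hc' ht') (outw13_nonneg hc' ht'))
      (bs_nonneg (sub_nonneg.2 hd1) hd0 (outw02_nonneg hc' ht') (outw12_nonneg hc' ht')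
        (outw22_nonneg hc' ht') (outw23_nonneg hc' ht'))
      (bs_nonneg (sub_nonneg.2 hd1) hd0 (outw03_nonneg hc' ht') (outw13_nonneg hc' ht')
        (outw23_nonneg hc' ht') (outw33_nonneg hc' ht'))
  · rintro c ⟨hc0, hc1⟩
    have h3 : 0 < 3 + c := by linarith
    obtain ⟨A, hA⟩ : ∃ A, A = t ^ 2 * (3 + t) / 4 := ⟨_, rfl⟩
    have hA0 : 0 < A := hA ▸ by positivity
    have hA1 : t < 1 → A < 1 := fun h1 => by
      rw [hA]
      have : t ^ 2 < 1 := pow_lt_one₀ ht0.le h1 two_ne_zero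
      have : t ^ 2 * (3 + t) < 1 * (3 + t) := mul_lt_mul_of_pos_right this (by linarith)
      linarith
    rw [← sub_nonneg]
    by_cases hcA : c ≤ A
    · refine nonneg_of_mul_nonneg_right (a := 2 * t * N * (3 + c) * t ^ 3 * A ^ 3) ?_
        (by positivity)
      rw [hA, eo, endL_eq hN0.ne' ht0.ne' h3.ne', hN]
      exact bs_nonneg (by linarith) hc0 (endL0_nonneg hc' ht') (endL1_nonneg hc' ht')
        (endL2_nonneg hc' ht') (endL3_nonneg hc' ht')
    · have h1 : t < 1 := by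
        refine ht.2.lt_of_ne fun h => hcA ?_
        rw [hA, h]
        linarith
      have h2 : 0 < 1 - A := sub_pos.2 (hA1 h1)
      refine nonneg_of_mul_nonneg_right (a := 2 * t * N * (3 + c) * t ^ 3 * (1 - A) ^ 3) ?_
        (by positivity)
      rw [hA, eo, endR_eq hN0.ne' ht0.ne' h3.ne', hN]
      exact bs_nonneg (sub_nonneg.2 hc1) (by linarith [not_le.1 hcA]) (endL3_nonneg hc' ht')
        (endR1_nonneg hc' ht') (endR2_nonneg hc' ht') (endR3_nonneg hc' ht')
  · have h := slope_eq (e := e) (U := nU e t) (V := nV e t) (G := nG e t) (W := nW e t)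
      hN0.ne' ht0.ne'
    rw [← eo, hN] at h
    have h2 := slopeT_nonneg hc' ht'
    unfold atPt at h2
    rw [← hN] at h h2
    refine nonpos_of_mul_nonpos_right ?_ (mul_pos hM (pow_pos ht0 3))
    linarith

/-- The facts inside the diameter hold for every radius. -/
theorem inPin : InPin := fun _ he =>
  ⟨fun _ ht => (in_point he ht).1, fun _ ht => (in_point he ht).2.1,
    fun _ ht => (in_point he ht).2.2, InP.conc he⟩

end Vale.Agent.P219.CH.Relax.Five
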