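import Vale.Agent.P219.Relax.Five.Defs

/-!
# P219, dimension five: the coefficients inside the diameter

Over the common denominator the data of a point are the numerators `nN, nU, nV, nG, nW`. Each fact
is a combination with nonnegative basis weights of coefficients linear in them.
-/

noncomputable section

namespace Vale.Agent.P219.CH.Relax.Five.InP

/-- The common denominator. -/
def nN (e t : ℝ) : ℝ :=
  den e * (1 + t) ^ 3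

/-- The numerator of the weight at cosine zero. -/
def nU (e t : ℝ) : ℝ :=
  numA e t * (1 + t) ^ 2 - t * numB e t * (1 + t)

/-- The numerator of its derivative. -/
def nV (e t : ℝ) : ℝ :=
  yf e t / 2 * ((numA' e t * (1 + t) - numA e t) * (1 + t) - numB e t * (1 + t) -
    t * (numB' e t * (1 + t) - 2 * numB e t))

/-- The numerator of the slope in the cosine. -/
def nG (e t : ℝ) : ℝ :=
  numB e t * (1 + t)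

/-- The numerator of its derivative. -/
def nW (e t : ℝ) : ℝ :=
  yf e t / 2 * (numB' e t * (1 + t) - 2 * numB e t)

/-- A coefficient at the data of the contact `t`. -/
def atPt (f : ℝ → ℝ → ℝ → ℝ → ℝ → ℝ → ℝ → ℝ) (e t : ℝ) : ℝ :=
  f e t (nN e t) (nU e t) (nV e t) (nG e t) (nW e t)

/-- A coefficient. -/
def posW (_e _t _N U _V G _W : ℝ) : ℝ :=
  (1) * U + (1) * G

/-- A coefficient. -/
def negG (_e _t _N _U _V G _W : ℝ) : ℝ :=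
  (-1) * G

/-- A coefficient. -/
def mono (e t _N U V _G _W : ℝ) : ℝ :=
  (3 + 3 * e * t ^ 2) * U + (2 * t) * V

/-- A coefficient. -/
def conv0 (e t N U V _G _W : ℝ) : ℝ :=
  (2 * t) * N + (3 + 3 * e * t ^ 2) * U + (2 * t) * V

/-- A coefficient. -/
def conv1 (e t N U V G W : ℝ) : ℝ :=
  (6 * t) * N + (9 - 8 * t + 9 * e * t ^ 2) * U + (6 * t) * V + (4 + 2 * e * t ^ 2) * G + (2 * t) *
    W

/-- A coefficient. -/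
def slopeT (e t N U V G W : ℝ) : ℝ :=
  (4 * t) * N + (6 - 8 * t ^ 2 + 6 * e * t ^ 2) * U + (4 * t) * V + (4 * t + 2 * e * t ^ 3 - 2 * e *
    t ^ 5) * G + (2 * t ^ 2 + 2 * t ^ 4) * W

/-- A coefficient. -/
def zero0 (e t N U V _G _W : ℝ) : ℝ :=
  (4 * t) * N + (6 + 6 * e * t ^ 2) * U + (4 * t) * V

/-- A coefficient. -/
def zero1 (e t N U V G W : ℝ) : ℝ :=
  (4 * t) * N + (6 - (8 / 3) * t + 6 * e * t ^ 2) * U + (4 * t) * V + ((4 / 3) + (2 / 3) * e * t ^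
    2) * G + ((2 / 3) * t) * W

/-- A coefficient. -/
def zero2 (e t N U V G W : ℝ) : ℝ :=
  (4 * t) * N + ((19 / 3) - (16 / 3) * t + (19 / 3) * e * t ^ 2) * U + ((10 / 3) * t) * V + ((8 /
    3) + (4 / 3) * e * t ^ 2) * G + ((4 / 3) * t) * W

/-- A coefficient. -/
def zero3 (e t N U V G W : ℝ) : ℝ :=
  (4 * t) * N + (7 - 8 * t + 7 * e * t ^ 2) * U + (2 * t) * V + ((7 / 2) + (5 / 2) * e * t ^ 2) *
    G + (2 * t) * W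

/-- A coefficient. -/
def gend0 (e t N U V G W : ℝ) : ℝ :=
  (12 * t) * N + (21 - 24 * t + 21 * e * t ^ 2) * U + (6 * t) * V + (10 + 8 * e * t ^ 2) * G + (6 *
    t) * W

/-- A coefficient. -/
def gend1 (e t N U V G W : ℝ) : ℝ :=
  ((40 / 3) * t) * N + ((76 / 3) - (104 / 3) * t + (64 / 3) * e * t ^ 2) * U + ((20 / 3) * t) * V +
    ((52 / 3) - 16 * t + (32 / 3) * e * t ^ 2) * G + ((20 / 3) * t) * W

/-- A coefficient. -/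
def gend2 (e t N U V G W : ℝ) : ℝ :=
  ((44 / 3) * t) * N + ((94 / 3) - 48 * t + 22 * e * t ^ 2) * U + ((16 / 3) * t) * V + ((82 / 3) -
    (112 / 3) * t + (46 / 3) * e * t ^ 2) * G + ((16 / 3) * t) * W

/-- A coefficient. -/
def diagL1 (e t N U V G W : ℝ) : ℝ :=
  (2 * t) * N + (3 - (8 / 3) * t ^ 2 + 3 * e * t ^ 2) * U + (2 * t) * V + ((4 / 3) * t + (2 / 3) *
    e * t ^ 3) * G + ((2 / 3) * t ^ 2) * W

/-- A coefficient. -/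
def diagL2 (e t N U V G W : ℝ) : ℝ :=
  (2 * t) * N + (3 - (14 / 3) * t ^ 2 + 3 * e * t ^ 2) * U + (2 * t - (2 / 3) * t ^ 3) * V + ((8 /
    3) * t + (1 / 3) * t ^ 2 - (8 / 3) * t ^ 3 + (4 / 3) * e * t ^ 3 - (1 / 3) * e * t ^ 4) * G +
    ((4 / 3) * t ^ 2) * W

/-- A coefficient. -/
def diagL3 (e t N U V G W : ℝ) : ℝ :=
  (2 * t) * N + (3 - 6 * t ^ 2 + 3 * e * t ^ 2) * U + (2 * t - 2 * t ^ 3) * V + (4 * t + t ^ 2 - 8 *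
    t ^ 3 + 2 * e * t ^ 3 - e * t ^ 4 + 2 * e * t ^ 5) * G + (2 * t ^ 2 - 2 * t ^ 4) * W

/-- A coefficient. -/
def diagR1 (e t N U V G W : ℝ) : ℝ :=
  (2 * t) * N + (3 - (4 / 3) * t - (14 / 3) * t ^ 2 + 3 * e * t ^ 2) * U + (2 * t - (4 / 3) * t ^
    2 - (2 / 3) * t ^ 3) * V + ((4 / 3) + (10 / 3) * t - 5 * t ^ 2 + (2 / 3) * e * t ^ 2 - (8 / 3) *
    t ^ 3 + (2 / 3) * e * t ^ 3 + (5 / 3) * e * t ^ 4) * G + ((2 / 3) * t + (4 / 3) * t ^ 2 - 2 *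
    t ^ 3) * W

/-- A coefficient. -/
def diagR2 (e t N U V G W : ℝ) : ℝ :=
  (2 * t) * N + ((11 / 3) - 4 * t - (8 / 3) * t ^ 2 + 3 * e * t ^ 2) * U + ((4 / 3) * t - (4 / 3) *
    t ^ 2) * V + (3 - (2 / 3) * t - (16 / 3) * t ^ 2 + e * t ^ 2 + 2 * e * t ^ 3) * G + ((4 / 3) *
    t - (4 / 3) * t ^ 2) * W

/-- A coefficient. -/
def diagR3 (e t N U _V G _W : ℝ) : ℝ :=
  (2 * t) * N + (5 - 8 * t + 3 * e * t ^ 2) * U + (5 - 8 * t + 3 * e * t ^ 2) * G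

/-- A coefficient. -/
def endL0 (e t N U V G W : ℝ) : ℝ :=
  (12 * t ^ 4) * N + (21 * t ^ 3 - 24 * t ^ 4 + 21 * e * t ^ 5) * U + (6 * t ^ 4) * V + (10 * t ^
    3 + 8 * e * t ^ 5) * G + (6 * t ^ 4) * W

/-- A coefficient. -/
def endL1 (e t N U V G W : ℝ) : ℝ :=
  (3 * t ^ 3 + 4 * t ^ 4 - 3 * t ^ 5 + t ^ 6 + (1 / 3) * t ^ 7) * N + ((9 / 2) * t ^ 2 + 9 * t ^ 3 -
    (69 / 2) * t ^ 4 + (9 / 2) * e * t ^ 4 + (89 / 4) * t ^ 5 + 9 * e * t ^ 5 + (1 / 12) * t ^ 6 -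
    (9 / 2) * e * t ^ 6 - (8 / 3) * t ^ 7 + (1 / 4) * e * t ^ 7 + (1 / 12) * e * t ^ 8) * U + (3 *
    t ^ 3 - 2 * t ^ 4 - 3 * t ^ 5 + (7 / 2) * t ^ 6 + (7 / 6) * t ^ 7) * V + (13 * t ^ 3 - 11 * t ^
    4 + (19 / 2) * e * t ^ 5 + (4 / 3) * t ^ 6 - (11 / 2) * e * t ^ 6 + (2 / 3) * e * t ^ 8) * G +
    ((15 / 2) * t ^ 4 - (11 / 2) * t ^ 5 + (2 / 3) * t ^ 7) * W

/-- A coefficient. -/
def endL2 (e t N U V G W : ℝ) : ℝ :=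
  (6 * t ^ 3 - 4 * t ^ 4 - 3 * t ^ 5 + (7 / 4) * t ^ 6 - (1 / 2) * t ^ 7 - (1 / 4) * t ^ 8) * N +
    (9 * t ^ 2 - 3 * t ^ 3 - (81 / 2) * t ^ 4 + 9 * e * t ^ 4 + (353 / 8) * t ^ 5 - 3 * e * t ^ 5 -
    (91 / 12) * t ^ 6 - (9 / 2) * e * t ^ 6 - (169 / 48) * t ^ 7 + (1 / 8) * e * t ^ 7 + (47 / 24) *
    t ^ 8 - (19 / 12) * e * t ^ 8 - (5 / 16) * t ^ 9 - (3 / 16) * e * t ^ 9 - (1 / 6) * t ^ 10 +
    (1 / 8) * e * t ^ 10 + (1 / 48) * e * t ^ 11) * U + (6 * t ^ 3 - 10 * t ^ 4 - 3 * t ^ 5 + (27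
    / 4) * t ^ 6 + (7 / 6) * t ^ 7 - (5 / 8) * t ^ 8 - (1 / 4) * t ^ 9 - (1 / 24) * t ^ 10) * V +
    (16 * t ^ 3 - 22 * t ^ 4 + 3 * t ^ 5 + 11 * e * t ^ 5 + (5 / 3) * t ^ 6 - 11 * e * t ^ 6 - (13
    / 24) * t ^ 7 + (3 / 2) * e * t ^ 7 + (5 / 12) * t ^ 8 + (5 / 6) * e * t ^ 8 + (1 / 8) * t ^ 9 -
    (5 / 6) * e * t ^ 9 - (1 / 6) * e * t ^ 10) * G + (9 * t ^ 4 - 11 * t ^ 5 + (3 / 2) * t ^ 6 +
    (5 / 6) * t ^ 7 - (11 / 24) * t ^ 8 + (1 / 12) * t ^ 9 + (1 / 24) * t ^ 10) * W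

/-- A coefficient. -/
def endL3 (e t N U V G W : ℝ) : ℝ :=
  (9 * t ^ 3 - 12 * t ^ 4 + (9 / 4) * t ^ 6 - (13 / 16) * t ^ 7 + (15 / 16) * t ^ 8 + (9 / 16) * t ^
    9 + (1 / 16) * t ^ 10) * N + ((27 / 2) * t ^ 2 - 15 * t ^ 3 - 42 * t ^ 4 + (27 / 2) * e * t ^
    4 + (525 / 8) * t ^ 5 - 15 * e * t ^ 5 - (655 / 32) * t ^ 6 - (1 / 32) * t ^ 7 - (3 / 8) * e *
    t ^ 7 + (107 / 32) * t ^ 8 - (79 / 32) * e * t ^ 8 - (243 / 64) * t ^ 9 + (63 / 32) * e * t ^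
    9 - (77 / 64) * t ^ 10 + (39 / 32) * e * t ^ 10 + (1 / 64) * t ^ 11 + (37 / 64) * e * t ^ 11 +
    (1 / 64) * t ^ 12 + (27 / 64) * e * t ^ 12 + (9 / 64) * e * t ^ 13 + (1 / 64) * e * t ^ 14) *
    U + (9 * t ^ 3 - 18 * t ^ 4 + (39 / 4) * t ^ 6 + (27 / 16) * t ^ 7 - (3 / 16) * t ^ 8 - (3 /
    16) * t ^ 9 - (29 / 32) * t ^ 10 - (27 / 32) * t ^ 11 - (9 / 32) * t ^ 12 - (1 / 32) * t ^ 13) *
    V + (19 * t ^ 3 - 33 * t ^ 4 + 9 * t ^ 5 + (25 / 2) * e * t ^ 5 + t ^ 6 - (33 / 2) * e * t ^ 6 +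
    (1 / 16) * t ^ 7 + (9 / 2) * e * t ^ 7 + (47 / 16) * t ^ 8 + (1 / 2) * e * t ^ 8 + (15 / 16) *
    t ^ 9 - (53 / 32) * e * t ^ 9 + (1 / 16) * t ^ 10 + (11 / 32) * e * t ^ 10 + (9 / 32) * e * t ^
    11 + (1 / 32) * e * t ^ 12) * G + ((21 / 2) * t ^ 4 - (33 / 2) * t ^ 5 + (9 / 2) * t ^ 6 + (1
    / 2) * t ^ 7 - (17 / 32) * t ^ 8 + (35 / 32) * t ^ 9 + (13 / 32) * t ^ 10 + (1 / 32) * t ^ 11) *
    W

/-- A coefficient. -/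
def endR1 (e t N U V G W : ℝ) : ℝ :=
  (4 * t - 12 * t ^ 2 + 14 * t ^ 3 - 6 * t ^ 4 - (11 / 4) * t ^ 5 + (13 / 4) * t ^ 6 - (1 / 4) * t ^
    7 - (1 / 4) * t ^ 8) * N + (6 - 18 * t + 13 * t ^ 2 + 6 * e * t ^ 2 + (73 / 3) * t ^ 3 - 18 *
    e * t ^ 3 - (1603 / 24) * t ^ 4 + 21 * e * t ^ 4 + (1381 / 24) * t ^ 5 - (23 / 3) * e * t ^ 5 -
    (245 / 24) * t ^ 6 - (33 / 8) * e * t ^ 6 - (175 / 24) * t ^ 7 + (23 / 8) * e * t ^ 7 + (11 /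
    6) * t ^ 8 - (25 / 24) * e * t ^ 8 - (1 / 4) * t ^ 9 + (3 / 8) * e * t ^ 9 - (1 / 6) * t ^ 10 +
    (1 / 2) * e * t ^ 10 + (1 / 12) * e * t ^ 11) * U + (4 * t - 12 * t ^ 2 + 14 * t ^ 3 - (26 /
    3) * t ^ 4 - (11 / 4) * t ^ 5 + (29 / 4) * t ^ 6 + (13 / 12) * t ^ 7 - (7 / 4) * t ^ 8 - t ^ 9 -
    (1 / 6) * t ^ 10) * V + (4 * t - 16 * t ^ 2 + (88 / 3) * t ^ 3 + 2 * e * t ^ 3 - (82 / 3) * t ^
    4 - 8 * e * t ^ 4 + (67 / 12) * t ^ 5 + (53 / 3) * e * t ^ 5 + (25 / 6) * t ^ 6 - (41 / 3) * e *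
    t ^ 6 - (7 / 24) * t ^ 7 + (31 / 24) * e * t ^ 7 + (5 / 12) * t ^ 8 + (19 / 12) * e * t ^ 8 +
    (1 / 8) * t ^ 9 - (17 / 24) * e * t ^ 9 - (1 / 6) * e * t ^ 10) * G + (2 * t ^ 2 - 8 * t ^ 3 +
    (47 / 3) * t ^ 4 - (41 / 3) * t ^ 5 + (55 / 24) * t ^ 6 + (23 / 12) * t ^ 7 - (1 / 3) * t ^ 8 +
    (1 / 12) * t ^ 9 + (1 / 24) * t ^ 10) * W

/-- A coefficient. -/
def endR2 (e t N U V G W : ℝ) : ℝ :=
  ((40 / 3) * t - 28 * t ^ 2 + 14 * t ^ 3 + (13 / 3) * t ^ 4 - 5 * t ^ 5 + t ^ 6 + (1 / 3) * t ^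
    7) * N + (20 - 42 * t - (17 / 3) * t ^ 2 + 20 * e * t ^ 2 + (487 / 6) * t ^ 3 - 42 * e * t ^ 3 -
    (167 / 2) * t ^ 4 + 21 * e * t ^ 4 + (193 / 6) * t ^ 5 + (13 / 2) * e * t ^ 5 + (11 / 6) * t ^
    6 - (15 / 2) * e * t ^ 6 - 4 * t ^ 7 + (3 / 2) * e * t ^ 7 + (1 / 2) * e * t ^ 8) * U + ((40 /
    3) * t - 28 * t ^ 2 + 14 * t ^ 3 + (13 / 3) * t ^ 4 - 5 * t ^ 5 + t ^ 6 + (1 / 3) * t ^ 7) * V +
    ((40 / 3) * t - (112 / 3) * t ^ 2 + (110 / 3) * t ^ 3 + (20 / 3) * e * t ^ 3 - (46 / 3) * t ^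
    4 - (56 / 3) * e * t ^ 4 + (1 / 3) * t ^ 5 + (61 / 3) * e * t ^ 5 + (7 / 3) * t ^ 6 - (23 / 3) *
    e * t ^ 6 - (4 / 3) * e * t ^ 7 + (2 / 3) * e * t ^ 8) * G + ((20 / 3) * t ^ 2 - (56 / 3) * t ^
    3 + 19 * t ^ 4 - (23 / 3) * t ^ 5 - (1 / 3) * t ^ 6 + t ^ 7) * W

/-- A coefficient. -/
def endR3 (e t N U V G W : ℝ) : ℝ :=
  (32 * t - 48 * t ^ 2 + 16 * t ^ 4) * N + (48 - 72 * t - 64 * t ^ 2 + 48 * e * t ^ 2 + 152 * t ^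
    3 - 72 * e * t ^ 3 - 64 * t ^ 4 + 24 * e * t ^ 5) * U + (32 * t - 48 * t ^ 2 + 16 * t ^ 4) * V +
    (32 * t - 64 * t ^ 2 + 32 * t ^ 3 + 16 * e * t ^ 3 - 32 * e * t ^ 4 + 16 * e * t ^ 5) * G +
    (16 * t ^ 2 - 32 * t ^ 3 + 16 * t ^ 4) * W

/-- A coefficient. -/
def mix01 (e t N U V G W : ℝ) : ℝ :=
  (4 * t) * N + (6 + (8 / 3) * t + 6 * e * t ^ 2) * U + (4 * t) * V + (-(2 / 3) - (4 / 3) * e * t ^
    2) * G + (-(2 / 3) * t) * W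

/-- A coefficient. -/
def mix02 (e t N U V G W : ℝ) : ℝ :=
  (4 * t) * N + ((19 / 3) + (16 / 3) * t + (19 / 3) * e * t ^ 2) * U + ((10 / 3) * t) * V + (-(4 /
    3) - (8 / 3) * e * t ^ 2) * G + (-(4 / 3) * t) * W

/-- A coefficient. -/
def mix03 (e t N U V G W : ℝ) : ℝ :=
  (4 * t) * N + (7 + 8 * t + 7 * e * t ^ 2) * U + (2 * t) * V + (-(5 / 2) - (7 / 2) * e * t ^ 2) *
    G + (-2 * t) * W

/-- A coefficient. -/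
def mix11 (e t N U V G _W : ℝ) : ℝ :=
  (4 * t) * N + ((52 / 9) + (56 / 9) * e * t ^ 2) * U + (4 * t) * V + ((2 / 3) + (16 / 9) * t - (2
    / 3) * e * t ^ 2) * G

/-- A coefficient. -/
def mix12 (e t N U V G W : ℝ) : ℝ :=
  (4 * t) * N + ((53 / 9) + (8 / 3) * t + (61 / 9) * e * t ^ 2) * U + ((10 / 3) * t) * V + ((1 /
    18) + (32 / 9) * t - (11 / 6) * e * t ^ 2) * G + (-(8 / 9) * t) * W

/-- A coefficient. -/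
def mix13 (e t N U V G W : ℝ) : ℝ :=
  (4 * t) * N + ((19 / 3) + (16 / 3) * t + (23 / 3) * e * t ^ 2) * U + (2 * t) * V + (-1 + (16 /
    3) * t - (7 / 3) * e * t ^ 2) * G + (-2 * t) * W

/-- A coefficient. -/
def mix21 (e t N U V G W : ℝ) : ℝ :=
  (4 * t) * N + ((53 / 9) - (8 / 3) * t + (61 / 9) * e * t ^ 2) * U + ((10 / 3) * t) * V + ((11 /
    6) + (32 / 9) * t - (1 / 18) * e * t ^ 2) * G + ((8 / 9) * t) * W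

/-- A coefficient. -/
def mix22 (e t N U V G _W : ℝ) : ℝ :=
  (4 * t) * N + ((52 / 9) + (68 / 9) * e * t ^ 2) * U + ((8 / 3) * t) * V + ((10 / 9) + (64 / 9) *
    t - (10 / 9) * e * t ^ 2) * G

/-- A coefficient. -/
def mix23 (e t N U V G W : ℝ) : ℝ :=
  (4 * t) * N + (6 + (8 / 3) * t + (26 / 3) * e * t ^ 2) * U + ((4 / 3) * t) * V + ((32 / 3) * t -
    (4 / 3) * e * t ^ 2) * G + (-(4 / 3) * t) * W

/-- A coefficient. -/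
def mix31 (e t N U V G W : ℝ) : ℝ :=
  (4 * t) * N + ((19 / 3) - (16 / 3) * t + (23 / 3) * e * t ^ 2) * U + (2 * t) * V + ((7 / 3) +
    (16 / 3) * t + e * t ^ 2) * G + (2 * t) * W

/-- A coefficient. -/
def mix32 (e t N U V G W : ℝ) : ℝ :=
  (4 * t) * N + (6 - (8 / 3) * t + (26 / 3) * e * t ^ 2) * U + ((4 / 3) * t) * V + ((4 / 3) + (32
    / 3) * t) * G + ((4 / 3) * t) * W

/-- A coefficient. -/
def mix33 (e t N U _V G _W : ℝ) : ℝ :=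
  (4 * t) * N + (6 + 10 * e * t ^ 2) * U + (16 * t) * G

/-- A coefficient. -/
def outw00 (e t N U V _G _W : ℝ) : ℝ :=
  (4 * t) * N + (6 + 6 * e * t ^ 2) * U + (4 * t) * V

/-- A coefficient. -/
def outw01 (e t N U V G W : ℝ) : ℝ :=
  (4 * t) * N + (6 + (8 / 3) * t + 6 * e * t ^ 2) * U + (4 * t) * V + (-(2 / 3) - (4 / 3) * e * t ^
    2) * G + (-(2 / 3) * t) * W

/-- A coefficient. -/
def outw02 (e t N U V G W : ℝ) : ℝ :=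
  (4 * t) * N + ((19 / 3) + (16 / 3) * t + (19 / 3) * e * t ^ 2) * U + ((10 / 3) * t) * V + (-(4 /
    3) - (8 / 3) * e * t ^ 2) * G + (-(4 / 3) * t) * W

/-- A coefficient. -/
def outw03 (e t N U V G W : ℝ) : ℝ :=
  (4 * t) * N + (7 + 8 * t + 7 * e * t ^ 2) * U + (2 * t) * V + (-(5 / 2) - (7 / 2) * e * t ^ 2) *
    G + (-2 * t) * W

/-- A coefficient. -/
def outw11 (e t N U V G W : ℝ) : ℝ :=
  (4 * t) * N + (6 + (16 / 3) * t + 6 * e * t ^ 2) * U + (4 * t) * V + (-(4 / 3) - (16 / 9) * t -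
    (8 / 3) * e * t ^ 2) * G + (-(4 / 3) * t) * W

/-- A coefficient. -/
def outw12 (e t N U V G W : ℝ) : ℝ :=
  (4 * t) * N + ((19 / 3) + 8 * t + (19 / 3) * e * t ^ 2) * U + ((10 / 3) * t) * V + (-(13 / 6) -
    (32 / 9) * t - (73 / 18) * e * t ^ 2) * G + (-(16 / 9) * t) * W

/-- A coefficient. -/
def outw13 (e t N U V G W : ℝ) : ℝ :=
  (4 * t) * N + (7 + (32 / 3) * t + 7 * e * t ^ 2) * U + (2 * t) * V + (-(11 / 3) - (16 / 3) * t -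
    5 * e * t ^ 2) * G + (-2 * t) * W

/-- A coefficient. -/
def outw22 (e t N U V G W : ℝ) : ℝ :=
  (4 * t) * N + ((20 / 3) + (32 / 3) * t + (20 / 3) * e * t ^ 2) * U + ((8 / 3) * t) * V + (-(10 /
    3) - (64 / 9) * t - (50 / 9) * e * t ^ 2) * G + (-(16 / 9) * t) * W

/-- A coefficient. -/
def outw23 (e t N U V G W : ℝ) : ℝ :=
  (4 * t) * N + ((22 / 3) + (40 / 3) * t + (22 / 3) * e * t ^ 2) * U + ((4 / 3) * t) * V + (-(16 /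
    3) - (32 / 3) * t - (20 / 3) * e * t ^ 2) * G + (-(4 / 3) * t) * W

/-- A coefficient. -/
def outw33 (e t N U _V G _W : ℝ) : ℝ :=
  (4 * t) * N + (8 + 16 * t + 8 * e * t ^ 2) * U + (-8 - 16 * t - 8 * e * t ^ 2) * G

/-- The slope at the contact, as a polynomial. -/
def sN (e t : ℝ) : ℝ :=
  (-1440 + 1020 * e - 60 * e ^ 2) + (-4320 + 3060 * e - 180 * e ^ 2) * t ^ 1 + (-5445 + 9075 * e -
    4875 * e ^ 2 + 1095 * e ^ 3 - 90 * e ^ 4) * t ^ 2 + (-2727 + 14073 * e - 10929 * e ^ 2 + 3477 *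
    e ^ 3 - 774 * e ^ 4) * t ^ 3 + (279 + 9494 * e - 9612 * e ^ 2 + 3366 * e ^ 3 - 587 * e ^ 4 -
    60 * e ^ 5) * t ^ 4 + (441 + 1434 * e - 1956 * e ^ 2 - 2934 * e ^ 3 + 2235 * e ^ 4 - 180 * e ^
    5) * t ^ 5 + (-1301 * e + 1588 * e ^ 2 - 6936 * e ^ 3 + 4826 * e ^ 4 - 583 * e ^ 5 + 6 * e ^
    6) * t ^ 6 + (-279 * e + 564 * e ^ 2 - 7536 * e ^ 3 + 7398 * e ^ 4 - 1605 * e ^ 5 + 18 * e ^
    6) * t ^ 7 + (629 * e ^ 2 - 6606 * e ^ 3 + 7800 * e ^ 4 - 2414 * e ^ 5 + 111 * e ^ 6) * t ^ 8 +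
    (171 * e ^ 2 - 2178 * e ^ 3 + 5160 * e ^ 4 - 3042 * e ^ 5 + 369 * e ^ 6) * t ^ 9 + (-135 * e ^
    3 + 3105 * e ^ 4 - 2655 * e ^ 5 + 405 * e ^ 6) * t ^ 10 + (-45 * e ^ 3 + 1035 * e ^ 4 - 885 *
    e ^ 5 + 135 * e ^ 6) * t ^ 11

/-- Its derivative. -/
def dsN (e t : ℝ) : ℝ :=
  (-4320 + 3060 * e - 180 * e ^ 2) * (1 * t ^ 0) + (-5445 + 9075 * e - 4875 * e ^ 2 + 1095 * e ^ 3 -
    90 * e ^ 4) * (2 * t ^ 1) + (-2727 + 14073 * e - 10929 * e ^ 2 + 3477 * e ^ 3 - 774 * e ^ 4) *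
    (3 * t ^ 2) + (279 + 9494 * e - 9612 * e ^ 2 + 3366 * e ^ 3 - 587 * e ^ 4 - 60 * e ^ 5) * (4 *
    t ^ 3) + (441 + 1434 * e - 1956 * e ^ 2 - 2934 * e ^ 3 + 2235 * e ^ 4 - 180 * e ^ 5) * (5 * t ^
    4) + (-1301 * e + 1588 * e ^ 2 - 6936 * e ^ 3 + 4826 * e ^ 4 - 583 * e ^ 5 + 6 * e ^ 6) * (6 *
    t ^ 5) + (-279 * e + 564 * e ^ 2 - 7536 * e ^ 3 + 7398 * e ^ 4 - 1605 * e ^ 5 + 18 * e ^ 6) *
    (7 * t ^ 6) + (629 * e ^ 2 - 6606 * e ^ 3 + 7800 * e ^ 4 - 2414 * e ^ 5 + 111 * e ^ 6) * (8 *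
    t ^ 7) + (171 * e ^ 2 - 2178 * e ^ 3 + 5160 * e ^ 4 - 3042 * e ^ 5 + 369 * e ^ 6) * (9 * t ^
    8) + (-135 * e ^ 3 + 3105 * e ^ 4 - 2655 * e ^ 5 + 405 * e ^ 6) * (10 * t ^ 9) + (-45 * e ^ 3 +
    1035 * e ^ 4 - 885 * e ^ 5 + 135 * e ^ 6) * (11 * t ^ 10)

/-- The derivative of the slope of the marginal coefficient, reversed and scaled. -/
def concT (e t : ℝ) : ℝ :=
  -(dsN e t * ((1 + t) * yf e t) - sN e t * (3 * yf e t - 8 * e * t * (1 + t)))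

lemma hasDerivAt_sN (e t : ℝ) : HasDerivAt (sN e) (dsN e t) t := by
  refine ((((((((((((hasDerivAt_const t (-1440 + 1020 * e - 60 * e ^ 2)).add
    ((hasDerivAt_pow 1 t).const_mul (-4320 + 3060 * e - 180 * e ^ 2))).add
    ((hasDerivAt_pow 2 t).const_mul (-5445 + 9075 * e - 4875 * e ^ 2 + 1095 * e ^ 3 - 90 * e ^ 4))).add
    ((hasDerivAt_pow 3 t).const_mul (-2727 + 14073 * e - 10929 * e ^ 2 + 3477 * e ^ 3 - 774 * e ^ 4))).add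
    ((hasDerivAt_pow 4 t).const_mul (279 + 9494 * e - 9612 * e ^ 2 + 3366 * e ^ 3 - 587 * e ^ 4 - 60 * e ^ 5))).add
    ((hasDerivAt_pow 5 t).const_mul (441 + 1434 * e - 1956 * e ^ 2 - 2934 * e ^ 3 + 2235 * e ^ 4 - 180 * e ^ 5))).add
    ((hasDerivAt_pow 6 t).const_mul (-1301 * e + 1588 * e ^ 2 - 6936 * e ^ 3 + 4826 * e ^ 4 - 583 * e ^ 5 + 6 * e ^ 6))).add
    ((hasDerivAt_pow 7 t).const_mul (-279 * e + 564 * e ^ 2 - 7536 * e ^ 3 + 7398 * e ^ 4 - 1605 * e ^ 5 + 18 * e ^ 6))).add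
    ((hasDerivAt_pow 8 t).const_mul (629 * e ^ 2 - 6606 * e ^ 3 + 7800 * e ^ 4 - 2414 * e ^ 5 + 111 * e ^ 6))).add
    ((hasDerivAt_pow 9 t).const_mul (171 * e ^ 2 - 2178 * e ^ 3 + 5160 * e ^ 4 - 3042 * e ^ 5 + 369 * e ^ 6))).add
    ((hasDerivAt_pow 10 t).const_mul (-135 * e ^ 3 + 3105 * e ^ 4 - 2655 * e ^ 5 + 405 * e ^ 6))).add
    ((hasDerivAt_pow 11 t).const_mul (-45 * e ^ 3 + 1035 * e ^ 4 - 885 * e ^ 5 + 135 * e ^ 6))).congr_deriv ?_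
  simp only [dsN]
  norm_num
  try ring

end Vale.Agent.P219.CH.Relax.Five.InP
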