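import Vale.Agent.P219.Relax.Poly.Scaled
import Vale.Agent.P219.Relax.Five.InCoef

/-!
# P219, dimension five: the shared expressions inside the diameter

The data of a point as expressions in `(e, t)`, for the kernel check.
-/

noncomputable section

open Set

namespace Vale.Agent.P219.CH.Relax.Five.InP

open Vale.Agent.P219.Poly (E)

variable {e t : ℝ}

/-- A multiple of `den`, as an expression. -/
def denT : E :=
  (.mul (.mul (.k 18) (.pow (.add (.k 1) (.neg (.x 0))) 2)) (.add (.k 29) (.neg (.mul (.k 21) (.x 0)))))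

lemma sem_denT : E.sem ![e, t, 0] denT = den e := by
  simp only [denT, den, E.sem, Matrix.cons_val_zero]
  push_cast
  ring

/-- A multiple of `yf`, as an expression. -/
def yfT : E :=
  (.add (.k 1) (.neg (.mul (.x 0) (.pow (.x 1) 2))))

lemma sem_yfT : E.sem ![e, t, 0] yfT = yf e t := by
  simp only [yfT, yf, E.sem, Matrix.cons_val_zero, Matrix.cons_val_one]
  push_cast
  ring

/-- A multiple of `numA`, as an expression. -/
def numAT : E :=
  (.add (.add (.add (.add (.add (.mul (.k 2) (.add (.add (.k 120) (.neg (.mul (.k 85) (.x 0)))) (.mul (.k 5) (.pow (.x 0) 2)))) (.mul (.add (.add (.add (.k (-21)) (.mul (.k 541) (.x 0))) (.neg (.mul (.k 629) (.pow (.x 0) 2)))) (.mul (.k 189) (.pow (.x 0) 3))) (.x 1))) (.mul (.mul (.k 2) (.add (.add (.add (.mul (.k (-43)) (.x 0)) (.neg (.mul (.k 129) (.pow (.x 0) 2)))) (.mul (.k 111) (.pow (.x 0) 3))) (.neg (.mul (.k 3) (.pow (.x 0) 4))))) (.pow (.x 1) 2))) (.mul (.mul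 (.k 2) (.add (.add (.add (.mul (.k 15) (.x 0)) (.neg (.mul (.k 287) (.pow (.x 0) 2)))) (.mul (.k 253) (.pow (.x 0) 3))) (.neg (.mul (.k 45) (.pow (.x 0) 4))))) (.pow (.x 1) 3))) (.mul (.mul (.k 2) (.add (.add (.add (.mul (.k 10) (.pow (.x 0) 2)) (.mul (.k 64) (.pow (.x 0) 3))) (.neg (.mul (.k 53) (.pow (.x 0) 4)))) (.mul (.k 3) (.pow (.x 0) 5)))) (.pow (.x 1) 4))) (.mul (.mul (.k 3) (.add (.add (.add (.mul (.k (-3)) (.pow (.x 0) 2)) (.mul (.k 69) (.pow (.x 0) 3))) (.neg (.mul (.k 59) (.pow (.x 0) 4)))) (.mul (.k 9) (.pow (.x 0) 5)))) (.pow (.x 1) 5)))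

lemma sem_numAT : E.sem ![e, t, 0] numAT = numA e t := by
  simp only [numAT, numA, E.sem, Matrix.cons_val_zero, Matrix.cons_val_one]
  push_cast
  ring

/-- A multiple of `numA'`, as an expression. -/
def numAdT : E :=
  (.add (.add (.add (.add (.add (.add (.add (.k (-21)) (.mul (.k 541) (.x 0))) (.neg (.mul (.k 629) (.pow (.x 0) 2)))) (.mul (.k 189) (.pow (.x 0) 3))) (.mul (.mul (.k 4) (.add (.add (.add (.mul (.k (-43)) (.x 0)) (.neg (.mul (.k 129) (.pow (.x 0) 2)))) (.mul (.k 111) (.pow (.x 0) 3))) (.neg (.mul (.k 3) (.pow (.x 0) 4))))) (.x 1))) (.mul (.mul (.k 6) (.add (.add (.add (.mul (.k 15) (.x 0)) (.neg (.mul (.k 287) (.pow (.x 0) 2)))) (.mul (.k 253) (.pow (.x 0) 3))) (.neg (.mul (.k 45) (.pow (.x 0) 4))))) (.pow (.x 1) 2))) (.mul (.mul (.k 8) (.add (.add (.add (.mul (.k 10) (.pow (.x 0) 2)) (.mul (.k 64) (.pow (.x 0) 3))) (.neg (.mul (.k 53) (.pow (.x 0) 4)))) (.mul (.k 3) (.pow (.x 0) 5)))) (.pow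 (.x 1) 3))) (.mul (.mul (.k 15) (.add (.add (.add (.mul (.k (-3)) (.pow (.x 0) 2)) (.mul (.k 69) (.pow (.x 0) 3))) (.neg (.mul (.k 59) (.pow (.x 0) 4)))) (.mul (.k 9) (.pow (.x 0) 5)))) (.pow (.x 1) 4)))

lemma sem_numAdT : E.sem ![e, t, 0] numAdT = numA' e t := by
  simp only [numAdT, numA', E.sem, Matrix.cons_val_zero, Matrix.cons_val_one]
  push_cast
  ring

/-- A multiple of `numB`, as an expression. -/
def numBT : E :=
  (.add (.add (.add (.add (.mul (.add (.add (.add (.add (.k (-87)) (.mul (.k 169) (.x 0))) (.neg (.mul (.k 397) (.pow (.x 0) 2)))) (.mul (.k 297) (.pow (.x 0) 3))) (.neg (.mul (.k 30) (.pow (.x 0) 4)))) (.x 1)) (.mul (.mul (.k 2) (.add (.add (.add (.mul (.k 19) (.x 0)) (.neg (.mul (.k 421) (.pow (.x 0) 2)))) (.mul (.k 447) (.pow (.x 0) 3))) (.neg (.mul (.k 93) (.pow (.x 0) 4))))) (.pow (.x 1) 2))) (.mul (.mul (.k 2) (.add (.add (.add (.add (.mul (.k 24) (.x 0)) (.neg (.mul (.k 240) (.pow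 (.x 0) 2)))) (.mul (.k 323) (.pow (.x 0) 3))) (.neg (.mul (.k 110) (.pow (.x 0) 4)))) (.mul (.k 3) (.pow (.x 0) 5)))) (.pow (.x 1) 3))) (.mul (.mul (.k 6) (.add (.add (.add (.mul (.k (-3)) (.pow (.x 0) 2)) (.mul (.k 69) (.pow (.x 0) 3))) (.neg (.mul (.k 59) (.pow (.x 0) 4)))) (.mul (.k 9) (.pow (.x 0) 5)))) (.pow (.x 1) 4))) (.mul (.mul (.k 3) (.add (.add (.add (.mul (.k (-3)) (.pow (.x 0) 2)) (.mul (.k 69) (.pow (.x 0) 3))) (.neg (.mul (.k 59) (.pow (.x 0) 4)))) (.mul (.k 9) (.pow (.x 0) 5)))) (.pow (.x 1) 5)))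

lemma sem_numBT : E.sem ![e, t, 0] numBT = numB e t := by
  simp only [numBT, numB, E.sem, Matrix.cons_val_zero, Matrix.cons_val_one]
  push_cast
  ring

/-- A multiple of `numB'`, as an expression. -/
def numBdT : E :=
  (.add (.add (.add (.add (.add (.add (.add (.add (.k (-87)) (.mul (.k 169) (.x 0))) (.neg (.mul (.k 397) (.pow (.x 0) 2)))) (.mul (.k 297) (.pow (.x 0) 3))) (.neg (.mul (.k 30) (.pow (.x 0) 4)))) (.mul (.mul (.k 4) (.add (.add (.add (.mul (.k 19) (.x 0)) (.neg (.mul (.k 421) (.pow (.x 0) 2)))) (.mul (.k 447) (.pow (.x 0) 3))) (.neg (.mul (.k 93) (.pow (.x 0) 4))))) (.x 1))) (.mul (.mul (.k 6) (.add (.add (.add (.add (.mul (.k 24) (.x 0)) (.neg (.mul (.k 240) (.pow (.x 0) 2)))) (.mul (.k 323) (.pow (.x 0) 3))) (.neg (.mul (.k 110) (.pow (.x 0) 4)))) (.mul (.k 3) (.pow (.x 0) 5)))) (.pow (.x 1) 2))) (.mul (.mul (.k 24) (.add (.add (.add (.mul (.k (-3)) (.pow (.x 0) 2)) (.mul (.k 69) (.pow (.x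 0) 3))) (.neg (.mul (.k 59) (.pow (.x 0) 4)))) (.mul (.k 9) (.pow (.x 0) 5)))) (.pow (.x 1) 3))) (.mul (.mul (.k 15) (.add (.add (.add (.mul (.k (-3)) (.pow (.x 0) 2)) (.mul (.k 69) (.pow (.x 0) 3))) (.neg (.mul (.k 59) (.pow (.x 0) 4)))) (.mul (.k 9) (.pow (.x 0) 5)))) (.pow (.x 1) 4)))

lemma sem_numBdT : E.sem ![e, t, 0] numBdT = numB' e t := by
  simp only [numBdT, numB', E.sem, Matrix.cons_val_zero, Matrix.cons_val_one]
  push_cast
  ring

/-- A multiple of `nN`, as an expression. -/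
def nNT : E :=
  (.mul denT (.pow (.add (.k 1) (.x 1)) 3))

lemma sem_nNT : E.sem ![e, t, 0] nNT = nN e t := by
  simp only [nNT, nN, E.sem, Matrix.cons_val_zero, Matrix.cons_val_one, sem_denT]
  push_cast
  ring

/-- A multiple of `nU`, as an expression. -/
def nUT : E :=
  (.add (.mul numAT (.pow (.add (.k 1) (.x 1)) 2)) (.neg (.mul (.mul (.x 1) numBT) (.add (.k 1) (.x 1)))))

lemma sem_nUT : E.sem ![e, t, 0] nUT = nU e t := by
  simp only [nUT, nU, E.sem, Matrix.cons_val_zero, Matrix.cons_val_one, sem_numAT, sem_numBT]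
  push_cast
  ring

/-- A multiple of `nV`, as an expression. -/
def nVT : E :=
  (.mul (.mul yfT (.k 1)) (.add (.add (.mul (.add (.mul numAdT (.add (.k 1) (.x 1))) (.neg numAT)) (.add (.k 1) (.x 1))) (.neg (.mul numBT (.add (.k 1) (.x 1))))) (.neg (.mul (.x 1) (.add (.mul numBdT (.add (.k 1) (.x 1))) (.neg (.mul (.k 2) numBT)))))))

lemma sem_nVT : E.sem ![e, t, 0] nVT = 2 * nV e t := by
  simp only [nVT, nV, E.sem, Matrix.cons_val_zero, Matrix.cons_val_one, sem_yfT, sem_numAT, sem_numAdT, sem_numBT, sem_numBdT]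
  push_cast
  ring

/-- A multiple of `nG`, as an expression. -/
def nGT : E :=
  (.mul numBT (.add (.k 1) (.x 1)))

lemma sem_nGT : E.sem ![e, t, 0] nGT = nG e t := by
  simp only [nGT, nG, E.sem, Matrix.cons_val_zero, Matrix.cons_val_one, sem_numBT]
  push_cast
  ring

/-- A multiple of `nW`, as an expression. -/
def nWT : E :=
  (.mul (.mul yfT (.k 1)) (.add (.mul numBdT (.add (.k 1) (.x 1))) (.neg (.mul (.k 2) numBT))))

lemma sem_nWT : E.sem ![e, t, 0] nWT = 2 * nW e t := by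
  simp only [nWT, nW, E.sem, Matrix.cons_val_zero, Matrix.cons_val_one, sem_yfT, sem_numBT, sem_numBdT]
  push_cast
  ring

end Vale.Agent.P219.CH.Relax.Five.InP
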