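import Vale.Agent.P219.Relax.Five.Defs
import Vale.Agent.P219.GenK.Four.Weight

/-!
# P219, dimension five: the weight as a function of the distance

Inside the diameter the data are read at `t = tanh (r / 2) / tanh R`, beyond it at
`p = tanh R * coth r`; the two sides join with continuous first derivatives.
-/

noncomputable section

open Set Filter Topology

namespace Vale.Agent.P219.CH.Relax.Five

open GenK.Four (tanh_pos tanh_lt_one' hasDerivAt_tanh_half)

/-- The contact cosine of the distance. -/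
def tc (R r : ℝ) : ℝ := Real.tanh (r / 2) / Real.tanh R

/-- The reduced mean curvature of the sphere. -/
def pc (R r : ℝ) : ℝ := Real.tanh R * (Real.cosh r / Real.sinh r)

/-- The reduced inverse radius of the sphere. -/
def gc (R r : ℝ) : ℝ := Real.tanh R / Real.sinh r

/-- The data at distance `r`. -/
def ptR (R r : ℝ) : Pt :=
  if r ≤ 2 * R then ptIn (Real.tanh R ^ 2) (tc R r)
  else ptOut (Real.tanh R ^ 2) (pc R r) (gc R r)

section

variable {R r : ℝ}

lemma tanh_sq_mem (hR : 0 < R) : Real.tanh R ^ 2 ∈ Ioo (0 : ℝ) 1 :=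
  ⟨pow_pos (tanh_pos hR) 2, pow_lt_one₀ (tanh_pos hR).le (tanh_lt_one' R) two_ne_zero⟩

lemma den_pos {e : ℝ} (he : e ∈ Ioo (0 : ℝ) 1) : 0 < den e := by
  have : 0 < 1 - e := sub_pos.2 he.2
  have : 0 < 29 - 21 * e := by linarith [he.2]
  unfold den
  positivity

lemma yf_pos {e t : ℝ} (he : e ∈ Ioo (0 : ℝ) 1) (ht : t ∈ Icc (0 : ℝ) 1) : 0 < yf e t := by
  have : e * t ^ 2 ≤ e * 1 :=
    mul_le_mul_of_nonneg_left (pow_le_one₀ ht.1 ht.2) he.1.le
  rw [yf]
  linarith [he.2]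

lemma tc_mul (hR : 0 < R) (r : ℝ) : Real.tanh R * tc R r = Real.tanh (r / 2) := by
  rw [tc, mul_div_cancel₀ _ (tanh_pos hR).ne']

lemma tc_nonneg (hR : 0 < R) (hr : 0 ≤ r) : 0 ≤ tc R r := by
  refine div_nonneg ?_ (tanh_pos hR).le
  rw [Real.tanh_eq_sinh_div_cosh]
  exact div_nonneg (Real.sinh_nonneg_iff.2 (by linarith)) (Real.cosh_pos _).le

lemma tc_pos (hR : 0 < R) (hr : 0 < r) : 0 < tc R r :=
  div_pos (tanh_pos (by linarith)) (tanh_pos hR)

lemma tc_diam (hR : 0 < R) : tc R (2 * R) = 1 := by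
  rw [tc, show 2 * R / 2 = R by ring, div_self (tanh_pos hR).ne']

lemma tc_le_one (hR : 0 < R) (hr : r ≤ 2 * R) : tc R r ≤ 1 := by
  rw [tc, div_le_one (tanh_pos hR)]
  have hm : ∀ x, Real.tanh x ∈ Ioo (-1 : ℝ) 1 := fun x => abs_lt.1 (Real.abs_tanh_lt_one x)
  refine (Real.artanh_le_artanh_iff (hm _) (hm _)).1 ?_
  rw [Real.artanh_tanh, Real.artanh_tanh]
  linarith

lemma tc_mem (hR : 0 < R) (hr : r ∈ Ioc 0 (2 * R)) : tc R r ∈ Ioc (0 : ℝ) 1 :=
  ⟨tc_pos hR hr.1, tc_le_one hR hr.2⟩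

lemma yf_tc (hR : 0 < R) (r : ℝ) :
    yf (Real.tanh R ^ 2) (tc R r) = 1 - Real.tanh (r / 2) ^ 2 := by
  rw [yf, ← mul_pow, tc_mul hR]

lemma hasDerivAt_tc (hR : 0 < R) (r : ℝ) :
    HasDerivAt (tc R) (yf (Real.tanh R ^ 2) (tc R r) / (2 * Real.tanh R)) r := by
  rw [yf_tc hR, ← div_div]
  exact (hasDerivAt_tanh_half r).div_const _

lemma coth_eq (hr : 0 < r) :
    Real.cosh r / Real.sinh r = (1 + Real.tanh (r / 2) ^ 2) / (2 * Real.tanh (r / 2)) := by
  have h := GenK.Four.cfac_one hr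
  rw [Bend.cfac, show 2 * (1 : ℝ) ^ 2 * (r ^ 2 / 2) = r ^ 2 by ring, Bend.csh_sq] at h
  refine mul_left_cancel₀ hr.ne' (Eq.trans ?_ h)
  rw [← Bend.two_mul_cshd_sq r]
  field_simp

/-- Inside the diameter the curvature data are the true ones. -/
lemma ptIn_pg (hR : 0 < R) (hr : 0 < r) :
    (ptIn (Real.tanh R ^ 2) (tc R r)).p = pc R r ∧
      (ptIn (Real.tanh R ^ 2) (tc R r)).g = gc R r := by
  have hT := tanh_pos hR
  have ht : 0 < Real.tanh (r / 2) := tanh_pos (by linarith)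
  have : 0 < 1 - Real.tanh (r / 2) ^ 2 :=
    sub_pos.2 (pow_lt_one₀ ht.le (tanh_lt_one' _) two_ne_zero)
  constructor
  · simp only [ptIn, pc, coth_eq hr]
    rw [← mul_pow, tc_mul hR, tc]
    field_simp
  · simp only [ptIn, gc, yf_tc hR, GenK.Four.sinh_eq]
    rw [tc]
    field_simp

lemma ptR_pg (hR : 0 < R) (hr : 0 < r) : (ptR R r).p = pc R r ∧ (ptR R r).g = gc R r := by
  unfold ptR
  split_ifs with h
  · exact ptIn_pg hR hr
  · exact ⟨rfl, rfl⟩

lemma pc_diam (hR : 0 < R) : pc R (2 * R) = (1 + Real.tanh R ^ 2) / 2 := by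
  have := tanh_pos hR
  rw [pc, coth_eq (by linarith), show 2 * R / 2 = R by ring]
  field_simp

lemma gc_diam (hR : 0 < R) : gc R (2 * R) = (1 - Real.tanh R ^ 2) / 2 := by
  have := tanh_pos hR
  have := sub_pos.2 (tanh_sq_mem hR).2
  rw [gc, GenK.Four.sinh_eq, show 2 * R / 2 = R by ring]
  field_simp

lemma gc_sq (hr : 0 < r) : gc R r ^ 2 = pc R r ^ 2 - Real.tanh R ^ 2 := by
  have := (Real.sinh_pos_iff.2 hr).ne'
  rw [gc, pc]
  field_simp
  rw [Real.cosh_sq]
  ring

lemma outRange (hR : 0 < R) (hr : 2 * R ≤ r) :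
    OutRange (Real.tanh R ^ 2) (pc R r) (gc R r) := by
  have h0 : 0 < r := by linarith
  refine ⟨div_pos (tanh_pos hR) (Real.sinh_pos_iff.2 h0), gc_sq h0,
    mul_pos (tanh_pos hR) (div_pos (Real.cosh_pos r) (Real.sinh_pos_iff.2 h0)), ?_⟩
  rw [← pc_diam hR, pc, pc]
  refine mul_le_mul_of_nonneg_left ?_ (tanh_pos hR).le
  rw [div_le_div_iff₀ (Real.sinh_pos_iff.2 h0) (Real.sinh_pos_iff.2 (by linarith))]
  have h := Real.sinh_sub r (2 * R)
  have := Real.sinh_nonneg_iff.2 (sub_nonneg.2 hr)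
  linarith

lemma pc_lt_one (hR : 0 < R) (hr : 2 * R ≤ r) : pc R r < 1 :=
  (outRange hR hr).2.2.2.trans_lt (by linarith [(tanh_sq_mem hR).2])

lemma sigF_diam {e : ℝ} (he : e ∈ Ioo (0 : ℝ) 1) : sigF e ((1 + e) / 2) = 1 := by
  rw [sigF, show ((1 + e) / 2) ^ 2 - e = ((1 - e) / 2) ^ 2 by ring]
  have : 1 - e ≠ 0 := (sub_pos.2 he.2).ne'
  field_simp

/-- The two sides join with the derivative. -/
theorem ptOut_join {e : ℝ} (he : e ∈ Ioo (0 : ℝ) 1) :
    ptOut e ((1 + e) / 2) ((1 - e) / 2) = ptIn e 1 := by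
  have h1 : 1 - e ≠ 0 := (sub_pos.2 he.2).ne'
  have hσ := sigF_diam he
  have hd := (den_pos he).ne'
  have h2 : (1 : ℝ) + e ≠ 0 := by linarith [he.1]
  have h3 : (29 : ℝ) - 21 * e ≠ 0 := by linarith [he.2]
  have h3' : (29 : ℝ) - e * 21 ≠ 0 := by linarith [he.2]
  have h4 : (1 : ℝ) - (1 + e) / 2 ≠ 0 := fun h => h1 (by linarith)
  simp only [ptOut, ptIn, GOut, gCoef, XF, XF', hσ, sub_self, mul_zero, add_zero, Pt.mk.injEq, show (1 : ℝ) - (1 + e) / 2 = (1 - e) / 2 by ring,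
    show ((1 + e) / 2) ^ 2 - e = ((1 - e) / 2) ^ 2 by ring]
  refine ⟨?_, ?_, trivial, ?_, ?_, ?_⟩
  · field_simp
    ring
  · simp only [PF, PF', QF, QF', numA, numA', numB, numB', betaHat, den, yf]
    field_simp
    ring
  · field_simp
  · ring
  · rw [yf]; ring

lemma ptR_diam (hR : 0 < R) :
    ptR R (2 * R) = ptOut (Real.tanh R ^ 2) (pc R (2 * R)) (gc R (2 * R)) := by
  rw [ptR, if_pos le_rfl, tc_diam hR, pc_diam hR, gc_diam hR, ptOut_join (tanh_sq_mem hR)]

lemma ptR_out (hR : 0 < R) (hr : 2 * R ≤ r) :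
    ptR R r = ptOut (Real.tanh R ^ 2) (pc R r) (gc R r) := by
  rcases hr.eq_or_lt with h | h
  · rw [← h, ptR_diam hR]
  · rw [ptR, if_neg (not_le.2 h)]

/-! ## Derivatives -/

lemma hasDerivAt_PF {e t : ℝ} (he : e ∈ Ioo (0 : ℝ) 1) (ht : 1 + t ≠ 0) :
    HasDerivAt (PF e) (PF' e t) t := by
  have hA : HasDerivAt (numA e) (numA' e t) t := by
    unfold numA
    refine (((((((hasDerivAt_id t).const_mul _).const_add _).add
      ((hasDerivAt_pow 2 t).const_mul _)).add ((hasDerivAt_pow 3 t).const_mul _)).add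
      ((hasDerivAt_pow 4 t).const_mul _)).add ((hasDerivAt_pow 5 t).const_mul _)).congr_deriv ?_
    simp only [numA']
    push_cast
    ring
  have hd := (den_pos he).ne'
  refine ((hA.div (((hasDerivAt_id t).const_add 1).const_mul (den e))
    (mul_ne_zero hd ht)).congr_deriv ?_)
  simp only [PF', id_eq]
  field_simp

lemma hasDerivAt_QF {e t : ℝ} (he : e ∈ Ioo (0 : ℝ) 1) (ht : 1 + t ≠ 0) :
    HasDerivAt (QF e) (QF' e t) t := by
  have hB : HasDerivAt (numB e) (numB' e t) t := by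
    unfold numB
    refine ((((((hasDerivAt_id t).const_mul _).add
      ((hasDerivAt_pow 2 t).const_mul _)).add ((hasDerivAt_pow 3 t).const_mul _)).add
      ((hasDerivAt_pow 4 t).const_mul _)).add ((hasDerivAt_pow 5 t).const_mul _)).congr_deriv ?_
    simp only [numB']
    push_cast
    ring
  have hd := (den_pos he).ne'
  refine ((hB.div ((((hasDerivAt_id t).const_add 1).pow 2).const_mul (den e))
    (mul_ne_zero hd (pow_ne_zero 2 ht))).congr_deriv ?_)
  simp only [QF', id_eq, Pi.pow_apply]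
  push_cast
  field_simp

/-- The weight at cosine zero. -/
def uU (R r : ℝ) : ℝ := Real.tanh R * (ptR R r).U

/-- The slope of the weight in the cosine. -/
def uG (R r : ℝ) : ℝ := Real.tanh R * (ptR R r).G

lemma hasDerivAt_in (hR : 0 < R) (hr : 0 ≤ r) :
    HasDerivAt (fun r => Real.tanh R * (ptIn (Real.tanh R ^ 2) (tc R r)).U)
        (ptIn (Real.tanh R ^ 2) (tc R r)).U' r ∧
      HasDerivAt (fun r => Real.tanh R * (ptIn (Real.tanh R ^ 2) (tc R r)).G)
        (ptIn (Real.tanh R ^ 2) (tc R r)).G' r := by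
  have he := tanh_sq_mem hR
  have hT := (tanh_pos hR).ne'
  have h1 : 1 + tc R r ≠ 0 := by linarith [tc_nonneg hR hr]
  have ht := hasDerivAt_tc hR r
  have hP := (hasDerivAt_PF he h1).comp r ht
  have hQ := (hasDerivAt_QF he h1).comp r ht
  constructor
  · refine ((hP.sub (ht.mul hQ)).const_mul (Real.tanh R)).congr_deriv ?_
    simp only [ptIn, Function.comp_apply]
    field_simp
    ring
  · refine (hQ.const_mul (Real.tanh R)).congr_deriv ?_
    simp only [ptIn]
    field_simp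

lemma hasDerivAt_pc (hr : r ≠ 0) :
    HasDerivAt (pc R) (-(Real.tanh R / Real.sinh r ^ 2)) r := by
  have hs : Real.sinh r ≠ 0 := fun h => hr (Real.sinh_eq_zero.1 h)
  refine (((Real.hasDerivAt_cosh r).div (Real.hasDerivAt_sinh r) hs).const_mul
    (Real.tanh R)).congr_deriv ?_
  field_simp
  rw [Real.cosh_sq]
  ring

lemma hasDerivAt_out (hR : 0 < R) (hr : 2 * R ≤ r) :
    HasDerivAt (fun r => Real.tanh R * (ptOut (Real.tanh R ^ 2) (pc R r) (gc R r)).U)
        (ptOut (Real.tanh R ^ 2) (pc R r) (gc R r)).U' r ∧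
      HasDerivAt (fun r => Real.tanh R * (ptOut (Real.tanh R ^ 2) (pc R r) (gc R r)).G)
        (ptOut (Real.tanh R ^ 2) (pc R r) (gc R r)).G' r := by
  have h0 : 0 < r := by linarith
  have hs : Real.sinh r ≠ 0 := (Real.sinh_pos_iff.2 h0).ne'
  have hT : Real.tanh R ≠ 0 := (tanh_pos hR).ne'
  have hp : HasDerivAt (pc R) (-(pc R r ^ 2 - Real.tanh R ^ 2) / Real.tanh R) r := by
    refine (hasDerivAt_pc h0.ne').congr_deriv ?_
    rw [← gc_sq h0, gc]
    field_simp
  have h1 : 1 - pc R r ≠ 0 := (sub_pos.2 (pc_lt_one hR hr)).ne'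
  have h1e : 1 - Real.tanh R ^ 2 ≠ 0 := (sub_pos.2 (tanh_sq_mem hR).2).ne'
  have hσ : HasDerivAt (fun r => sigF (Real.tanh R ^ 2) (pc R r))
      (-2 * pc R r * sigF (Real.tanh R ^ 2) (pc R r) / Real.tanh R) r := by
    refine (((hp.pow 2).sub_const (Real.tanh R ^ 2)).div_const _).congr_deriv ?_
    simp only [sigF]
    push_cast
    field_simp
  have hX : HasDerivAt (fun r => XF (Real.tanh R ^ 2) (pc R r))
      (XF' (Real.tanh R ^ 2) (pc R r) *
        (-2 * pc R r * sigF (Real.tanh R ^ 2) (pc R r) / Real.tanh R)) r := by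
    unfold XF
    refine (((hσ.pow 2).const_mul _).add ((hσ.sub (hσ.pow 2)).const_mul _)).congr_deriv ?_
    simp only [XF']
    push_cast
    ring
  have hG : HasDerivAt (fun r => GOut (Real.tanh R ^ 2) (pc R r))
      (gCoef (Real.tanh R ^ 2) * ((pc R r ^ 2 - Real.tanh R ^ 2) / Real.tanh R)) r := by
    unfold GOut
    refine (((hp.const_sub _).const_mul _).const_add _).congr_deriv ?_
    ring
  constructor
  · refine ((((hX.const_sub 1).div ((hp.const_sub 1).const_mul 4)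
      (mul_ne_zero four_ne_zero h1)).sub hG).const_mul (Real.tanh R)).congr_deriv ?_
    simp only [ptOut]
    field_simp
  · refine (hG.const_mul (Real.tanh R)).congr_deriv ?_
    simp only [ptOut]
    field_simp

lemma hasDerivAt_glue {f g : ℝ → ℝ} {D a : ℝ} (hf : HasDerivAt f D a) (hg : HasDerivAt g D a)
    (h : f a = g a) : HasDerivAt (fun x => if x ≤ a then f x else g x) D a := by
  have hl : HasDerivWithinAt (fun x => if x ≤ a then f x else g x) D (Iic a) a :=
    hf.hasDerivWithinAt.congr (fun x hx => if_pos hx) (if_pos le_rfl)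
  have hr : HasDerivWithinAt (fun x => if x ≤ a then f x else g x) D (Ici a) a := by
    refine hg.hasDerivWithinAt.congr (fun x hx => ?_) (by rw [if_pos le_rfl, h])
    rcases (show a ≤ x from hx).eq_or_lt with rfl | h'
    · rw [if_pos le_rfl, h]
    · rw [if_neg (not_le.2 h')]
  have := hl.union hr
  rwa [Iic_union_Ici, hasDerivWithinAt_univ] at this

lemma glue_field {F : Pt → ℝ} (R : ℝ) :
    (fun r => Real.tanh R * F (ptR R r)) = fun r => if r ≤ 2 * R then
      Real.tanh R * F (ptIn (Real.tanh R ^ 2) (tc R r)) else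
      Real.tanh R * F (ptOut (Real.tanh R ^ 2) (pc R r) (gc R r)) := by
  funext r
  unfold ptR
  split_ifs <;> rfl

theorem hasDerivAt_uU (hR : 0 < R) (hr : 0 ≤ r) : HasDerivAt (uU R) (ptR R r).U' r ∧
    HasDerivAt (uG R) (ptR R r).G' r := by
  have hU : uU R = fun r => Real.tanh R * Pt.U (ptR R r) := rfl
  have hG : uG R = fun r => Real.tanh R * Pt.G (ptR R r) := rfl
  rw [hU, hG, glue_field, glue_field]
  rcases lt_trichotomy r (2 * R) with h | h | h
  · obtain ⟨a, b⟩ := hasDerivAt_in hR hr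
    have hev : ∀ᶠ x in 𝓝 r, x ≤ 2 * R := eventually_of_mem (Iio_mem_nhds h) fun x hx => le_of_lt hx
    rw [ptR, if_pos h.le]
    exact ⟨a.congr_of_eventuallyEq (hev.mono fun x hx => if_pos hx),
      b.congr_of_eventuallyEq (hev.mono fun x hx => if_pos hx)⟩
  · subst h
    obtain ⟨a, b⟩ := hasDerivAt_in hR hr
    obtain ⟨c, d⟩ := hasDerivAt_out hR le_rfl
    have e : ptOut (Real.tanh R ^ 2) (pc R (2 * R)) (gc R (2 * R)) =
        ptIn (Real.tanh R ^ 2) (tc R (2 * R)) := by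
      rw [← ptR_diam hR, ptR, if_pos le_rfl]
    rw [e] at c d
    rw [ptR, if_pos le_rfl]
    exact ⟨hasDerivAt_glue a c (by rw [e]), hasDerivAt_glue b d (by rw [e])⟩
  · obtain ⟨c, d⟩ := hasDerivAt_out hR h.le
    have hev : ∀ᶠ x in 𝓝 r, ¬ x ≤ 2 * R :=
      eventually_of_mem (Ioi_mem_nhds h) fun x hx => not_le.2 hx
    rw [ptR, if_neg (not_le.2 h)]
    exact ⟨c.congr_of_eventuallyEq (hev.mono fun x hx => if_neg hx),
      d.congr_of_eventuallyEq (hev.mono fun x hx => if_neg hx)⟩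

theorem continuousOn_deriv (hR : 0 < R) :
    ContinuousOn (fun r => (ptR R r).U') (Ici 0) ∧
      ContinuousOn (fun r => (ptR R r).G') (Ici 0) := by
  have he := tanh_sq_mem hR
  have hd := (den_pos he).ne'
  have h1e : 1 - Real.tanh R ^ 2 ≠ 0 := (sub_pos.2 he.2).ne'
  have hcl : Ici (0 : ℝ) = Icc 0 (2 * R) ∪ Ici (2 * R) :=
    (Icc_union_Ici_eq_Ici (by linarith)).symm
  have htc : ContinuousOn (tc R) (Icc 0 (2 * R)) := fun r _ =>
    (hasDerivAt_tc hR r).continuousAt.continuousWithinAt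
  have hpc : ContinuousOn (pc R) (Ici (2 * R)) := fun r hr =>
    (hasDerivAt_pc (show r ≠ 0 by linarith [show 2 * R ≤ r from hr])).continuousAt.continuousWithinAt
  have hn : ∀ r ∈ Icc 0 (2 * R), 1 + tc R r ≠ 0 := fun r hr => by linarith [tc_nonneg hR hr.1]
  have hPF : ContinuousOn (fun r => PF' (Real.tanh R ^ 2) (tc R r)) (Icc 0 (2 * R)) := by
    unfold PF'
    refine ContinuousOn.div ?_ (by fun_prop) fun r hr => mul_ne_zero hd (pow_ne_zero 2 (hn r hr))
    unfold numA numA'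
    fun_prop
  have hQF : ContinuousOn (fun r => QF (Real.tanh R ^ 2) (tc R r)) (Icc 0 (2 * R)) := by
    unfold QF
    refine ContinuousOn.div ?_ (by fun_prop) fun r hr => mul_ne_zero hd (pow_ne_zero 2 (hn r hr))
    unfold numB
    fun_prop
  have hQF' : ContinuousOn (fun r => QF' (Real.tanh R ^ 2) (tc R r)) (Icc 0 (2 * R)) := by
    unfold QF'
    refine ContinuousOn.div ?_ (by fun_prop) fun r hr => mul_ne_zero hd (pow_ne_zero 3 (hn r hr))
    unfold numB numB'
    fun_prop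
  constructor <;> rw [hcl] <;>
    refine ContinuousOn.union_of_isClosed ?_ ?_ isClosed_Icc isClosed_Ici
  · refine ContinuousOn.congr (f := fun r => (ptIn (Real.tanh R ^ 2) (tc R r)).U') ?_
      fun r hr => by rw [ptR, if_pos hr.2]
    simp only [ptIn, yf]
    fun_prop
  · refine ContinuousOn.congr (f := fun r => (ptOut (Real.tanh R ^ 2) (pc R r) (gc R r)).U') ?_
      fun r hr => by rw [ptR_out hR hr]
    have h1 : ∀ r ∈ Ici (2 * R), 1 - pc R r ≠ 0 := fun r hr => (sub_pos.2 (pc_lt_one hR hr)).ne'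
    have h2 : ∀ r ∈ Ici (2 * R), (1 - pc R r) ^ 2 ≠ 0 := fun r hr => pow_ne_zero 2 (h1 r hr)
    simp only [ptOut, XF, XF', sigF]
    fun_prop (disch := assumption)
  · refine ContinuousOn.congr (f := fun r => (ptIn (Real.tanh R ^ 2) (tc R r)).G') ?_
      fun r hr => by rw [ptR, if_pos hr.2]
    simp only [ptIn, yf]
    fun_prop
  · refine ContinuousOn.congr (f := fun r => (ptOut (Real.tanh R ^ 2) (pc R r) (gc R r)).G') ?_
      fun r hr => by rw [ptR_out hR hr]
    simp only [ptOut]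
    fun_prop

end

end Vale.Agent.P219.CH.Relax.Five
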