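import Vale.Agent.P219.Relax.Five.Out

/-!
# P219, dimension five: the margins that make the certificate strict

The slope in the cosine is negative and three linear combinations of the data have a sign. Inside
the diameter each is one Bernstein certificate, beyond it they follow from the linear bounds.
-/

noncomputable section

open Set

namespace Vale.Agent.P219.CH.Relax.Five.Strictly

/-- The margins at one point. -/
structure Margin (o : Pt) : Prop where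
  neg : o.G < 0
  g_pos : 0 < o.g
  g_le : o.g ≤ o.p
  weight : 0 < 1 + (4 * o.p - o.g) * o.U + 4 * o.G
  deriv : 0 ≤ o.U' + 2 * o.p * o.U
  slope' : o.G' ≤ 4 * o.U

/-- The numerator of the weight at cosine zero. -/
def uNum (e t : ℝ) : ℝ := numA e t * (1 + t) - t * numB e t

lemma bernE5 {e : ℝ} (he : e ∈ Ioo (0 : ℝ) 1) (a0 a1 a2 a3 a4 a5 : ℝ)
    (h : 0 ≤ a0 ∧ 0 ≤ a1 ∧ 0 ≤ a2 ∧ 0 ≤ a3 ∧ 0 ≤ a4 ∧ 0 ≤ a5) :
    0 ≤ a0 * (e ^ 0 * (1 - e) ^ 5) +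
      a1 * (e ^ 1 * (1 - e) ^ 4) +
      a2 * (e ^ 2 * (1 - e) ^ 3) +
      a3 * (e ^ 3 * (1 - e) ^ 2) +
      a4 * (e ^ 4 * (1 - e) ^ 1) +
      a5 * (e ^ 5 * (1 - e) ^ 0) :=
  have hk : ∀ i j, 0 ≤ e ^ i * (1 - e) ^ j := fun i j => mul_nonneg (pow_nonneg he.1.le i)
    (pow_nonneg (sub_nonneg.2 he.2.le) j)
  (add_nonneg (add_nonneg (add_nonneg (add_nonneg (add_nonneg (mul_nonneg h.1 (hk 0 5))
      (mul_nonneg h.2.1 (hk 1 4)))
      (mul_nonneg h.2.2.1 (hk 2 3)))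
      (mul_nonneg h.2.2.2.1 (hk 3 2)))
      (mul_nonneg h.2.2.2.2.1 (hk 4 1)))
      (mul_nonneg h.2.2.2.2.2 (hk 5 0)))

lemma bernE5_pos {e : ℝ} (he : e ∈ Ioo (0 : ℝ) 1) (a0 a1 a2 a3 a4 a5 : ℝ)
    (h0 : 0 < a0) (h : 0 ≤ a1 ∧ 0 ≤ a2 ∧ 0 ≤ a3 ∧ 0 ≤ a4 ∧ 0 ≤ a5) :
    0 < a0 * (e ^ 0 * (1 - e) ^ 5) +
      a1 * (e ^ 1 * (1 - e) ^ 4) +
      a2 * (e ^ 2 * (1 - e) ^ 3) +
      a3 * (e ^ 3 * (1 - e) ^ 2) +
      a4 * (e ^ 4 * (1 - e) ^ 1) +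
      a5 * (e ^ 5 * (1 - e) ^ 0) := by
  have h1 := bernE5 he 0 a1 a2 a3 a4 a5 ⟨le_rfl, h⟩
  have h2 := mul_pos h0 (pow_pos (sub_pos.2 he.2) 5)
  simp only [pow_zero, one_mul, zero_mul, zero_add] at h1 ⊢
  linarith

lemma bernT4 {t C0 C1 C2 C3 C4 : ℝ} (ht : t ∈ Ioc (0 : ℝ) 1)
    (h0 : 0 ≤ C0) (h1 : 0 ≤ C1) (h2 : 0 ≤ C2) (h3 : 0 ≤ C3) (h4 : 0 < C4) :
    0 < C0 * (t ^ 0 * (1 - t) ^ 4) +
      C1 * (t ^ 1 * (1 - t) ^ 3) +
      C2 * (t ^ 2 * (1 - t) ^ 2) +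
      C3 * (t ^ 3 * (1 - t) ^ 1) +
      C4 * (t ^ 4 * (1 - t) ^ 0) :=
  have hl : ∀ i j, 0 ≤ t ^ i * (1 - t) ^ j := fun i j => mul_nonneg (pow_nonneg ht.1.le i)
    (pow_nonneg (sub_nonneg.2 ht.2) j)
  add_pos_of_nonneg_of_pos (add_nonneg (add_nonneg (add_nonneg (mul_nonneg h0 (hl 0 4))
      (mul_nonneg h1 (hl 1 3)))
      (mul_nonneg h2 (hl 2 2)))
      (mul_nonneg h3 (hl 3 1)))
    (mul_pos h4 (mul_pos (pow_pos ht.1 _) (by norm_num)))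

lemma bernE6 {e : ℝ} (he : e ∈ Ioo (0 : ℝ) 1) (a0 a1 a2 a3 a4 a5 a6 : ℝ)
    (h : 0 ≤ a0 ∧ 0 ≤ a1 ∧ 0 ≤ a2 ∧ 0 ≤ a3 ∧ 0 ≤ a4 ∧ 0 ≤ a5 ∧ 0 ≤ a6) :
    0 ≤ a0 * (e ^ 0 * (1 - e) ^ 6) +
      a1 * (e ^ 1 * (1 - e) ^ 5) +
      a2 * (e ^ 2 * (1 - e) ^ 4) +
      a3 * (e ^ 3 * (1 - e) ^ 3) +
      a4 * (e ^ 4 * (1 - e) ^ 2) +
      a5 * (e ^ 5 * (1 - e) ^ 1) +
      a6 * (e ^ 6 * (1 - e) ^ 0) :=
  have hk : ∀ i j, 0 ≤ e ^ i * (1 - e) ^ j := fun i j => mul_nonneg (pow_nonneg he.1.le i)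
    (pow_nonneg (sub_nonneg.2 he.2.le) j)
  (add_nonneg (add_nonneg (add_nonneg (add_nonneg (add_nonneg (add_nonneg (mul_nonneg h.1 (hk 0
      6))
      (mul_nonneg h.2.1 (hk 1 5)))
      (mul_nonneg h.2.2.1 (hk 2 4)))
      (mul_nonneg h.2.2.2.1 (hk 3 3)))
      (mul_nonneg h.2.2.2.2.1 (hk 4 2)))
      (mul_nonneg h.2.2.2.2.2.1 (hk 5 1)))
      (mul_nonneg h.2.2.2.2.2.2 (hk 6 0)))

lemma bernE6_pos {e : ℝ} (he : e ∈ Ioo (0 : ℝ) 1) (a0 a1 a2 a3 a4 a5 a6 : ℝ)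
    (h0 : 0 < a0) (h : 0 ≤ a1 ∧ 0 ≤ a2 ∧ 0 ≤ a3 ∧ 0 ≤ a4 ∧ 0 ≤ a5 ∧ 0 ≤ a6) :
    0 < a0 * (e ^ 0 * (1 - e) ^ 6) +
      a1 * (e ^ 1 * (1 - e) ^ 5) +
      a2 * (e ^ 2 * (1 - e) ^ 4) +
      a3 * (e ^ 3 * (1 - e) ^ 3) +
      a4 * (e ^ 4 * (1 - e) ^ 2) +
      a5 * (e ^ 5 * (1 - e) ^ 1) +
      a6 * (e ^ 6 * (1 - e) ^ 0) := by
  have h1 := bernE6 he 0 a1 a2 a3 a4 a5 a6 ⟨le_rfl, h⟩
  have h2 := mul_pos h0 (pow_pos (sub_pos.2 he.2) 6)
  simp only [pow_zero, one_mul, zero_mul, zero_add] at h1 ⊢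
  linarith

lemma bernT7 {t C0 C1 C2 C3 C4 C5 C6 C7 : ℝ} (ht : t ∈ Ioc (0 : ℝ) 1)
    (h0 : 0 ≤ C0) (h1 : 0 ≤ C1) (h2 : 0 ≤ C2) (h3 : 0 ≤ C3) (h4 : 0 ≤ C4) (h5 : 0 ≤ C5) (h6 : 0 ≤
        C6) (h7 : 0 < C7) :
    0 < C0 * (t ^ 0 * (1 - t) ^ 7) +
      C1 * (t ^ 1 * (1 - t) ^ 6) +
      C2 * (t ^ 2 * (1 - t) ^ 5) +
      C3 * (t ^ 3 * (1 - t) ^ 4) +
      C4 * (t ^ 4 * (1 - t) ^ 3) +
      C5 * (t ^ 5 * (1 - t) ^ 2) +
      C6 * (t ^ 6 * (1 - t) ^ 1) +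
      C7 * (t ^ 7 * (1 - t) ^ 0) :=
  have hl : ∀ i j, 0 ≤ t ^ i * (1 - t) ^ j := fun i j => mul_nonneg (pow_nonneg ht.1.le i)
    (pow_nonneg (sub_nonneg.2 ht.2) j)
  add_pos_of_nonneg_of_pos (add_nonneg (add_nonneg (add_nonneg (add_nonneg (add_nonneg
      (add_nonneg (mul_nonneg h0 (hl 0 7))
      (mul_nonneg h1 (hl 1 6)))
      (mul_nonneg h2 (hl 2 5)))
      (mul_nonneg h3 (hl 3 4)))
      (mul_nonneg h4 (hl 4 3)))
      (mul_nonneg h5 (hl 5 2)))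
      (mul_nonneg h6 (hl 6 1)))
    (mul_pos h7 (mul_pos (pow_pos ht.1 _) (by norm_num)))

lemma bernT8 {t C0 C1 C2 C3 C4 C5 C6 C7 C8 : ℝ} (ht : t ∈ Ioc (0 : ℝ) 1)
    (h0 : 0 ≤ C0) (h1 : 0 ≤ C1) (h2 : 0 ≤ C2) (h3 : 0 ≤ C3) (h4 : 0 ≤ C4) (h5 : 0 ≤ C5) (h6 : 0 ≤
        C6) (h7 : 0 ≤ C7) (h8 : 0 < C8) :
    0 < C0 * (t ^ 0 * (1 - t) ^ 8) +
      C1 * (t ^ 1 * (1 - t) ^ 7) +
      C2 * (t ^ 2 * (1 - t) ^ 6) +
      C3 * (t ^ 3 * (1 - t) ^ 5) +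
      C4 * (t ^ 4 * (1 - t) ^ 4) +
      C5 * (t ^ 5 * (1 - t) ^ 3) +
      C6 * (t ^ 6 * (1 - t) ^ 2) +
      C7 * (t ^ 7 * (1 - t) ^ 1) +
      C8 * (t ^ 8 * (1 - t) ^ 0) :=
  have hl : ∀ i j, 0 ≤ t ^ i * (1 - t) ^ j := fun i j => mul_nonneg (pow_nonneg ht.1.le i)
    (pow_nonneg (sub_nonneg.2 ht.2) j)
  add_pos_of_nonneg_of_pos (add_nonneg (add_nonneg (add_nonneg (add_nonneg (add_nonneg
      (add_nonneg (add_nonneg (mul_nonneg h0 (hl 0 8))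
      (mul_nonneg h1 (hl 1 7)))
      (mul_nonneg h2 (hl 2 6)))
      (mul_nonneg h3 (hl 3 5)))
      (mul_nonneg h4 (hl 4 4)))
      (mul_nonneg h5 (hl 5 3)))
      (mul_nonneg h6 (hl 6 2)))
      (mul_nonneg h7 (hl 7 1)))
    (mul_pos h8 (mul_pos (pow_pos ht.1 _) (by norm_num)))

lemma negB_pos {e t : ℝ} (he : e ∈ Ioo (0 : ℝ) 1) (ht : t ∈ Ioc (0 : ℝ) 1) :
    0 < -((-87 + 169 * e - 397 * e ^ 2 + 297 * e ^ 3 - 30 * e ^ 4) +
      2 * (19 * e - 421 * e ^ 2 + 447 * e ^ 3 - 93 * e ^ 4) * t +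
      2 * (24 * e - 240 * e ^ 2 + 323 * e ^ 3 - 110 * e ^ 4 + 3 * e ^ 5) * t ^ 2 +
      6 * (-3 * e ^ 2 + 69 * e ^ 3 - 59 * e ^ 4 + 9 * e ^ 5) * t ^ 3 +
      3 * (-3 * e ^ 2 + 69 * e ^ 3 - 59 * e ^ 4 + 9 * e ^ 5) * t ^ 4) := by
  refine (bernT4 ht
    (bernE5 he 87 266 591 750 386 48 (by norm_num))
    (bernE5 he 348 1026 3054 4404 2316 288 (by norm_num))
    (bernE5 he 522 1434 5904 9218 4808 576 (by norm_num))
    (bernE5 he 348 854 5028 7864 3792 384 (by norm_num))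
    (bernE5_pos he 87 180 1596 2120 704 0 (by norm_num) (by norm_num))).trans_eq ?_
  ring

lemma vNum_pos {e t : ℝ} (he : e ∈ Ioo (0 : ℝ) 1) (ht : t ∈ Ioc (0 : ℝ) 1) :
    0 < 8 * (1 + t) * uNum e t - yf e t * (numB' e t * (1 + t) - 2 * numB e t) := by
  refine (bernT7 ht
    (bernE6 he 2007 10513 22937 26461 16816 5474 688 (by norm_num))
    (bernE6 he 17634 96802 219254 259618 167392 54740 6880 (by norm_num))
    (bernE6 he 65937 378744 885909 1068914 693504 225756 28064 (by norm_num))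
    (bernE6 he 135948 814388 1955944 2385216 1540608 492288 59392 (by norm_num))
    (bernE6 he 166857 1037301 2542204 3103114 1966252 602976 68096 (by norm_num))
    (bernE6 he 121890 781614 1941900 2344116 1427144 404352 39424 (by norm_num))
    (bernE6 he 49071 322378 806616 947880 538768 132160 8704 (by norm_num))
    (bernE6_pos he 8400 56132 140568 157392 80736 15616 0 (by norm_num) (by norm_num))).trans_eq
        ?_
  unfold uNum numA numB numB' yf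
  ring

lemma wNum_pos {e t : ℝ} (he : e ∈ Ioo (0 : ℝ) 1) (ht : t ∈ Ioc (0 : ℝ) 1) :
    0 < yf e t * t * ((numA' e t * (1 + t) - numA e t) * (1 + t) - numB e t * (1 + t) -
        t * (numB' e t * (1 + t) - 2 * numB e t)) + 2 * (1 + e * t ^ 2) * (1 + t) * uNum e t := by
  refine (bernT8 ht
    (bernE6 he 480 2540 5520 6280 3920 1260 160 (by norm_num))
    (bernE6 he 4497 25375 57723 67649 42904 13860 1760 (by norm_num))
    (bernE6 he 18522 111398 263802 316302 202340 65124 8160 (by norm_num))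
    (bernE6 he 43707 279826 686895 838176 537076 170316 20640 (by norm_num))
    (bernE6 he 64500 438752 1113384 1377504 878084 270432 30720 (by norm_num))
    (bernE6 he 60855 438883 1150314 1439562 906508 266112 26880 (by norm_num))
    (bernE6 he 35802 273182 740268 935792 577928 157824 12800 (by norm_num))
    (bernE6 he 11997 96676 271566 346456 208336 51264 2560 (by norm_num))
    (bernE6_pos he 1752 14888 43524 55936 32544 6912 0 (by norm_num) (by norm_num))).trans_eq ?_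
  unfold uNum numA numA' numB numB' yf
  ring

lemma aNum_pos {e t : ℝ} (he : e ∈ Ioo (0 : ℝ) 1) (ht : t ∈ Ioc (0 : ℝ) 1) :
    0 < (3 + 5 * e * t ^ 2) * uNum e t + 8 * t * numB e t := by
  refine (bernT7 ht
    (bernE6 he 720 3810 8280 9420 5880 1890 240 (by norm_num))
    (bernE6 he 5697 31725 71523 83349 52704 17010 2160 (by norm_num))
    (bernE6 he 18564 110762 259342 307198 194534 62416 7936 (by norm_num))
    (bernE6 he 32565 212402 514399 610780 380378 119392 15232 (by norm_num))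
    (bernE6 he 33360 243798 605504 707174 422188 126208 16128 (by norm_num))
    (bernE6 he 19995 168737 424046 477424 265320 72160 8960 (by norm_num))
    (bernE6 he 6492 65558 163482 175248 89392 20608 2048 (by norm_num))
    (bernE6_pos he 879 11064 26640 27632 13632 2560 0 (by norm_num) (by norm_num))).trans_eq ?_
  unfold uNum numA numB
  ring

theorem margin_in {e t : ℝ} (he : e ∈ Ioo (0 : ℝ) 1) (ht : t ∈ Ioc (0 : ℝ) 1) :
    Margin (ptIn e t) := by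
  have hy := yf_pos he (Ioc_subset_Icc_self ht)
  have hd := den_pos he
  have ht0 := ht.1
  have h1 : 0 < 1 + t := by linarith
  have hB : numB e t < 0 := by
    have := mul_pos ht0 (negB_pos he ht)
    unfold numB
    linarith
  have eU : (ptIn e t).U = uNum e t / (den e * (1 + t) ^ 2) := by
    simp only [ptIn, PF, QF, uNum]
    field_simp
  refine ⟨?_, ?_, ?_, ?_, ?_, ?_⟩
  · exact div_neg_of_neg_of_pos hB (by positivity)
  · exact div_pos hy (by linarith)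
  · show yf e t / (2 * t) ≤ (1 + e * t ^ 2) / (2 * t)
    refine div_le_div_of_nonneg_right ?_ (by linarith)
    rw [yf]
    linarith [mul_nonneg he.1.le (sq_nonneg t)]
  · have h := div_pos (aNum_pos he ht) (show 0 < 2 * t * (den e * (1 + t) ^ 2) by positivity)
    rw [eU]
    simp only [ptIn, QF]
    have e1 : (4 * ((1 + e * t ^ 2) / (2 * t)) - yf e t / (2 * t)) *
        (uNum e t / (den e * (1 + t) ^ 2)) + 4 * (numB e t / (den e * (1 + t) ^ 2)) =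
        ((3 + 5 * e * t ^ 2) * uNum e t + 8 * t * numB e t) /
          (2 * t * (den e * (1 + t) ^ 2)) := by
      rw [yf]
      field_simp
      ring
    linarith
  · have h := div_pos (wNum_pos he ht) (show 0 < 2 * t * (den e * (1 + t) ^ 3) by positivity)
    refine h.le.trans_eq ?_
    rw [eU]
    simp only [ptIn, PF', QF, QF']
    field_simp
  · have h := div_pos (vNum_pos he ht) (show 0 < 2 * (den e * (1 + t) ^ 3) by positivity)
    rw [← sub_nonneg]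
    refine h.le.trans_eq ?_
    rw [eU]
    simp only [ptIn, QF']
    field_simp
    ring

theorem margin_out {e p g : ℝ} (he : e ∈ Ioo (0 : ℝ) 1) (hr : OutRange e p g) :
    Margin (ptOut e p g) := by
  obtain ⟨hR, -⟩ := out_raw he hr
  obtain ⟨d, s, z, o, v⟩ := exists_vars he hr
  have hD : 0 < Out.dD e := by unfold Out.dD; linarith [he.2]
  have hb : 0 < -Out.bP e := by
    have h := mul_pos (show (0 : ℝ) < 87 by norm_num) (pow_pos (sub_pos.2 he.2) 4)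
    have h1 := mul_nonneg he.1.le (pow_nonneg (sub_nonneg.2 he.2.le) 3)
    have h2 := mul_nonneg (pow_nonneg he.1.le 2) (pow_nonneg (sub_nonneg.2 he.2.le) 2)
    have h3 := mul_nonneg (pow_nonneg he.1.le 3) (sub_nonneg.2 he.2.le)
    have h4 := pow_nonneg he.1.le 4
    unfold Out.bP
    linarith
  obtain ⟨h, hh⟩ : ∃ h, h = -Out.bP e / (72 * Out.dD e) - Out.cP e / (144 * Out.dD e) * z := ⟨_, rfl⟩
  obtain ⟨-, eG, -, -, -⟩ := out_scaled he hr v.hd v.hs v.hz v.ho rfl rfl rfl rfl hh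
  have hh0 : 0 < h := by
    have h1 := Out.hk_pos (Ioo_subset_Icc_self he)
    have hz1 : z < 1 := by linarith [v.hz1, pow_pos v.hs0 2]
    have e1 : h = ((1 - z) * (2 * -Out.bP e) + z * (-2 * Out.bP e - Out.cP e)) /
        (144 * Out.dD e) := by rw [hh]; field_simp; ring
    rw [e1]
    exact div_pos (add_pos_of_pos_of_nonneg (mul_pos (sub_pos.2 hz1) (by linarith))
      (mul_nonneg v.hz0 h1)) (by positivity)
  have hG : (ptOut e p g).G < 0 := eG ▸ div_neg_of_neg_of_pos (neg_neg_of_pos hh0) v.hd0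
  have hgp : g ≤ p := by
    obtain ⟨hg0, hg2, hp0, -⟩ := hr
    exact (pow_le_pow_iff_left₀ hg0.le hp0.le two_ne_zero).1 (by linarith [he.1])
  obtain ⟨u, H, w, v', p', g', ho⟩ := exists_ptW (ptOut e p g)
  have hgp' : g' ≤ p' := by
    have e1 : p' = p := (congrArg Pt.p ho).symm
    have e2 : g' = g := (congrArg Pt.g ho).symm
    rw [e1, e2]
    exact hgp
  have hg0 : 0 < g' := by
    have e2 : g' = g := (congrArg Pt.g ho).symm
    rw [e2]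
    exact hr.1
  rw [ho] at hR hG ⊢
  obtain ⟨-, hg1, hp0, hp1, hu, hH, -, huw, hvh⟩ := hR.facts
  have hcr : (4 * (1 - p') + 3 * g') * H ≤ (3 - 2 * g') * u := by
    simpa [ptW] using hR.cross
  have htop : 0 ≤ 1 - 4 * (1 - p') * u + g' * u := by
    simpa [ptW] using hR.top
  have hpH := mul_nonneg hp0 hH
  have hpu := mul_nonneg hp0 hu.le
  have hgH := mul_nonneg hg0.le hH
  refine ⟨hG, hg0, hgp', ?_, ?_, ?_⟩ <;> simp only [ptW]
  · linarith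
  · linarith
  · linarith [mul_le_mul_of_nonneg_right hp1 hH]

end Vale.Agent.P219.CH.Relax.Five.Strictly
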