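import Vale.Agent.P219.Relax.Five.Cert
import Vale.Agent.P219.Relax.Five.Value
import Vale.Agent.P219.Relax.Five.In
import Vale.Agent.P219.Relax.Five.StrictMargin
import Vale.Agent.P219.Relax.Rigid.Defs
import Vale.Agent.P219.Relax.Strict.LineOf

/-!
# P219, dimension five: the certificates are strict

With the slope in the cosine negative the mean of the two squared sines is strict off the diagonal,
so the pair bounds vanish only at the contact and where both cosines are one beyond the diameter.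
The slack is the exact kernel less the least the line condition asks of it, at most the distance.
-/

noncomputable section

open Set Filter Topology MeasureTheory

namespace Vale.Agent.P219.CH.Relax.Five.Strictly

open GenK.Four (tanh_pos)

/-! ## One point -/

variable {o : Pt}

lemma sqrt_mul_lt_mean {a b : ℝ} (ha : 0 ≤ a) (hb : 0 ≤ b) (hne : a ≠ b) :
    Real.sqrt a * Real.sqrt b < (a + b) / 2 := by
  have h : Real.sqrt a - Real.sqrt b ≠ 0 :=
    sub_ne_zero.2 fun h => hne ((Real.sqrt_inj ha hb).1 h)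
  linarith [pow_two_pos_of_ne_zero h, Real.sq_sqrt ha, Real.sq_sqrt hb]

lemma lt_symX_of_bound (hG : o.G < 0) (hg : 0 < o.g) {c d B : ℝ} (hpos : 0 < |c| + |d|)
    (hB : Real.sqrt (1 - c ^ 2) * Real.sqrt (1 - d ^ 2) < B) :
    2 + ker o c d + ker o d c + o.g * o.G * (|c| + |d|) * B < symX o c d := by
  have : o.g * o.G * (|c| + |d|) < 0 :=
    mul_neg_of_neg_of_pos (mul_neg_of_pos_of_neg hg hG) hpos
  have := mul_lt_mul_of_neg_left hB this
  rw [symX]
  linarith

lemma symB_lt_symX (hG : o.G < 0) (hg : 0 < o.g) {c d : ℝ} (hc : c ∈ Icc (-1 : ℝ) 1)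
    (hd : d ∈ Icc (-1 : ℝ) 1) (hne : |c| ≠ |d|) : symB o c d < symX o c d := by
  have hpos : 0 < |c| + |d| := by
    rcases (abs_nonneg c).eq_or_lt with h | h
    · rcases (abs_nonneg d).eq_or_lt with h' | h'
      · exact absurd (h.symm.trans h') hne
      · linarith
    · linarith [abs_nonneg d]
  have hsq : 1 - c ^ 2 ≠ 1 - d ^ 2 := fun h => hne ((sq_eq_sq_iff_abs_eq_abs c d).1 (by linarith))
  refine lt_of_eq_of_lt ?_ (lt_symX_of_bound hG hg hpos
    (sqrt_mul_lt_mean (one_sub_sq_nonneg hc) (one_sub_sq_nonneg hd) hsq))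
  rw [symB]
  ring

/-- The master reduction is strict off the diagonal. -/
lemma pair_nonneg_lt (hG : o.G < 0) (hg : 0 < o.g) {M : ℝ → ℝ}
    (hdiag : ∀ m ∈ Ioc (0 : ℝ) 1, 0 ≤ 2 * diag o m + m ^ 2 * M (2 * m))
    (hzero : ∀ c ∈ Icc (0 : ℝ) 1, 0 ≤ symB o c 0)
    (hend : ∀ c ∈ Icc (0 : ℝ) 1, 0 ≤ symE o c + c * M (c + 1))
    {c d : ℝ} (hc : c ∈ Icc (0 : ℝ) 1) (hd : d ∈ Icc (0 : ℝ) 1) (hne : c ≠ d) :
    0 < symX o c d + c * d * M (c + d) := by
  obtain ⟨hc0, hc1⟩ := hc
  obtain ⟨hd0, hd1⟩ := hd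
  have hπ0 : 0 ≤ c * d := mul_nonneg hc0 hd0
  have hπ : c * d ≤ (c + d) ^ 2 / 4 := by linarith [sq_nonneg (c - d)]
  have hcI : c ∈ Icc (-1 : ℝ) 1 := ⟨by linarith, hc1⟩
  have hdI : d ∈ Icc (-1 : ℝ) 1 := ⟨by linarith, hd1⟩
  obtain ⟨s, hs⟩ : ∃ s, s = c + d := ⟨_, rfl⟩
  rw [← hs] at hπ ⊢
  rcases le_total s 1 with h1 | h1
  · have h0 : 0 < s := by
      rcases hc0.eq_or_lt with h | h
      · rcases hd0.eq_or_lt with h' | h'
        · exact absurd (h.symm.trans h') hne
        · linarith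
      · linarith
    have e : ∀ a b : ℝ, 0 ≤ a → 0 ≤ b → a + b = s → symB o a b + a * b * M s =
        (kSum o s 0 + o.g * o.G * s * (1 - s ^ 2 / 2)) + (2 * o.U' - s * o.G' +
          o.p * (-2 * o.U + s * o.G) - 8 * o.G + o.g * o.G * s + M s) * (a * b) := by
      intro a b ha hb hab
      subst hab
      rw [symB, abs_of_nonneg ha, abs_of_nonneg hb, kSum_eq]
      simp only [kSum]
      ring
    have ea := e s 0 h0.le le_rfl (add_zero s)
    have eb := e (s / 2) (s / 2) (by linarith) (by linarith) (by ring)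
    have ha := hzero s ⟨h0.le, h1⟩
    have hb := hdiag (s / 2) ⟨by linarith, by linarith⟩
    rw [← symB_diag o (by linarith : (0 : ℝ) ≤ s / 2)] at hb
    rw [show 2 * (s / 2) = s by ring, sq] at hb
    rw [eb] at hb
    simp only [mul_zero, zero_mul, add_zero] at ea
    rw [ea] at ha
    have hx := affine_nonneg hπ0 hπ (by simpa using ha)
      (by rw [show s ^ 2 / 4 = s / 2 * (s / 2) by ring]; exact hb)
    rw [← e c d hc0 hd0 hs.symm] at hx
    have hne' : |c| ≠ |d| := by rwa [abs_of_nonneg hc0, abs_of_nonneg hd0]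
    linarith [symB_lt_symX hG hg hcI hdI hne']
  · have h2 : s < 2 := lt_of_le_of_ne (by linarith) fun h =>
      hne (by linarith [hs ▸ h])
    obtain ⟨H, hH⟩ : ∃ H, H = s ^ 2 / 4 := ⟨_, rfl⟩
    have hH1 : H < 1 := by rw [hH]; nlinarith
    have hH0 : 0 ≤ H := by rw [hH]; positivity
    obtain ⟨κ, hκ⟩ : ∃ κ, κ = (1 + H) / (1 - H) := ⟨_, rfl⟩
    obtain ⟨L, hL⟩ : ∃ L : ℝ → ℝ,
        ∀ π, L π = kSum o s π + o.g * o.G * s * (1 - H + κ * (π - H)) + π * M s :=
      ⟨_, fun _ => rfl⟩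
    have hlin : ∀ π, L π = L 0 + (L 1 - L 0) * π := fun π => by
      simp only [hL, kSum]
      ring
    have ha : 0 ≤ L (s - 1) := by
      have h := hend (s - 1) ⟨by linarith, by linarith⟩
      rw [show s - 1 + 1 = s by ring] at h
      have eB : (1 - (s - 1) ^ 2) / (3 + (s - 1)) = 1 - H + κ * (s - 1 - H) := by
        rw [hκ, hH]
        have : (1 : ℝ) - s ^ 2 / 4 ≠ 0 := by linarith
        have : (4 : ℝ) - s ^ 2 ≠ 0 := by linarith
        have : (3 : ℝ) + (s - 1) ≠ 0 := by linarith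
        field_simp
        ring
      refine h.trans_eq ?_
      rw [hL, symE, kSum_eq, eB, show s - 1 + 1 = s by ring, mul_one, show 1 + (s - 1) = s by ring]
    have hb : 0 ≤ L H := by
      have h := hdiag (s / 2) ⟨by linarith, by linarith⟩
      rw [show 2 * (s / 2) = s by ring, ← symB_diag o (by linarith : (0 : ℝ) ≤ s / 2)] at h
      refine h.trans_eq ?_
      rw [hL, symB, kSum_eq, show s / 2 + s / 2 = s by ring, abs_of_nonneg (by linarith : 0 ≤ s / 2),
        show s / 2 + s / 2 = s by ring, hH]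
      ring_nf
    rw [hlin] at ha hb
    have hlo : s - 1 ≤ c * d := by nlinarith [mul_nonneg (sub_nonneg.2 hc1) (sub_nonneg.2 hd1)]
    have hx := affine_nonneg hlo (hπ.trans_eq hH.symm) ha hb
    rw [← hlin, hL] at hx
    have hB : Real.sqrt (1 - c ^ 2) * Real.sqrt (1 - d ^ 2) < 1 - H + κ * (c * d - H) := by
      have he : (1 - c ^ 2) * (1 - d ^ 2) = (1 + c * d) ^ 2 - 4 * H := by
        rw [hH, hs]; ring
      have e2 : 1 - H + κ * (c * d - H) = ((1 + H) * (1 + c * d) - 4 * H) / (1 - H) := by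
        rw [hκ]
        have : (1 : ℝ) - H ≠ 0 := by linarith
        field_simp
        ring
      have hne2 : c * d ≠ H := fun h => hne (by
        have : (c - d) ^ 2 = 0 := by rw [hH, hs] at h; linarith
        exact sub_eq_zero.1 (pow_eq_zero_iff two_ne_zero |>.1 this))
      have hHp : 0 < H := by rw [hH]; positivity
      have h4 : 4 * H < (1 + H) * (1 + c * d) := by
        have h5 : s ≤ 1 + c * d := by
          rw [hs]
          linarith [mul_nonneg (sub_nonneg.2 hc1) (sub_nonneg.2 hd1)]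
        have h6 : s ^ 2 < (1 + H) * s := by
          rw [sq]
          refine mul_lt_mul_of_pos_right ?_ (by linarith)
          rw [hH]
          nlinarith [pow_pos (sub_pos.2 h2) 2]
        have h7 := mul_le_mul_of_nonneg_left h5 (by linarith : (0 : ℝ) ≤ 1 + H)
        rw [hH] at h6 h7 ⊢
        linarith
      rw [← Real.sqrt_mul (one_sub_sq_nonneg hcI), he, e2,
        Real.sqrt_lt' (div_pos (by linarith) (by linarith)), div_pow,
        lt_div_iff₀ (pow_pos (by linarith) 2)]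
      nlinarith [mul_pos hHp (pow_two_pos_of_ne_zero (sub_ne_zero.2 hne2))]
    have h3 := lt_symX_of_bound hG hg (by rw [abs_of_nonneg hc0, abs_of_nonneg hd0]; linarith) hB
    rw [kSum_eq, abs_of_nonneg hc0, abs_of_nonneg hd0, ← hs] at h3
    linarith

/-- Where one cosine is outward there is more than the gain, with two outward ones more than
nothing. -/
lemma mixed_lt (h : GoodPt o) (hm : Margin o) {c d : ℝ} (hc : c ∈ Icc (0 : ℝ) 1)
    (hd : d ∈ Icc (0 : ℝ) 1) :
    2 * (c * d) * (o.g * o.U) < symX o c (-d) ∧ 0 < symX o (-c) (-d) := by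
  have hn : ∀ x : ℝ, x ∈ Icc (0 : ℝ) 1 → x ∈ Icc (-1 : ℝ) 1 ∧ -x ∈ Icc (-1 : ℝ) 1 := fun x hx =>
    ⟨⟨by linarith [hx.1], hx.2⟩, by linarith [hx.2], by linarith [hx.1]⟩
  rcases ne_or_eq c d with hne | rfl
  · have habs : |c| ≠ |(-d)| := by rwa [abs_neg, abs_of_nonneg hc.1, abs_of_nonneg hd.1]
    exact ⟨(h.mixed c hc d hd).trans_lt (symB_lt_symX hm.neg hm.g_pos (hn c hc).1 (hn d hd).2 habs),
      (h.outward c hc d hd).trans_lt
        (symB_lt_symX hm.neg hm.g_pos (hn c hc).2 (hn d hd).2 (by rwa [abs_neg]))⟩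
  obtain ⟨hc0, hc1⟩ := hc
  have hU : 0 < o.U := by linarith [h.weight_pos, hm.neg]
  have hp : 0 ≤ o.p := hm.g_pos.le.trans hm.g_le
  have hc2 : 0 ≤ 1 - c ^ 2 := sub_nonneg.2 (pow_le_one₀ hc0 hc1)
  have h1 : 0 ≤ o.p * o.U + o.g * o.G * c := by
    have a1 := mul_le_mul_of_nonpos_left hc1 (mul_nonpos_of_nonneg_of_nonpos hm.g_pos.le hm.neg.le)
    have a2 := mul_le_mul hm.g_le (show -o.G ≤ o.U by linarith [h.weight_pos])
      (by linarith [hm.neg]) hp
    linarith
  obtain ⟨E, hE⟩ : ∃ E, E = symB o c (-c) - 2 * (c * c) * (o.g * o.U) := ⟨_, rfl⟩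
  have hE0 : 0 < E := by
    have a1 := mul_nonneg hc2 (add_nonneg hm.deriv h1)
    have a2 : 0 < 2 + 2 * c ^ 2 * ((4 * o.p - o.g) * o.U + 4 * o.G) := by
      rcases le_total 0 ((4 * o.p - o.g) * o.U + 4 * o.G) with hs | hs
      · linarith [mul_nonneg (sq_nonneg c) hs]
      · linarith [mul_le_mul_of_nonpos_right (pow_le_one₀ (n := 2) hc0 hc1) hs, hm.weight]
    have e : E = 2 * (1 - c ^ 2) * (o.U' + 2 * o.p * o.U + (o.p * o.U + o.g * o.G * c)) +
        (2 + 2 * c ^ 2 * ((4 * o.p - o.g) * o.U + 4 * o.G)) := by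
      simp only [hE, symB, ker, abs_neg, abs_of_nonneg hc0]
      ring
    rw [e]
    linarith
  refine ⟨lt_of_lt_of_le (by linarith) (symB_le_symX hm.neg.le hm.g_pos.le (hn c ⟨hc0, hc1⟩).1
    (hn c ⟨hc0, hc1⟩).2), lt_of_lt_of_le ?_ (symB_le_symX hm.neg.le hm.g_pos.le
    (hn c ⟨hc0, hc1⟩).2 (hn c ⟨hc0, hc1⟩).2)⟩
  have a3 : 0 ≤ 4 * o.U - (o.G' * (1 - c ^ 2) + o.p * o.G * (3 + c ^ 2)) := by
    have b1 := mul_le_mul_of_nonneg_right hm.slope' hc2
    have b2 := mul_nonpos_of_nonpos_of_nonneg (mul_nonpos_of_nonneg_of_nonpos hp hm.neg.le)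
      (show 0 ≤ 3 + c ^ 2 by positivity)
    have b3 := mul_nonneg hU.le (sq_nonneg c)
    linarith
  have e : symB o (-c) (-c) = E + 2 * (c * c) * (o.g * o.U) +
      2 * c * (4 * o.U - (o.G' * (1 - c ^ 2) + o.p * o.G * (3 + c ^ 2))) - 16 * c ^ 2 * o.G := by
    simp only [hE, symB, ker, abs_neg, abs_of_nonneg hc0]
    ring
  have a4 := mul_nonneg hc0 a3
  have a6 := mul_nonpos_of_nonneg_of_nonpos (sq_nonneg c) hm.neg.le
  have a5 := mul_nonneg (mul_self_nonneg c) (mul_nonneg hm.g_pos.le hU.le)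
  rw [e]
  linarith

/-- Two inward cosines are above minus the gain. -/
lemma gain_lt (h : GoodPt o) (hm : Margin o) {c d : ℝ} (hc : c ∈ Ioc (0 : ℝ) 1)
    (hd : d ∈ Ioc (0 : ℝ) 1) : 0 < symX o c d + 2 * (c * d) * (o.g * o.U) := by
  have hg := h.gain hm.g_pos.le (c := c) (d := d) ⟨by linarith [hc.1], hc.2⟩
    ⟨by linarith [hd.1], hd.2⟩
  rw [abs_of_pos (mul_pos hc.1 hd.1)] at hg
  have hu : ∀ x : ℝ, x ∈ Ioc (0 : ℝ) 1 → 0 < o.U + x * o.G ∧ o.U + x * o.G < o.U := fun x hx =>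
    ⟨by linarith [mul_le_mul_of_nonpos_right hx.2 hm.neg.le, h.weight_pos],
      by linarith [mul_neg_of_pos_of_neg hx.1 hm.neg]⟩
  have hs : Real.sqrt ((o.U + c * o.G) * (o.U + d * o.G)) < o.U := by
    rw [Real.sqrt_lt' ((hu c hc).1.trans (hu c hc).2), sq]
    exact mul_lt_mul (hu c hc).2 (hu d hd).2.le (hu d hd).1 ((hu c hc).1.trans (hu c hc).2).le
  linarith [mul_lt_mul_of_pos_left hs (mul_pos (mul_pos (mul_pos two_pos (mul_pos hc.1 hd.1))
    hm.g_pos) one_pos)]

/-- The pair bound is strict away from two cosines equal to `t`. -/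
lemma pair_lt (h : GoodPt o) (hm : Margin o) {t : ℝ} (ht : t ∈ Ioc (0 : ℝ) 1) (he : EndCond o t)
    {c d : ℝ} (hc : c ∈ Ioc (0 : ℝ) 1) (hd : d ∈ Ioc (0 : ℝ) 1) (hne : ¬(c = t ∧ d = t)) :
    c * d * (2 * diag o t / t ^ 2 + slope o t * (c + d - 2 * t)) < symX o c d := by
  have hdiag : ∀ m ∈ Ioc (0 : ℝ) 1, 0 ≤ 2 * diag o m +
      m ^ 2 * (-(2 * diag o t / t ^ 2 + slope o t * (2 * m - 2 * t))) := fun m hm' => by
    have := diag_tangent h.conv₀ h.conv₁ hm' ht
    rw [mul_div_assoc]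
    linarith
  rcases ne_or_eq c d with hcd | rfl
  · have := pair_nonneg_lt hm.neg hm.g_pos
      (M := fun s => -(2 * diag o t / t ^ 2 + slope o t * (s - 2 * t))) hdiag h.zero
      (fun x hx => by have := he x hx; linarith) (Ioc_subset_Icc_self hc) (Ioc_subset_Icc_self hd)
      hcd
    linarith
  have hct : c ≠ t := fun h' => hne ⟨h', h'⟩
  have e : diag o c - c ^ 2 * (diag o t / t ^ 2 + slope o t * (c - t)) =
      (c - t) ^ 2 * (k0 o * (2 * c + t - 3 * (c * t)) + (3 * k0 o + k1 o) * (c * t)) / t ^ 3 := by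
    have := ht.1.ne'
    rw [slope, diag, diag]
    field_simp
    ring
  have hk : 0 < k0 o := by
    rw [k0]
    linarith [h.mono]
  have h3 : 0 < 2 * c + t - 3 * (c * t) := by
    rcases hc.2.eq_or_lt with h1 | h1
    · subst h1
      linarith [lt_of_le_of_ne ht.2 hct.symm]
    · nlinarith [mul_nonneg hc.1.le (sub_nonneg.2 ht.2), mul_pos ht.1 (sub_pos.2 h1)]
  have h4 : 0 < (c - t) ^ 2 *
      (k0 o * (2 * c + t - 3 * (c * t)) + (3 * k0 o + k1 o) * (c * t)) / t ^ 3 :=
    div_pos (mul_pos (pow_two_pos_of_ne_zero (sub_ne_zero.2 hct))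
      (add_pos_of_pos_of_nonneg (mul_pos hk h3) (mul_nonneg h.conv₁ (mul_pos hc.1 ht.1).le)))
      (pow_pos ht.1 3)
  have h5 : symX o c c = 2 * diag o c := by
    rw [← symB_diag o hc.1.le, symX, symB, Real.mul_self_sqrt
      (one_sub_sq_nonneg ⟨by linarith [hc.1], hc.2⟩)]
    ring
  rw [h5, mul_div_assoc]
  linarith

/-! ## At every distance -/

variable {R : ℝ}

lemma margin_all (hR : 0 < R) {r : ℝ} (hr : 0 < r) : Margin (ptR R r) := by
  unfold ptR
  split_ifs with h
  · exact margin_in (tanh_sq_mem hR) (tc_mem hR ⟨hr, h⟩)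
  · exact margin_out (tanh_sq_mem hR) (outRange hR (not_le.1 h).le)

/-- The kernel is strictly above the two values and the volume term off the contact. -/
lemma pair_facts_lt (hR : 0 < R) (hi : InFacts (Real.tanh R ^ 2))
    (ho : OutFacts (Real.tanh R ^ 2)) {r c d : ℝ} (hr : 0 < r) (hc : c ∈ Ioc (0 : ℝ) 1)
    (hd : d ∈ Ioc (0 : ℝ) 1) (hne1 : r ≤ 2 * R → ¬(c = tc R r ∧ d = tc R r))
    (hne2 : 2 * R < r → ¬(c = 1 ∧ d = 1)) :
    c * d * (margB R c + margB R d + 2 * betaFive R * r) <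
      Real.sinh r ^ 4 * symX (ptR R r) c d := by
  have he := tanh_sq_mem hR
  have hT := tanh_pos hR
  have hg : 0 ≤ (ptR R r).g := by
    rw [(ptR_pg hR hr).2, gc]
    exact div_nonneg hT.le (Real.sinh_pos_iff.2 hr).le
  have hS : 0 < Real.sinh r ^ 4 := pow_pos (Real.sinh_pos_iff.2 hr) 4
  have hcd : 0 ≤ c * d := (mul_pos hc.1 hd.1).le
  rcases le_or_gt r (2 * R) with h | h
  · have ht := tc_mem hR ⟨hr, h⟩
    rw [ptR, if_pos h] at hg ⊢
    obtain ⟨t, htd⟩ : ∃ t, t = tc R r := ⟨_, rfl⟩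
    rw [← htd] at ht hg ⊢
    have hy := yf_pos he (Ioc_subset_Icc_self ht)
    have hp := pair_lt (hi.good t ht) (margin_in he ht) ht (hi.endc t ht) hc hd
      (by rw [htd]; exact hne1 h)
    have h1 := margB_le_tangent hR hi hc ht
    have h2 := margB_le_tangent hR hi hd ht
    have hs : Real.sinh r = 2 * Real.tanh R * t / yf (Real.tanh R ^ 2) t := htd ▸ sinh_tc hR r
    have e1 : Real.sinh r ^ 4 * (diag (ptIn (Real.tanh R ^ 2) t) t / t ^ 2) =
        margB R t + betaFive R * r := by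
      have hl : Real.log ((1 + Real.tanh R * t) / (1 - Real.tanh R * t)) = r := htd ▸ log_tc hR r
      rw [margB, hl, hs]
      have := ht.1.ne'
      field_simp
      ring
    have e2 : Real.sinh r ^ 4 * slope (ptIn (Real.tanh R ^ 2) t) t =
        16 * Real.tanh R ^ 4 * aSlope (Real.tanh R ^ 2) t := by
      rw [aSlope, hs]
      field_simp
      ring
    refine lt_of_le_of_lt ?_ (mul_lt_mul_of_pos_left hp hS)
    have h3 : margB R c + margB R d + 2 * betaFive R * r ≤ Real.sinh r ^ 4 *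
        (2 * diag (ptIn (Real.tanh R ^ 2) t) t / t ^ 2 +
          slope (ptIn (Real.tanh R ^ 2) t) t * (c + d - 2 * t)) := by
      rw [mul_add, mul_div_assoc, mul_left_comm, e1, ← mul_assoc (Real.sinh r ^ 4), e2]
      linarith
    exact (mul_le_mul_of_nonneg_left h3 hcd).trans_eq (by ring)
  · have hor := outRange hR h.le
    rw [ptR, if_neg (not_le.2 h)] at hg ⊢
    obtain ⟨o, hoo⟩ : ∃ o, o = ptOut (Real.tanh R ^ 2) (pc R r) (gc R r) := ⟨_, rfl⟩
    rw [← hoo] at hg ⊢
    have hp := pair_lt (hoo ▸ ho.good _ _ hor : GoodPt o) (hoo ▸ margin_out he hor : Margin o)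
      ⟨zero_lt_one, le_rfl⟩ (hoo ▸ ho.endc _ _ hor : EndCond o 1) hc hd (hne2 h)
    have hsl : slope o 1 ≤ sigF (Real.tanh R ^ 2) (pc R r) ^ 2 *
        slope (ptIn (Real.tanh R ^ 2) 1) 1 := hoo ▸ ho.slope _ _ hor
    obtain ⟨e, hed⟩ : ∃ e, e = Real.tanh R ^ 2 := ⟨_, rfl⟩
    obtain ⟨L, hL⟩ : ∃ L, L = Real.sinh (2 * R) := ⟨_, rfl⟩
    obtain ⟨s, hs⟩ : ∃ s, s = Real.sinh r := ⟨_, rfl⟩
    have hs0 : 0 < s := hs ▸ Real.sinh_pos_iff.2 hr
    have hL0 : 0 < L := hL ▸ Real.sinh_pos_iff.2 (by linarith)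
    have h1e : 0 < 1 - e := by rw [hed]; linarith [he.2]
    have he0 : 0 < 1 + e := by rw [hed]; linarith [he.1]
    have hLe : L = 2 * Real.tanh R / (1 - e) := by
      rw [hL, hed, GenK.Four.sinh_eq, show 2 * R / 2 = R by ring]
    have hσ : sigF e (pc R r) = (L / s) ^ 2 := by
      rw [sigF, hed, ← gc_sq hr, gc, ← hed, ← hs, hLe]
      field_simp
    have hA1 : margB R 1 + betaFive R * (2 * R) = L ^ 4 * (1 - 2 * (1 - e) * PF e 1) := by
      have hl := log_tc hR (2 * R)
      rw [tc_diam hR] at hl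
      rw [margB, hl, ← hed, hLe]
      have hd1 : diag (ptIn e 1) 1 = 1 - 2 * (1 - e) * PF e 1 := by
        simp only [diag, k0, k1, k2, k3, ptIn, yf]
        ring
      rw [hd1, yf]
      field_simp
      ring
    have hX : margB R 1 + betaFive R * r ≤ s ^ 4 * diag o 1 := by
      rw [hoo, diag_out_one _ (pc_lt_one hR h.le), ← hed, XF, hσ]
      have hconv : 2 * (L * Real.cosh (2 * R)) * (r - 2 * R) ≤ s ^ 2 - L ^ 2 := by
        obtain ⟨K, hK⟩ : ∃ K, K = 2 * (L * Real.cosh (2 * R)) := ⟨_, rfl⟩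
        have hd : ∀ x, HasDerivAt (fun x => Real.sinh x ^ 2 - K * x)
            (2 * Real.sinh x * Real.cosh x - K) x := fun x =>
          (((Real.hasDerivAt_sinh x).pow 2).sub ((hasDerivAt_id x).const_mul K)).congr_deriv
            (by simp)
        have hm : MonotoneOn (fun x => Real.sinh x ^ 2 - K * x) (Ici (2 * R)) := by
          refine monotoneOn_of_deriv_nonneg (convex_Ici _)
            (fun x _ => (hd x).continuousAt.continuousWithinAt)
            (fun x _ => (hd x).differentiableAt.differentiableWithinAt) fun x hx => ?_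
          rw [interior_Ici] at hx
          rw [(hd x).deriv, hK, hL]
          have hx' : 2 * R < x := hx
          have h1 : Real.sinh (2 * (2 * R)) ≤ Real.sinh (2 * x) :=
            Real.sinh_le_sinh.2 (by linarith)
          rw [Real.sinh_two_mul, Real.sinh_two_mul x] at h1
          linarith
        have := hm (self_mem_Ici (a := 2 * R)) h.le h.le
        simp only [← hL, ← hs] at this
        rw [← hK]
        linarith
      obtain ⟨B, hB⟩ : ∃ B, B = betaHat e * (1 - e) ^ 4 / (2 * (1 + e)) := ⟨_, rfl⟩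
      have hB0 : 0 ≤ B := by
        rw [hB]
        have : 0 ≤ betaHat e := hed ▸ (betaHat_pos he).le
        positivity
      have hbeta : betaFive R = 2 * B * L ^ 3 * Real.cosh (2 * R) := by
        have hc2 : Real.cosh (2 * R) = (1 + e) / (1 - e) := by
          have h := pc_diam hR
          rw [pc, ← hL, ← hed, hLe] at h
          field_simp at h ⊢
          linarith
        rw [hB, hc2, hLe, betaFive, ← hed]
        field_simp
        ring
      have e3 : s ^ 4 * ((1 - 2 * (1 - e) * PF e 1) * ((L / s) ^ 2) ^ 2 +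
          B * ((L / s) ^ 2 - ((L / s) ^ 2) ^ 2)) =
          (margB R 1 + betaFive R * (2 * R)) + B * L ^ 2 * (s ^ 2 - L ^ 2) := by
        rw [hA1]
        field_simp
      rw [← hB, e3]
      have := mul_le_mul_of_nonneg_left hconv (mul_nonneg hB0 (sq_nonneg L))
      rw [hbeta]
      linarith
    have hslope : s ^ 4 * slope o 1 ≤ 16 * Real.tanh R ^ 4 * aSlope e 1 := by
      rw [← hed] at hsl
      refine (mul_le_mul_of_nonneg_left hsl (pow_nonneg hs0.le 4)).trans_eq ?_
      rw [hσ, aSlope, yf, hLe]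
      field_simp
      ring
    have h1 := margB_le_tangent hR hi hc ⟨zero_lt_one, le_rfl⟩
    have h2 := margB_le_tangent hR hi hd ⟨zero_lt_one, le_rfl⟩
    rw [← hed] at h1 h2
    have h3 : margB R c + margB R d + 2 * betaFive R * r ≤
        s ^ 4 * (2 * diag o 1 / 1 ^ 2 + slope o 1 * (c + d - 2 * 1)) := by
      have hneg : c + d - 2 ≤ 0 := by linarith [hc.2, hd.2]
      have := mul_le_mul_of_nonpos_right hslope hneg
      rw [one_pow, div_one, mul_one]
      linarith
    rw [← hs] at hS ⊢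
    refine lt_of_le_of_lt ?_ (mul_lt_mul_of_pos_left hp hS)
    exact (mul_le_mul_of_nonneg_left h3 hcd).trans_eq (by ring)

lemma contact_sphere (hR : 0 < R) (r : ℝ) :
    Real.cosh R * (Real.cosh r - 1) = Real.sinh R * Real.sinh r * tc R r := by
  have := Real.cosh_pos (r / 2)
  have := Real.sinh_pos_iff.2 hR
  rw [tc, show r = 2 * (r / 2) by ring, Real.cosh_two_mul, Real.sinh_two_mul,
    show 2 * (r / 2) / 2 = r / 2 by ring, Real.tanh_eq_sinh_div_cosh, Real.tanh_eq_sinh_div_cosh]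
  field_simp
  linear_combination Real.cosh_sq (r / 2)

/-! ## The slack -/

/-- The least the line condition asks of the exact kernel. -/
def low5 (R : ℝ) (A : ℝ → ℝ) (o : Pt) (r c d : ℝ) : ℝ :=
  max (max c 0 * max d 0 * (A (max c 0) + A (max d 0) + 2 * betaFive R * r) / Real.sinh r ^ 4)
      (-(2 * (max c 0 * max d 0) * (o.g * o.U))) +
    2 * (max c 0 * max (-d) 0 + max (-c) 0 * max d 0) * (o.g * o.U)

/-- The slack: at most the distance. -/
def kapFive (R : ℝ) (A : ℝ → ℝ) (z : ℝ × ℝ × ℝ) : ℝ :=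
  min (max z.1 0) (max (symX (ptR R z.1) z.2.1 z.2.2 - low5 R A (ptR R z.1) z.1 z.2.1 z.2.2) 0)

lemma kapFive_nonneg (A : ℝ → ℝ) (z : ℝ × ℝ × ℝ) : 0 ≤ kapFive R A z :=
  le_min (le_max_right _ _) (le_max_right _ _)

lemma kapFive_comm (A : ℝ → ℝ) (r c d : ℝ) : kapFive R A (r, c, d) = kapFive R A (r, d, c) := by
  simp only [kapFive, low5, symX_comm (ptR R r) c d, mul_comm (max c 0) (max d 0),
    add_comm (A (max c 0)) (A (max d 0))]
  ring_nf

lemma continuous_kapFive (hR : 0 < R) {A : ℝ → ℝ} (hA : Continuous A) :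
    Continuous (kapFive R A) := by
  have hT := (tanh_pos hR).ne'
  have hpos : IsOpen {z : ℝ × ℝ × ℝ | 0 < z.1} := isOpen_lt continuous_const continuous_fst
  refine continuous_iff_continuousAt.2 fun z => ?_
  rcases le_or_gt z.1 0 with hz | hz
  · have h0 : kapFive R A z = 0 := by
      rw [kapFive, max_eq_right hz, min_eq_left (le_max_right _ _)]
    rw [ContinuousAt, h0]
    refine squeeze_zero (fun w => kapFive_nonneg A w) (fun w => min_le_left _ _) ?_
    have := ((continuous_fst (X := ℝ) (Y := ℝ × ℝ)).max (continuous_const (y := (0 : ℝ)))).tendsto z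
    rwa [max_eq_right hz] at this
  refine ContinuousOn.continuousAt ?_ (hpos.mem_nhds hz)
  have hsh : ∀ w ∈ {z : ℝ × ℝ × ℝ | 0 < z.1}, Real.sinh w.1 ≠ 0 := fun w hw =>
    (Real.sinh_pos_iff.2 hw).ne'
  have hfst : ∀ {f : ℝ → ℝ}, ContinuousOn f (Ici 0) →
      ContinuousOn (fun w : ℝ × ℝ × ℝ => f w.1) {z | 0 < z.1} := fun hf =>
    hf.comp continuousOn_fst fun w (hw : 0 < w.1) => hw.le
  obtain ⟨hU', hG'⟩ := continuousOn_deriv hR
  obtain ⟨hU, hG⟩ := continuousOn_uU hR
  have cU' := hfst hU'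
  have cG' := hfst hG'
  have cU : ContinuousOn (fun w : ℝ × ℝ × ℝ => (ptR R w.1).U) {z | 0 < z.1} :=
    ((hfst hU).div_const (Real.tanh R)).congr fun w _ => by
      show (ptR R w.1).U = Real.tanh R * (ptR R w.1).U / Real.tanh R
      field_simp
  have cG : ContinuousOn (fun w : ℝ × ℝ × ℝ => (ptR R w.1).G) {z | 0 < z.1} :=
    ((hfst hG).div_const (Real.tanh R)).congr fun w _ => by
      show (ptR R w.1).G = Real.tanh R * (ptR R w.1).G / Real.tanh R
      field_simp
  have cp : ContinuousOn (fun w : ℝ × ℝ × ℝ => (ptR R w.1).p) {z | 0 < z.1} :=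
    (continuousOn_const.mul (ContinuousOn.div (by fun_prop) (by fun_prop) hsh) :
      ContinuousOn (fun w : ℝ × ℝ × ℝ =>
        Real.tanh R * (Real.cosh w.1 / Real.sinh w.1)) _).congr fun w hw => (ptR_pg hR hw).1
  have cg : ContinuousOn (fun w : ℝ × ℝ × ℝ => (ptR R w.1).g) {z | 0 < z.1} :=
    (ContinuousOn.div continuousOn_const (by fun_prop) hsh : ContinuousOn (fun w : ℝ × ℝ × ℝ =>
      Real.tanh R / Real.sinh w.1) _).congr fun w hw => (ptR_pg hR hw).2
  have hdiv : ContinuousOn (fun w : ℝ × ℝ × ℝ => max w.2.1 0 * max w.2.2 0 *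
      (A (max w.2.1 0) + A (max w.2.2 0) + 2 * betaFive R * w.1) / Real.sinh w.1 ^ 4)
      {z | 0 < z.1} :=
    ContinuousOn.div (by fun_prop) (by fun_prop) fun w hw => pow_ne_zero 4 (hsh w hw)
  unfold kapFive low5 symX ker
  fun_prop

/-- The exact kernel is at least the bound, and equal only on the contact or where both cosines are
one beyond the diameter. -/
lemma slack_facts (hR : 0 < R) (hi : InFacts (Real.tanh R ^ 2))
    (ho : OutFacts (Real.tanh R ^ 2)) {A : ℝ → ℝ} (hA : ∀ c ∈ Icc (0 : ℝ) 1, A c = margB R c)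
    {r c d : ℝ} (hr : 0 < r) (hc : c ∈ Icc (-1 : ℝ) 1) (hd : d ∈ Icc (-1 : ℝ) 1) :
    low5 R A (ptR R r) r c d ≤ symX (ptR R r) c d ∧
      (symX (ptR R r) c d = low5 R A (ptR R r) r c d →
        Real.cosh R * (Real.cosh r - 1) = Real.sinh R * Real.sinh r * c ∨
          (c = 1 ∧ 2 * R ≤ r)) := by
  obtain ⟨hg, -⟩ := good_all hR hi ho hr
  have hm := margin_all hR hr
  have hS : 0 < Real.sinh r ^ 4 := pow_pos (Real.sinh_pos_iff.2 hr) 4
  rcases lt_or_ge 0 c with hcs | hcs <;> rcases lt_or_ge 0 d with hds | hds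
  · have hcI : c ∈ Ioc (0 : ℝ) 1 := ⟨hcs, hc.2⟩
    have hdI : d ∈ Ioc (0 : ℝ) 1 := ⟨hds, hd.2⟩
    have hlow : low5 R A (ptR R r) r c d =
        max (c * d * (margB R c + margB R d + 2 * betaFive R * r) / Real.sinh r ^ 4)
          (-(2 * (c * d) * ((ptR R r).g * (ptR R r).U))) := by
      simp only [low5, max_eq_left hcs.le, max_eq_left hds.le, max_eq_right (neg_nonpos.2 hcs.le),
        max_eq_right (neg_nonpos.2 hds.le), hA c (Ioc_subset_Icc_self hcI),
        hA d (Ioc_subset_Icc_self hdI)]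
      ring
    have hgn := gain_lt hg hm hcI hdI
    have hF := pair_facts hR hi ho hr hcI hdI
    rw [hlow]
    refine ⟨max_le ?_ (by linarith), fun h0 => ?_⟩
    · rw [div_le_iff₀ hS]
      linarith
    by_contra hne
    rw [not_or] at hne
    have h1 := pair_facts_lt hR hi ho hr hcI hdI
      (fun _ he => hne.1 (by rw [he.1]; exact contact_sphere hR r))
      fun h he => hne.2 ⟨he.1, h.le⟩
    have h2 : c * d * (margB R c + margB R d + 2 * betaFive R * r) / Real.sinh r ^ 4 <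
        symX (ptR R r) c d := by
      rw [div_lt_iff₀ hS]
      linarith
    exact (max_lt h2 (by linarith)).ne' h0
  · obtain ⟨k, rfl⟩ : ∃ k, d = -k := ⟨-d, (neg_neg d).symm⟩
    have h := (mixed_lt hg hm (c := c) (d := k) ⟨hcs.le, hc.2⟩
      ⟨by linarith, by linarith [hd.1]⟩).1
    simp only [low5, max_eq_left hcs.le, max_eq_right hds, neg_neg,
      max_eq_left (show 0 ≤ k by linarith), max_eq_right (neg_nonpos.2 hcs.le), mul_zero, zero_mul,
      zero_div, neg_zero, max_self, add_zero, zero_add]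
    exact ⟨h.le, fun h0 => absurd h0 h.ne'⟩
  · obtain ⟨k, rfl⟩ : ∃ k, c = -k := ⟨-c, (neg_neg c).symm⟩
    have h := (mixed_lt hg hm (c := d) (d := k) ⟨hds.le, hd.2⟩
      ⟨by linarith, by linarith [hc.1]⟩).1
    rw [symX_comm (ptR R r) (-k) d]
    simp only [low5, max_eq_left hds.le, max_eq_right hcs, neg_neg,
      max_eq_left (show 0 ≤ k by linarith), max_eq_right (neg_nonpos.2 hds.le), mul_zero, zero_mul,
      zero_div, neg_zero, max_self, zero_add]
    rw [mul_comm k d]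
    exact ⟨h.le, fun h0 => absurd h0 h.ne'⟩
  · obtain ⟨k, rfl⟩ : ∃ k, c = -k := ⟨-c, (neg_neg c).symm⟩
    obtain ⟨l, rfl⟩ : ∃ l, d = -l := ⟨-d, (neg_neg d).symm⟩
    have h := (mixed_lt hg hm (c := k) (d := l) ⟨by linarith, by linarith [hc.1]⟩
      ⟨by linarith, by linarith [hd.1]⟩).2
    simp only [low5, max_eq_right hcs, max_eq_right hds, mul_zero, zero_mul, zero_div, neg_zero,
      max_self, add_zero]
    exact ⟨h.le, fun h0 => absurd h0 h.ne'⟩

/-- What the exact kernel less the slack satisfies. -/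
lemma low_le (hR : 0 < R) (hi : InFacts (Real.tanh R ^ 2)) (ho : OutFacts (Real.tanh R ^ 2))
    {A : ℝ → ℝ} (hA : ∀ c ∈ Icc (0 : ℝ) 1, A c = margB R c) {r c d : ℝ} (hr : 0 < r)
    (hc : c ∈ Icc (-1 : ℝ) 1) (hd : d ∈ Icc (-1 : ℝ) 1) :
    low5 R A (ptR R r) r c d ≤ symX (ptR R r) c d - kapFive R A (r, c, d) := by
  have h1 := (slack_facts hR hi ho hA hr hc hd).1
  have h2 : kapFive R A (r, c, d) ≤
      max (symX (ptR R r) c d - low5 R A (ptR R r) r c d) 0 := min_le_right _ _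
  rw [max_eq_left (by linarith)] at h2
  linarith

lemma sym_zero (R δ η c d : ℝ) : sym 5 R (wFive R δ η) 0 c d = 2 + 8 * η := by
  have hcf : Bend.cfac 1 0 = 1 := by simp [Bend.cfac, Bend.csh_zero, Bend.cshd_zero]
  have hw : wFive R δ η (0, 0) = η := by simp [wFive]
  simp only [sym, kernS, zero_pow two_ne_zero, zero_div, zero_mul, mul_zero, sub_zero,
    Real.sqrt_zero, hcf, hw, add_zero, one_mul]
  push_cast
  ring

/-- The line condition for a kernel above the damped exact one less the slack. -/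
theorem lineK_five (hR : 0 < R) (hi : InFacts (Real.tanh R ^ 2))
    (ho : OutFacts (Real.tanh R ^ 2)) {A a : ℝ → ℝ} (hA : ∀ c ∈ Icc (0 : ℝ) 1, A c = margB R c)
    (ha : ∀ c ∈ Icc (0 : ℝ) 1, a c = c * margB R c) {δ ε T : ℝ} (hδ : 0 < δ) (hε : 0 ≤ ε)
    (hδβ : 3 * δ * betaFive R ≤ ε) {K : ℝ × ℝ × ℝ → ℝ} (hsy : ∀ r c d, K (r, c, d) = K (r, d, c))
    (hK : ∀ r c d, r ∈ Ioc 0 T → c ∈ Icc (-1 : ℝ) 1 → d ∈ Icc (-1 : ℝ) 1 →
      phiR δ r * (symX (ptR R r) c d - kapFive R A (r, c, d)) ≤ K (r, c, d) + ε) :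
    Strict.LineK 5 a (betaFive R) ε T K := by
  have hβ := betaFive_pos hR
  have hT := tanh_pos hR
  have hmem : ∀ {x : ℝ}, x ∈ Ioc (0 : ℝ) 1 → x ∈ Icc (-1 : ℝ) 1 ∧ -x ∈ Icc (-1 : ℝ) 1 :=
    fun hx => ⟨⟨by linarith [hx.1], hx.2⟩, ⟨by linarith [hx.2], by linarith [hx.1]⟩⟩
  have hnp : ∀ c ∈ Ioc (0 : ℝ) 1, margB R c ≤ 0 := fun c hc =>
    margB_nonpos hR hi (Ioc_subset_Icc_self hc)
  have hph : ∀ r c d X, r ∈ Ioc 0 T → c ∈ Icc (-1 : ℝ) 1 → d ∈ Icc (-1 : ℝ) 1 → c * d ≠ 0 →
      X * |c * d| ≤ Real.sinh r ^ 4 * low5 R A (ptR R r) r c d →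
      phiR δ r * X ≤ Strict.phiK 5 ε K r c d := fun r c d X hr hc hd hcd hX => by
    have hS := pow_nonneg (Real.sinh_pos_iff.2 hr.1).le 4
    have hf := (phiR_mem hδ.ne' r).1
    have h1 := mul_le_mul_of_nonneg_left
      ((mul_le_mul_of_nonneg_left (low_le hR hi ho hA hr.1 hc hd) hf).trans (hK r c d hr hc hd)) hS
    have h2 := mul_le_mul_of_nonneg_left hX hf
    rw [Strict.phiK, le_div_iff₀ (abs_pos.2 hcd), show (5 : ℕ) - 1 = 4 from rfl]
    linarith
  have conv : ∀ x, 0 < x → Real.sinh x ^ 4 * ((ptR R x).g * (ptR R x).U) =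
      Real.sinh x ^ 3 * uU R x := fun x hx => by
    have := (Real.sinh_pos_iff.2 hx).ne'
    rw [(ptR_pg hR hx).2, gc, uU]
    field_simp
  have hgood : ∀ r, 0 < r → GoodPt (ptR R r) := fun r hr => (good_all hR hi ho hr).1
  have huU : ∀ r, 0 < r → 0 ≤ uU R r := fun r hr =>
    mul_nonneg hT.le (by linarith [(hgood r hr).weight_pos, (hgood r hr).slope_nonpos])
  refine Strict.lineK_of_pointwise hsy hβ.le hε
    (fun c hc => ?_) ?_ ?_ ?_
  · rw [ha c (Ioc_subset_Icc_self hc)]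
    exact mul_nonpos_of_nonneg_of_nonpos hc.1.le (hnp c hc)
  · intro r c d hr hc hd
    have hcd := mul_pos hc.1 hd.1
    have h := hph r c d (margB R c + margB R d + 2 * betaFive R * r) hr (hmem hc).1 (hmem hd).1
      hcd.ne' (by
        have hS : 0 < Real.sinh r ^ 4 := pow_pos (Real.sinh_pos_iff.2 hr.1) 4
        simp only [low5, max_eq_left hc.1.le, max_eq_left hd.1.le,
          max_eq_right (neg_nonpos.2 hc.1.le), max_eq_right (neg_nonpos.2 hd.1.le), mul_zero,
          zero_mul, add_zero, hA c (Ioc_subset_Icc_self hc), hA d (Ioc_subset_Icc_self hd)]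
        rw [abs_of_pos hcd, mul_comm _ (c * d), ← div_le_iff₀' hS]
        exact le_max_left _ _)
    have h3 : margB R c + margB R d + 2 * betaFive R * r - 2 * ε ≤
        phiR δ r * (margB R c + margB R d + 2 * betaFive R * r) := by
      have := mul_le_mul_of_nonneg_left (phiR_loss hδ hr.1.le) hβ.le
      have := mul_nonpos_of_nonpos_of_nonneg (add_nonpos (hnp c hc) (hnp d hd))
        (sub_nonneg.2 (phiR_mem hδ.ne' r).2)
      linarith
    rw [ha c (Ioc_subset_Icc_self hc), ha d (Ioc_subset_Icc_self hd),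
      mul_div_cancel_left₀ _ hc.1.ne', mul_div_cancel_left₀ _ hd.1.ne']
    linarith
  · intro r p c d e hr hrp hpT hc hd he
    have hp0 := hr.trans_le hrp
    have h1 : phiR δ r * -(2 * (Real.sinh r ^ 3 * uU R r)) ≤ Strict.phiK 5 ε K r c d := by
      refine hph r c d _ ⟨hr, hrp.trans hpT⟩ (hmem hc).1 (hmem hd).1 (mul_pos hc.1 hd.1).ne' ?_
      simp only [low5, max_eq_left hc.1.le, max_eq_left hd.1.le,
        max_eq_right (neg_nonpos.2 hc.1.le), max_eq_right (neg_nonpos.2 hd.1.le), mul_zero,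
        zero_mul, add_zero]
      refine le_trans (le_of_eq ?_)
        (mul_le_mul_of_nonneg_left (le_max_right _ _) (pow_nonneg (Real.sinh_pos_iff.2 hr).le 4))
      rw [abs_of_pos (mul_pos hc.1 hd.1), ← conv r hr]
      ring
    have h2 : phiR δ p * (2 * (Real.sinh p ^ 3 * uU R p)) ≤ Strict.phiK 5 ε K p c (-e) := by
      refine hph p c (-e) _ ⟨hp0, hpT⟩ (hmem hc).1 (hmem he).2
        (mul_ne_zero hc.1.ne' (neg_ne_zero.2 he.1.ne')) (le_of_eq ?_)
      simp only [low5, max_eq_left hc.1.le, neg_neg, max_eq_left he.1.le,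
        max_eq_right (neg_nonpos.2 hc.1.le), max_eq_right (neg_nonpos.2 he.1.le), mul_zero,
        zero_mul, zero_div, neg_zero, max_self, add_zero, zero_add]
      rw [mul_neg, abs_neg, abs_of_pos (mul_pos hc.1 he.1), ← conv p hp0]
      ring
    have h8 := mul_le_mul (phiR_mono hδ.ne' hr.le hrp) (cube_mono hR hgood hr hrp)
      (mul_nonneg (pow_nonneg (Real.sinh_pos_iff.2 hr).le 3) (huU r hr)) (phiR_mem hδ.ne' p).1
    linarith
  · intro r c d hr hc hd
    have hcd := mul_pos hc.1 hd.1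
    have hS := pow_nonneg (Real.sinh_pos_iff.2 hr.1).le 4
    have hgU : 0 ≤ (ptR R r).g * (ptR R r).U :=
      mul_nonneg (good_all hR hi ho hr.1).2
        (by linarith [(hgood r hr.1).weight_pos, (hgood r hr.1).slope_nonpos])
    constructor
    · have := hph r c (-d) 0 hr (hmem hc).1 (hmem hd).2
        (mul_ne_zero hc.1.ne' (neg_ne_zero.2 hd.1.ne')) (by
          simp only [low5, max_eq_left hc.1.le, neg_neg, max_eq_left hd.1.le,
            max_eq_right (neg_nonpos.2 hc.1.le), max_eq_right (neg_nonpos.2 hd.1.le), mul_zero,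
            zero_mul, zero_div, neg_zero, max_self, add_zero, zero_add]
          positivity)
      rwa [mul_zero] at this
    · have := hph r (-c) (-d) 0 hr (hmem hc).2 (hmem hd).2
        (by rw [neg_mul_neg]; exact hcd.ne') (by
          simp only [low5, max_eq_right (neg_nonpos.2 hc.1.le), max_eq_right (neg_nonpos.2 hd.1.le),
            mul_zero, zero_mul, zero_div, neg_zero, max_self, add_zero, le_refl])
      rwa [mul_zero] at this

/-- The cosine clamped to the unit interval. -/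
def clamp01 (c : ℝ) : ℝ := max 0 (min 1 c)

lemma clamp01_of_mem {c : ℝ} (hc : c ∈ Icc (0 : ℝ) 1) : clamp01 c = c := by
  rw [clamp01, min_eq_right hc.2, max_eq_right hc.1]

/-- Strict certificates against every ball, given the facts inside. -/
theorem strictCert_of_inPin (hI : InPin) : Rigid.StrictCert 5 := by
  intro R hR
  have he := tanh_sq_mem hR
  have hi := hI _ he
  have ho := outPin _ he
  have hc := certPin valuePin R hR hi ho
  obtain ⟨A, hAd⟩ : ∃ A, A = fun c => margB R (clamp01 c) := ⟨_, rfl⟩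
  have hA : ∀ c ∈ Icc (0 : ℝ) 1, A c = margB R c := fun c hc => by
    simp only [hAd, clamp01_of_mem hc]
  have hAc : Continuous A := hAd ▸ (continuousOn_margB hR).comp_continuous
    (continuous_const.max (continuous_const.min continuous_id))
    fun c => ⟨le_max_left _ _, max_le zero_le_one (min_le_left _ _)⟩
  refine ⟨aFive R, betaFive R, kapFive R A, hc.beta_nonneg, hc.measurable_a, hc.a_nonpos,
    hc.a_bounded, hc.value, ⟨continuous_kapFive hR hAc, fun r c d => kapFive_nonneg A _,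
      fun r c d hr hc' hd' h0 => ?_⟩, ?_⟩
  · obtain ⟨h1, h2⟩ := slack_facts hR hi ho hA hr hc' hd'
    refine h2 (le_antisymm ?_ h1)
    by_contra hlt
    rw [not_le] at hlt
    rw [kapFive, max_eq_left hr.le, max_eq_left (sub_nonneg.2 hlt.le)] at h0
    exact (lt_min hr (sub_pos.2 hlt)).ne' h0
  intro ε T hε hT
  have hβ := betaFive_pos hR
  obtain ⟨δ, hδd⟩ : ∃ δ, δ = ε / (3 * (betaFive R + 1)) := ⟨_, rfl⟩
  obtain ⟨η, hηd⟩ : ∃ η, η = ε * Real.tanh R / (8 * T) := ⟨_, rfl⟩
  have hTR := tanh_pos hR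
  have hδ : 0 < δ := hδd ▸ by positivity
  have hη : 0 < η := hηd ▸ by positivity
  have hloss : η * (8 * T / Real.tanh R) = ε := by rw [hηd]; field_simp
  have hδe : 3 * δ * (betaFive R + 1) = ε := by rw [hδd]; field_simp
  have hgood := fun r (hr : 0 < r) => (good_all hR hi ho hr).1
  have low : ∀ r c d, r ∈ Ioc 0 T → c ∈ Icc (-1 : ℝ) 1 → d ∈ Icc (-1 : ℝ) 1 →
      phiR δ r * symX (ptR R r) c d ≤ sym 5 R (wFive R δ η) r c d + ε := fun r c d hr hc hd => by
    have := sym_lower hR hδ.ne' hη.le hr (hgood r hr.1) hc hd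
    rw [hloss] at this
    linarith
  have hK : ∀ r c d, r ∈ Ioc 0 T → c ∈ Icc (-1 : ℝ) 1 → d ∈ Icc (-1 : ℝ) 1 →
      phiR δ r * (symX (ptR R r) c d - kapFive R A (r, c, d)) ≤
        Rigid.cutK 5 R ε (wFive R δ η) (kapFive R A) (r, c, d) + ε := fun r c d hr hc hd => by
    have h1 := low r c d hr hc hd
    have h2 : kapFive R A (r, c, d) ≤ r := (min_le_left _ _).trans_eq (max_eq_left hr.1.le)
    have hf := phiR_mem hδ.ne' r
    have h3 := (mul_le_mul_of_nonneg_left h2 (sub_nonneg.2 hf.2)).trans (phiR_loss hδ hr.1.le)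
    have h4 : max (kapFive R A (r, c, d) - ε) 0 ≤ phiR δ r * kapFive R A (r, c, d) :=
      max_le (by linarith [mul_nonneg hδ.le hβ.le]) (mul_nonneg hf.1 (kapFive_nonneg A _))
    rw [Rigid.cutK]
    linarith
  refine ⟨wFive R δ η, contDiff_wFive hR hδ.ne' η,
    fun p q hp hq => wFive_pos hR hδ.ne' hη hgood hp hq, ?_, ?_,
    lineK_five hR hi ho hA (fun c _ => aFive_eq R c) hδ hε.le (by linarith) (fun r c d => ?_) hK⟩
  · intro r c d hr hc hd
    rcases hr.1.eq_or_lt with h0 | h0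
    · subst h0
      have hsym : sym 5 R (wFive R δ η) 0 c d = 2 + 8 * η := sym_zero R δ η c d
      have : 0 ≤ gainW (wFive R δ η) 0 c d := by
        rw [gainW]
        exact div_nonneg (by positivity) (Bend.sfac_pos 1 (by norm_num)).le
      rw [hsym]
      linarith
    · have h1 := low r c d ⟨h0, hr.2⟩ hc hd
      have h2 := gain_lower hR hδ.ne' hη.le h0 (hgood r h0) hc.2 hd.2
      have h3 := mul_nonneg (phiR_mem hδ.ne' r).1
        ((hgood r h0).gain (good_all hR hi ho h0).2 hc hd)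
      rw [mul_add] at h3
      linarith
  · intro r c d hr hc hd hcd
    rcases hr.1.eq_or_lt with h0 | h0
    · subst h0
      have hk : kapFive R A (0, c, d) = 0 :=
        le_antisymm ((min_le_left _ _).trans_eq (max_self 0)) (kapFive_nonneg A _)
      simp only [Rigid.cutK, hk, sym_zero]
      rw [max_eq_right (by linarith)]
      linarith
    · have h1 := (mul_le_mul_of_nonneg_left (low_le hR hi ho hA h0 hc hd)
        (phiR_mem hδ.ne' r).1).trans (hK r c d ⟨h0, hr.2⟩ hc hd)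
      rcases mul_eq_zero.1 hcd with hz | hz <;>
      · rw [hz] at h1 ⊢
        simp only [low5, neg_zero, max_self, mul_zero, zero_mul, zero_div, add_zero] at h1
        linarith
  · simp only [Rigid.cutK, sym_comm R _ r c d, kapFive_comm A r c d]

/-- The certificates of dimension five are strict. -/
theorem strictCert : Rigid.StrictCert 5 :=
  strictCert_of_inPin inPin

end Vale.Agent.P219.CH.Relax.Five.Strictly
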