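import Vale.Agent.P219.Relax.Five.Damp
import Vale.Agent.P219.Relax.Five.Profile
import Vale.Agent.P219.Relax.Five.Algebra

/-!
# P219, dimension five: the regularised weight

The exact weight times `(r ^ 2 / (r ^ 2 + δ ^ 2)) ^ 3`, plus a small constant. The factor increases,
so it only helps the kernel; the constant costs a small absolute amount.
-/

noncomputable section

open Set Filter Topology

namespace Vale.Agent.P219.CH.Relax.Five

open Eight (rho2 rho2_pos rho2_of_gt contDiff_rho2)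
open GenK.Four (tanh_pos sfac_one)

/-- A profile times a high enough power of the distance, in the half squared distance, is `C¹`. -/
lemma contDiff_pow_sqrt {J J' : ℝ → ℝ} (k : ℕ) (hJ : ∀ r, 0 < r → HasDerivAt J (J' r) r)
    (hc : ContinuousOn J (Ici 0)) (hc' : ContinuousOn J' (Ici 0)) :
    ContDiff ℝ 1 fun a => Real.sqrt (2 * a) ^ (k + 3) * J (Real.sqrt (2 * a)) := by
  obtain ⟨r, hr⟩ : ∃ r : ℝ → ℝ, r = fun a => Real.sqrt (2 * a) := ⟨_, rfl⟩
  have hrc : Continuous r := hr ▸ Real.continuous_sqrt.comp (continuous_const.mul continuous_id)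
  have hmem : ∀ a, r a ∈ Ici (0 : ℝ) := fun a => by rw [hr]; exact Real.sqrt_nonneg _
  have hJc : Continuous fun a => J (r a) := hc.comp_continuous hrc hmem
  have hJc' : Continuous fun a => J' (r a) := hc'.comp_continuous hrc hmem
  obtain ⟨D, hD⟩ : ∃ D : ℝ → ℝ,
      D = fun a => ((k : ℝ) + 3) * r a ^ (k + 1) * J (r a) + r a ^ (k + 2) * J' (r a) := ⟨_, rfl⟩
  have hd : ∀ a, HasDerivAt (fun a => r a ^ (k + 3) * J (r a)) (D a) a := fun a => by
    rcases lt_trichotomy a 0 with ha | ha | ha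
    · have h0 : ∀ b, b < 0 → r b = 0 := fun b hb => by
        rw [hr]; exact Real.sqrt_eq_zero_of_nonpos (by linarith)
      have e : D a = 0 := by simp [hD, h0 a ha]
      rw [e]
      refine (hasDerivAt_const a (0 : ℝ)).congr_of_eventuallyEq
        (eventually_of_mem (Iio_mem_nhds ha) fun b hb => ?_)
      simp [h0 b hb]
    · subst ha
      have h0 : r 0 = 0 := by simp [hr]
      have e : D 0 = 0 := by simp [hD, h0]
      rw [e, hasDerivAt_iff_tendsto_slope]
      have hh : Tendsto (fun b => 2 * (r b ^ (k + 1) * J (r b))) (𝓝[≠] 0) (𝓝 0) := by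
        have h : Continuous fun b => 2 * (r b ^ (k + 1) * J (r b)) :=
          continuous_const.mul ((hrc.pow _).mul hJc)
        have := h.tendsto 0
        simp only [h0, zero_pow (Nat.succ_ne_zero k), zero_mul, mul_zero] at this
        exact tendsto_nhdsWithin_of_tendsto_nhds this
      refine hh.congr' ?_
      filter_upwards [self_mem_nhdsWithin] with b (hb : b ≠ 0)
      rw [slope_def_field, h0, zero_pow (Nat.succ_ne_zero _), zero_mul, sub_zero, sub_zero]
      rcases hb.lt_or_gt with hb' | hb'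
      · have : r b = 0 := by rw [hr]; exact Real.sqrt_eq_zero_of_nonpos (by linarith)
        simp [this]
      · have h2 : r b ^ 2 = 2 * b := by rw [hr]; exact Real.sq_sqrt (by linarith)
        rw [show r b ^ (k + 3) = r b ^ 2 * r b ^ (k + 1) by ring, h2]
        field_simp
    · have hpos : 0 < r a := by rw [hr]; exact Real.sqrt_pos.2 (by linarith)
      have hra : HasDerivAt r (1 / r a) a := by
        rw [hr]
        refine (((hasDerivAt_id a).const_mul 2).sqrt
          (by simp only [id_eq]; linarith)).congr_deriv ?_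
        simp only [id_eq]
        field_simp
      refine ((hra.pow (k + 3)).mul ((hJ _ hpos).comp a hra)).congr_deriv ?_
      simp only [hD, Pi.pow_apply, Function.comp_apply]
      push_cast
      rw [show r a ^ (k + 3) = r a ^ (k + 1) * r a * r a by ring,
        show r a ^ (k + 2) = r a ^ (k + 1) * r a by ring]
      field_simp
  rw [hr] at hd
  rw [contDiff_one_iff_deriv]
  refine ⟨fun a => (hd a).differentiableAt, ?_⟩
  rw [show deriv (fun a => Real.sqrt (2 * a) ^ (k + 3) * J (Real.sqrt (2 * a))) = D from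
    funext fun a => (hd a).deriv, hD]
  exact ((continuous_const.mul (hrc.pow _)).mul hJc).add ((hrc.pow _).mul hJc')

/-- The weight. -/
def wFive (R δ η : ℝ) (z : ℝ × ℝ) : ℝ :=
  η + (Real.sqrt (2 * z.1) ^ 5 * uU R (Real.sqrt (2 * z.1)) +
    z.2 * (Real.sqrt (2 * z.1) ^ 4 * uG R (Real.sqrt (2 * z.1)))) / rho2 δ z.1 ^ 3

variable {R δ η r : ℝ}

lemma continuousOn_uU (hR : 0 < R) : ContinuousOn (uU R) (Ici 0) ∧ ContinuousOn (uG R) (Ici 0) :=
  ⟨fun _ hr => (hasDerivAt_uU hR hr).1.continuousAt.continuousWithinAt,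
    fun _ hr => (hasDerivAt_uU hR hr).2.continuousAt.continuousWithinAt⟩

theorem contDiff_wFive (hR : 0 < R) (hδ : δ ≠ 0) (η : ℝ) : ContDiff ℝ 1 (wFive R δ η) := by
  have hU := contDiff_pow_sqrt 2 (fun r hr => (hasDerivAt_uU hR hr.le).1) (continuousOn_uU hR).1
    (continuousOn_deriv hR).1
  have hG := contDiff_pow_sqrt 1 (fun r hr => (hasDerivAt_uU hR hr.le).2) (continuousOn_uU hR).2
    (continuousOn_deriv hR).2
  unfold wFive
  exact contDiff_const.add (((hU.comp contDiff_fst).add (contDiff_snd.mul (hG.comp contDiff_fst))).div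
    (((contDiff_rho2 δ).comp contDiff_fst).pow 3) fun z => (pow_pos (rho2_pos hδ _) 3).ne')

lemma wFive_ray (hδ : δ ≠ 0) (hr : 0 < r) (s : ℝ) :
    wFive R δ η (r ^ 2 / 2, s) = η + phiR δ r * ((uU R r + s / r * uG R r) / r) := by
  have hs : 0 < r ^ 2 + δ ^ 2 := by positivity
  have hρ : rho2 δ (r ^ 2 / 2) = r ^ 2 + δ ^ 2 := by
    rw [rho2_of_gt hδ (by nlinarith [sq_nonneg δ, sq_nonneg r])]; ring
  simp only [wFive, sqrt_two_half hr.le, hρ, phiR]
  field_simp

lemma partials_ray (hR : 0 < R) (hδ : δ ≠ 0) (hr : 0 < r) (c : ℝ) :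
    r * (r * Dir.wa (wFive R δ η) (r ^ 2 / 2, r * c) + c * Dir.wb (wFive R δ η) (r ^ 2 / 2, r * c)) =
        phiR' δ r * (uU R r + c * uG R r) + phiR δ r * ((ptR R r).U' + c * (ptR R r).G') -
          phiR δ r * (uU R r + c * uG R r) / r ∧
      Dir.wb (wFive R δ η) (r ^ 2 / 2, r * c) = phiR δ r * uG R r / r ^ 2 := by
  have hd : HasFDerivAt (wFive R δ η) (fderiv ℝ (wFive R δ η) (r ^ 2 / 2, r * c))
      (r ^ 2 / 2, r * c) :=
    ((contDiff_wFive hR hδ η).differentiable one_ne_zero _).hasFDerivAt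
  constructor
  · have h1 : HasDerivAt (fun z => wFive R δ η (z ^ 2 / 2, z * c))
        (r * Dir.wa (wFive R δ η) (r ^ 2 / 2, r * c) + c * Dir.wb (wFive R δ η) (r ^ 2 / 2, r * c))
        r := by
      have hz : HasDerivAt (fun z : ℝ => (z ^ 2 / 2, z * c)) (r, c) r :=
        (((hasDerivAt_pow 2 r).div_const 2).congr_deriv (by norm_num)).prodMk
          (((hasDerivAt_id r).mul_const c).congr_deriv (by simp))
      refine (hd.comp_hasDerivAt r hz).congr_deriv ?_
      have : ((r, c) : ℝ × ℝ) = r • ((1, 0) : ℝ × ℝ) + c • ((0, 1) : ℝ × ℝ) := by simp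
      rw [this, map_add, map_smul, map_smul, Dir.wa, Dir.wb, smul_eq_mul, smul_eq_mul]
    obtain ⟨hU, hG⟩ := hasDerivAt_uU hR hr.le
    have h2 : HasDerivAt (fun z => η + phiR δ z * ((uU R z + c * uG R z) / z))
        (phiR' δ r * ((uU R r + c * uG R r) / r) + phiR δ r *
          ((((ptR R r).U' + c * (ptR R r).G') * r - (uU R r + c * uG R r) * 1) / r ^ 2)) r :=
      (((hasDerivAt_phiR hδ r).mul ((hU.add (hG.const_mul c)).div (hasDerivAt_id r) hr.ne')).const_add η)
    have h3 := h1.unique (h2.congr_of_eventuallyEq (eventually_of_mem (Ioi_mem_nhds hr) fun z hz => ?_))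
    · rw [h3]
      field_simp
      ring
    · have hz : 0 < z := hz
      simp only [wFive_ray hδ hz, mul_div_cancel_left₀ c hz.ne']
  · have h1 : HasDerivAt (fun s => wFive R δ η (r ^ 2 / 2, s))
        (Dir.wb (wFive R δ η) (r ^ 2 / 2, r * c)) (r * c) :=
      hd.comp_hasDerivAt_of_eq (r * c)
        ((hasDerivAt_const (r * c) (r ^ 2 / 2)).prodMk (hasDerivAt_id (r * c))) rfl
    refine h1.unique ?_
    simp only [wFive_ray hδ hr]
    refine ((((((hasDerivAt_id (r * c)).div_const r).mul_const (uG R r)).const_add (uU R r)).div_const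
      r).const_mul (phiR δ r)).const_add η |>.congr_deriv ?_
    field_simp

/-- The symmetrised kernel of the weight, exactly. -/
theorem sym_eval (hR : 0 < R) (hδ : δ ≠ 0) (hr : 0 < r) (hG : (ptR R r).G ≤ 0) (c d : ℝ) :
    sym 5 R (wFive R δ η) r c d = 2 + phiR δ r * (symX (ptR R r) c d - 2) +
      phiR' δ r * Real.tanh R * ((1 - d ^ 2) * ((ptR R r).U + c * (ptR R r).G) +
        (1 - c ^ 2) * ((ptR R r).U + d * (ptR R r).G)) +
      η * (((1 - d ^ 2) + r * (Real.cosh r / Real.sinh r) * (3 + d ^ 2) -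
          4 / Real.tanh R * r * d) +
        ((1 - c ^ 2) + r * (Real.cosh r / Real.sinh r) * (3 + c ^ 2) -
          4 / Real.tanh R * r * c)) := by
  have hT := tanh_pos hR
  have hs := Real.sinh_pos_iff.2 hr
  obtain ⟨hp, hg⟩ := ptR_pg hR hr
  have hH : GenK.modelH 5 R = 4 / Real.tanh R := by
    have := (Real.sinh_pos_iff.2 hR).ne'
    have := (Real.cosh_pos R).ne'
    rw [GenK.modelH, Real.tanh_eq_sinh_div_cosh]
    push_cast
    field_simp
    ring
  have hcf : Bend.cfac 1 (r ^ 2 / 2) = r * (Real.cosh r / Real.sinh r) := by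
    rw [Bend.cfac, show 2 * (1 : ℝ) ^ 2 * (r ^ 2 / 2) = r ^ 2 by ring, Bend.csh_sq,
      ← Bend.two_mul_cshd_sq r]
    field_simp
  have key : ∀ c d : ℝ, kernS 5 1 (GenK.modelH 5 R) (wFive R δ η) (r ^ 2 / 2) (r * c) d =
      phiR δ r * (ker (ptR R r) c d + (ptR R r).g * (ptR R r).G * |d| *
          (Real.sqrt (1 - c ^ 2) * Real.sqrt (1 - d ^ 2))) +
        phiR' δ r * Real.tanh R * ((1 - d ^ 2) * ((ptR R r).U + c * (ptR R r).G)) +
        η * ((1 - d ^ 2) + r * (Real.cosh r / Real.sinh r) * (3 + d ^ 2) -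
          4 / Real.tanh R * r * d) := by
    intro c d
    obtain ⟨h1, h2⟩ := partials_ray (η := η) hR hδ hr c
    have e2 : Real.sqrt (2 * (r ^ 2 / 2) - (r * c) ^ 2) = r * Real.sqrt (1 - c ^ 2) := by
      rw [show 2 * (r ^ 2 / 2) - (r * c) ^ 2 = r ^ 2 * (1 - c ^ 2) by ring,
        Real.sqrt_mul (sq_nonneg r), Real.sqrt_sq hr.le]
    have habs : |Dir.wb (wFive R δ η) (r ^ 2 / 2, r * c)| =
        -(phiR δ r * (Real.tanh R * (ptR R r).G) / r ^ 2) := by
      rw [h2, uG, abs_of_nonpos]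
      exact div_nonpos_of_nonpos_of_nonneg (mul_nonpos_of_nonneg_of_nonpos (phiR_mem hδ r).1
        (mul_nonpos_of_nonneg_of_nonpos hT.le hG)) (sq_nonneg r)
    have hlin : 2 * (r ^ 2 / 2) * Dir.wa (wFive R δ η) (r ^ 2 / 2, r * c) +
        r * c * Dir.wb (wFive R δ η) (r ^ 2 / 2, r * c) =
        r * (r * Dir.wa (wFive R δ η) (r ^ 2 / 2, r * c) +
          c * Dir.wb (wFive R δ η) (r ^ 2 / 2, r * c)) := by ring
    simp only [kernS]
    rw [hlin, h1, habs, e2, sqrt_two_half hr.le, hcf, sfac_one hr, hH, wFive_ray hδ hr,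
      mul_div_cancel_left₀ c hr.ne']
    simp only [ker, uU, uG, hp, hg, pc, gc]
    push_cast
    field_simp
    ring
  rw [sym, key, key, symX, mul_comm (Real.sqrt (1 - d ^ 2))]
  ring

/-- The kernel of the weight is at least the damped exact one, less the cost of the constant. -/
theorem sym_lower (hR : 0 < R) (hδ : δ ≠ 0) (hη : 0 ≤ η) {B : ℝ} (hr : r ∈ Ioc 0 B)
    (hg : GoodPt (ptR R r)) {c d : ℝ} (hc : c ∈ Icc (-1 : ℝ) 1) (hd : d ∈ Icc (-1 : ℝ) 1) :
    phiR δ r * symX (ptR R r) c d - η * (8 * B / Real.tanh R) ≤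
      sym 5 R (wFive R δ η) r c d := by
  obtain ⟨hr0, hrB⟩ := hr
  have hT := tanh_pos hR
  rw [sym_eval hR hδ hr0 hg.slope_nonpos]
  have hu : ∀ x : ℝ, x ≤ 1 → 0 ≤ (ptR R r).U + x * (ptR R r).G := fun x hx => by
    linarith [mul_le_mul_of_nonpos_right hx hg.slope_nonpos, hg.weight_pos]
  have h1 : 0 ≤ phiR' δ r * Real.tanh R * ((1 - d ^ 2) * ((ptR R r).U + c * (ptR R r).G) +
      (1 - c ^ 2) * ((ptR R r).U + d * (ptR R r).G)) :=
    mul_nonneg (mul_nonneg (by unfold phiR'; positivity) hT.le)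
      (add_nonneg (mul_nonneg (one_sub_sq_nonneg hd) (hu c hc.2))
        (mul_nonneg (one_sub_sq_nonneg hc) (hu d hd.2)))
  have h2 : ∀ x : ℝ, x ∈ Icc (-1 : ℝ) 1 → -(4 * B / Real.tanh R) ≤
      (1 - x ^ 2) + r * (Real.cosh r / Real.sinh r) * (3 + x ^ 2) - 4 / Real.tanh R * r * x := by
    intro x hx
    have := one_sub_sq_nonneg hx
    have : 0 ≤ r * (Real.cosh r / Real.sinh r) * (3 + x ^ 2) := by
      have := Real.sinh_pos_iff.2 hr0
      have := Real.cosh_pos r
      positivity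
    have h4 : 4 / Real.tanh R * r * x ≤ 4 * B / Real.tanh R := by
      rw [show 4 / Real.tanh R * r * x = 4 * (r * x) / Real.tanh R by ring]
      refine div_le_div_of_nonneg_right ?_ hT.le
      nlinarith [mul_le_mul_of_nonneg_left hx.2 hr0.le]
    linarith
  have h3 := mul_le_mul_of_nonneg_left (add_le_add (h2 d hd) (h2 c hc)) hη
  have h5 := (phiR_mem hδ r).2
  rw [show η * (-(4 * B / Real.tanh R) + -(4 * B / Real.tanh R)) =
    -(η * (8 * B / Real.tanh R)) by ring] at h3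
  linarith

theorem wFive_pos (hR : 0 < R) (hδ : δ ≠ 0) (hη : 0 < η)
    (hg : ∀ r, 0 < r → GoodPt (ptR R r)) {p q : ℝ} (hp : 0 ≤ p) (hq : q ^ 2 ≤ 2 * p) :
    0 < wFive R δ η (p, q) := by
  rcases hp.eq_or_lt with h | h
  · subst h
    simp [wFive, hη]
  obtain ⟨r, hr⟩ : ∃ r, r = Real.sqrt (2 * p) := ⟨_, rfl⟩
  have hr0 : 0 < r := hr ▸ Real.sqrt_pos.2 (by linarith)
  have hpr : r ^ 2 / 2 = p := by rw [hr, Real.sq_sqrt (by linarith)]; ring
  have hq1 : q / r ≤ 1 := by
    rw [div_le_one hr0]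
    nlinarith [sq_nonneg (q - r)]
  have h := hg r hr0
  rw [← hpr, wFive_ray hδ hr0, uU, uG]
  refine add_pos_of_pos_of_nonneg hη (mul_nonneg (phiR_mem hδ r).1 (div_nonneg ?_ hr0.le))
  have := mul_nonneg (tanh_pos hR).le (show 0 ≤ (ptR R r).U + q / r * (ptR R r).G by
    linarith [mul_le_mul_of_nonpos_right hq1 h.slope_nonpos, h.weight_pos])
  linarith

/-- The weight on a ray dominates the damped exact one. -/
theorem gain_lower (hR : 0 < R) (hδ : δ ≠ 0) (hη : 0 ≤ η) (hr : 0 < r) (hg : GoodPt (ptR R r))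
    {c d : ℝ} (hc : c ≤ 1) (hd : d ≤ 1) :
    phiR δ r * (2 * |c * d| * ((ptR R r).g *
      Real.sqrt (((ptR R r).U + c * (ptR R r).G) * ((ptR R r).U + d * (ptR R r).G)))) ≤
      gainW (wFive R δ η) r c d := by
  have hT := tanh_pos hR
  have hs := Real.sinh_pos_iff.2 hr
  obtain ⟨o, ho⟩ : ∃ o, o = ptR R r := ⟨_, rfl⟩
  have hgg : o.g = Real.tanh R / Real.sinh r := by rw [ho, (ptR_pg hR hr).2, gc]
  rw [← ho] at hg ⊢
  obtain ⟨P, hP⟩ : ∃ P, P = phiR δ r * Real.tanh R / r := ⟨_, rfl⟩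
  have hP0 : 0 ≤ P := hP ▸ div_nonneg (mul_nonneg (phiR_mem hδ r).1 hT.le) hr.le
  have hu : ∀ x : ℝ, x ≤ 1 → 0 ≤ o.U + x * o.G := fun x hx => by
    linarith [mul_le_mul_of_nonpos_right hx hg.slope_nonpos, hg.weight_pos]
  have hw : ∀ x : ℝ, wFive R δ η (r ^ 2 / 2, r * x) = η + P * (o.U + x * o.G) := fun x => by
    rw [wFive_ray hδ hr, mul_div_cancel_left₀ x hr.ne', uU, uG, ← ho, hP]
    ring
  have h1 : P * Real.sqrt ((o.U + c * o.G) * (o.U + d * o.G)) ≤
      Real.sqrt (wFive R δ η (r ^ 2 / 2, r * c) * wFive R δ η (r ^ 2 / 2, r * d)) := by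
    refine Real.le_sqrt_of_sq_le ?_
    rw [hw, hw, mul_pow, Real.sq_sqrt (mul_nonneg (hu c hc) (hu d hd))]
    nlinarith [mul_nonneg (mul_nonneg hη hP0) (hu c hc), mul_nonneg (mul_nonneg hη hP0) (hu d hd),
      mul_nonneg hη hη]
  rw [gainW, sfac_one hr, hgg]
  calc phiR δ r * (2 * |c * d| * (Real.tanh R / Real.sinh r *
        Real.sqrt ((o.U + c * o.G) * (o.U + d * o.G))))
      = 2 * |c * d| * (P * Real.sqrt ((o.U + c * o.G) * (o.U + d * o.G))) / (Real.sinh r / r) := by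
        rw [hP]; field_simp
    _ ≤ _ := by gcongr

end Vale.Agent.P219.CH.Relax.Five
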